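import Vale.Agent.P110.Core

/-! The local frequency profile of one branch. -/

namespace Vale.Agent.P110

open Set Filter

theorem exists_profile (γ H : ℝ) (hγ0 : 0 < γ) (hγ1 : γ < 1) :
    ∃ (Θ Ξ Ξ' : ℝ → ℝ) (K₀ w : ℝ), 0 ≤ K₀ ∧ 0 < w ∧ w ≤ 1 / 4 ∧
    (∀ x, HasDerivAt Θ (Ξ x) x) ∧ (∀ x, HasDerivAt Ξ (Ξ' x) x) ∧ Continuous Ξ' ∧
    (∀ x ∈ Icc (0 : ℝ) 1, 1 - γ ≤ Ξ' x) ∧
    (∀ x ∈ Icc (0 : ℝ) 1, ∀ y ∈ Icc (0 : ℝ) 1, |Ξ' x - Ξ' y| ≤ K₀ * |x - y|) ∧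
    (∀ x ∈ Icc (0 : ℝ) 1, x ≤ 2 * w ∨ 1 - 2 * w ≤ x → H ≤ Ξ' x) ∧
    Θ 0 = 0 ∧ Ξ 0 = 0 ∧ Ξ 1 = 1 ∧
    (∀ x ∈ Icc (0 : ℝ) 1, ∀ y ∈ Icc (0 : ℝ) 1, |Ξ x - Ξ y| ≤ K₀ * |x - y|) ∧
    (∀ x ∈ Icc (0 : ℝ) 1, 0 ≤ Ξ x ∧ Ξ x ≤ 1) ∧ (∀ x ∈ Ioo (0 : ℝ) 1, 0 < Ξ x ∧ Ξ x < 1) := by
  obtain ⟨D, hD⟩ := exists_nat_ge (H / γ)
  have hD' : H ≤ γ * D := by rwa [div_le_iff₀' hγ0] at hD
  have hD0 : (0 : ℝ) ≤ D := Nat.cast_nonneg D
  let Ξ : ℝ → ℝ := fun x => (1 - γ) * x + γ * ((2 * x - 1) ^ (2 * D + 1) + 1) / 2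
  let Ξ' : ℝ → ℝ := fun x => (1 - γ) + γ * (2 * D + 1) * (2 * x - 1) ^ (2 * D)
  have hcΞ : Continuous Ξ := by fun_prop
  have hodd : Odd (2 * D + 1) := odd_two_mul_add_one D
  have heven : Even (2 * D) := even_two_mul D
  have habs : ∀ x ∈ Icc (0 : ℝ) 1, |2 * x - 1| ≤ 1 := fun x hx =>
    abs_le.2 ⟨by linarith [hx.1], by linarith [hx.2]⟩
  have hpow : ∀ (n : ℕ), ∀ x ∈ Icc (0 : ℝ) 1, ∀ y ∈ Icc (0 : ℝ) 1,
      |(2 * x - 1) ^ n - (2 * y - 1) ^ n| ≤ 2 * n * |x - y| := by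
    intro n x hx y hy
    refine (abs_pow_sub_pow_le _ _ _).trans ?_
    have h1 : max |2 * x - 1| |2 * y - 1| ^ (n - 1) ≤ 1 :=
      pow_le_one₀ (le_max_of_le_left (abs_nonneg _)) (max_le (habs x hx) (habs y hy))
    have h2 : |2 * x - 1 - (2 * y - 1)| = 2 * |x - y| := by
      rw [show 2 * x - 1 - (2 * y - 1) = 2 * (x - y) by ring, abs_mul, abs_two]
    rw [h2]
    have h3 : 0 ≤ 2 * |x - y| * n := by positivity
    nlinarith
  have hrange : ∀ x ∈ Icc (0 : ℝ) 1, -1 ≤ (2 * x - 1) ^ (2 * D + 1) ∧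
      (2 * x - 1) ^ (2 * D + 1) ≤ 1 := by
    intro x hx
    rw [← abs_le, abs_pow]
    exact pow_le_one₀ (abs_nonneg _) (habs x hx)
  refine ⟨fun x => ∫ t in (0 : ℝ)..x, Ξ t, Ξ, Ξ', (2 * D + 2) * (4 * D + 1), 1 / (16 * (D + 1)),
    by positivity, by positivity, ?_, fun x => (hcΞ.integral_hasStrictDerivAt 0 x).hasDerivAt,
    ?_, by fun_prop, ?_, ?_, ?_, by simp, ?_, ?_, ?_, ?_, ?_⟩
  · rw [div_le_div_iff₀ (by positivity) (by norm_num)]; linarith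
  · intro x
    have h1 : HasDerivAt (fun x : ℝ => 2 * x - 1) 2 x := by
      simpa using ((hasDerivAt_id x).const_mul 2).sub_const 1
    have h2 := ((hasDerivAt_id x).const_mul (1 - γ)).add
      ((((h1.pow (2 * D + 1)).add_const 1).const_mul γ).div_const 2)
    refine h2.congr_deriv ?_
    simp only [Ξ', Nat.add_sub_cancel]
    push_cast; ring
  · intro x _
    have : 0 ≤ (2 * x - 1) ^ (2 * D) := heven.pow_nonneg _
    simp only [Ξ']
    have : 0 ≤ γ * (2 * D + 1) * (2 * x - 1) ^ (2 * D) := by positivity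
    linarith
  · intro x hx y hy
    have h1 := hpow (2 * D) x hx y hy
    have h2 : Ξ' x - Ξ' y = γ * (2 * D + 1) * ((2 * x - 1) ^ (2 * D) - (2 * y - 1) ^ (2 * D)) := by
      simp only [Ξ']; ring
    rw [h2, abs_mul, abs_of_nonneg (by positivity : 0 ≤ γ * (2 * D + 1))]
    push_cast at h1
    have h3 := abs_nonneg (x - y)
    calc γ * (2 * D + 1) * |(2 * x - 1) ^ (2 * D) - (2 * y - 1) ^ (2 * D)|
        ≤ 1 * (2 * D + 1) * (2 * (2 * D) * |x - y|) := by gcongr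
      _ ≤ _ := by nlinarith [mul_nonneg hD0 h3]
  · intro x hx hx'
    have hw : 4 * (1 / (16 * ((D : ℝ) + 1))) * (2 * D) ≤ 1 / 2 := by
      rw [mul_one_div, div_mul_eq_mul_div, div_le_div_iff₀ (by positivity) (by norm_num)]
      linarith
    have hw1 : 4 * (1 / (16 * ((D : ℝ) + 1))) ≤ 1 := by
      rw [mul_one_div, div_le_one (by positivity)]; linarith
    generalize 1 / (16 * ((D : ℝ) + 1)) = w at hx' hw hw1
    have h1 : 1 - 4 * w ≤ |2 * x - 1| := by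
      rcases hx' with h | h
      · exact le_trans (by linarith) (neg_le_abs _)
      · exact le_trans (by linarith) (le_abs_self _)
    have h2 : (1 - 4 * w) ^ (2 * D) ≤ (2 * x - 1) ^ (2 * D) := by
      rw [← heven.pow_abs (2 * x - 1)]
      exact pow_le_pow_left₀ (by linarith) h1 _
    have h3 := one_add_mul_le_pow (a := -(4 * w)) (by linarith) (2 * D)
    rw [← sub_eq_add_neg] at h3
    push_cast at h3
    have h4 : 1 / 2 ≤ (2 * x - 1) ^ (2 * D) := by linarith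
    simp only [Ξ']
    have h5 : γ * (2 * D + 1) * (1 / 2) ≤ γ * (2 * D + 1) * (2 * x - 1) ^ (2 * D) := by gcongr
    nlinarith
  · simp only [Ξ]
    rw [mul_zero, mul_zero, zero_sub, hodd.neg_one_pow]; ring
  · simp only [Ξ]
    rw [show (2 : ℝ) * 1 - 1 = 1 by norm_num, one_pow]; ring
  · intro x hx y hy
    have h1 := hpow (2 * D + 1) x hx y hy
    have h2 : Ξ x - Ξ y = (1 - γ) * (x - y) +
        γ / 2 * ((2 * x - 1) ^ (2 * D + 1) - (2 * y - 1) ^ (2 * D + 1)) := by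
      simp only [Ξ]; ring
    rw [h2]
    refine (abs_add_le _ _).trans ?_
    rw [abs_mul, abs_mul, abs_of_nonneg (by linarith : 0 ≤ 1 - γ),
      abs_of_nonneg (by positivity : 0 ≤ γ / 2)]
    push_cast at h1
    have h3 := abs_nonneg (x - y)
    calc (1 - γ) * |x - y| + γ / 2 * |(2 * x - 1) ^ (2 * D + 1) - (2 * y - 1) ^ (2 * D + 1)|
        ≤ 1 * |x - y| + 1 / 2 * (2 * (2 * D + 1) * |x - y|) := by gcongr; linarith
      _ ≤ _ := by nlinarith [mul_nonneg hD0 h3, mul_nonneg hD0 (mul_nonneg hD0 h3)]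
  · intro x hx
    have := hrange x hx
    simp only [Ξ]
    constructor <;> nlinarith [hx.1, hx.2]
  · intro x hx
    have := hrange x ⟨hx.1.le, hx.2.le⟩
    simp only [Ξ]
    constructor <;> nlinarith [hx.1, hx.2]

/-- The steep ramp from level `0` to level `b`, with a free small correction `c`. -/
noncomputable def ramp (b c h v : ℝ) : ℝ := b * v / h + c * v * (h - v)

/-- The primitive of the ramp. -/
noncomputable def rampP (b c h v : ℝ) : ℝ := b * v ^ 2 / (2 * h) + c * (h * v ^ 2 / 2 - v ^ 3 / 3)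

theorem hasDerivAt_rampP (b c : ℝ) {h : ℝ} (hh : h ≠ 0) (v : ℝ) :
    HasDerivAt (rampP b c h) (ramp b c h v) v := by
  have h1 := (((hasDerivAt_pow 2 v).const_mul b).div_const (2 * h)).add
    (((((hasDerivAt_pow 2 v).const_mul h).div_const 2).sub
      ((hasDerivAt_pow 3 v).div_const 3)).const_mul c)
  refine h1.congr_deriv ?_
  unfold ramp
  push_cast; field_simp

theorem hasDerivAt_ramp (b c h v : ℝ) :
    HasDerivAt (ramp b c h) (b / h + c * (h - 2 * v)) v := by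
  have h1 := (((hasDerivAt_id v).const_mul b).div_const h).add
    (((hasDerivAt_id v).const_mul c).mul ((hasDerivAt_id v).const_sub h))
  refine h1.congr_deriv ?_
  simp only [id]; ring

theorem ramp_zero (b c h : ℝ) : ramp b c h 0 = 0 := by simp [ramp]

theorem ramp_top (b c : ℝ) {h : ℝ} (hh : h ≠ 0) : ramp b c h h = b := by
  simp only [ramp, sub_self, mul_zero, add_zero]; field_simp

theorem ramp_range {b c h v : ℝ} (hh : 0 < h) (hc : 0 ≤ c) (hb : 2 * c * h ^ 2 ≤ b)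
    (hv : v ∈ Icc 0 h) : 0 ≤ ramp b c h v ∧ ramp b c h v ≤ b := by
  have h1 := hv.1
  have h2 : 0 ≤ h - v := by linarith [hv.2]
  have hb0 : 0 ≤ b := le_trans (by positivity) hb
  unfold ramp
  refine ⟨by positivity, ?_⟩
  have h3 : b * v / h + c * v * (h - v) = b - (h - v) * (b - c * v * h) / h := by
    field_simp; ring
  rw [h3]
  have h4 : 0 ≤ b - c * v * h := by nlinarith [mul_nonneg hc hh.le, hv.2, mul_nonneg hc h1]
  have : 0 ≤ (h - v) * (b - c * v * h) / h := by positivity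
  linarith

theorem ramp_lip {b c h x y : ℝ} (hh : 0 < h) (hc : 0 ≤ c) (hb : 2 * c * h ^ 2 ≤ b)
    (hx : x ∈ Icc 0 h) (hy : y ∈ Icc 0 h) :
    |ramp b c h x - ramp b c h y| ≤ 2 * b / h * |x - y| := by
  have h1 : ramp b c h x - ramp b c h y = (b / h + c * (h - x - y)) * (x - y) := by
    unfold ramp; ring
  rw [h1, abs_mul]
  refine mul_le_mul_of_nonneg_right ?_ (abs_nonneg _)
  have h2 : c * h ≤ b / h := by rw [le_div_iff₀ hh]; nlinarith [mul_nonneg hc hh.le]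
  have h3 : 2 * b / h = 2 * (b / h) := by ring
  have h4 : 0 ≤ c * h := mul_nonneg hc hh.le
  rw [h3, abs_le]
  constructor <;> nlinarith [hx.1, hx.2, hy.1, hy.2, mul_nonneg hc hx.1, mul_nonneg hc hy.1]

theorem ramp_osc {b c h : ℝ} (hh : 0 < h) (hc : 0 ≤ c) (hb0 : 0 < b) (hb : 2 * c * h ^ 2 ≤ b)
    (φ₀ k σ : ℝ) (hσ : σ = 1 ∨ σ = -1) :
    ‖∫ v in (0 : ℝ)..h, e (φ₀ + σ * (rampP b c h v - k * v))‖ ≤ 4 / √(b / (2 * h)) := by
  have hσ2 : σ * σ = 1 := by rcases hσ with h | h <;> rw [h] <;> norm_num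
  refine sdt (f := fun v => φ₀ + σ * (rampP b c h v - k * v))
    (f' := fun v => σ * (ramp b c h v - k)) (f'' := fun v => σ * (b / h + c * (h - 2 * v)))
    hh.le (by positivity) hσ (fun x => ?_) (fun x => ?_) (by fun_prop) (fun x hx => ?_)
  · have := (((hasDerivAt_rampP b c hh.ne' x).sub ((hasDerivAt_id x).const_mul k)).const_mul
      σ).const_add φ₀
    exact this.congr_deriv (by simp)
  · exact ((hasDerivAt_ramp b c h x).sub_const k).const_mul σ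
  · rw [← mul_assoc, hσ2, one_mul]
    have h2 : c * h ≤ b / (2 * h) := by rw [le_div_iff₀ (by positivity)]; nlinarith
    have h3 : b / h = 2 * (b / (2 * h)) := by field_simp
    rw [h3]
    nlinarith [hx.1, hx.2]

/-- Clamping to an interval. -/
noncomputable def cl (hi x : ℝ) : ℝ := max 0 (min hi x)

theorem cl_mem {hi : ℝ} (h : 0 ≤ hi) (x : ℝ) : cl hi x ∈ Icc 0 hi :=
  ⟨le_max_left _ _, max_le h (min_le_left _ _)⟩

theorem cl_lip (hi x y : ℝ) : |cl hi x - cl hi y| ≤ |x - y| := by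
  unfold cl
  refine (abs_max_sub_max_le_max _ _ _ _).trans (max_le (by simp) ?_)
  exact (abs_min_sub_min_le_max _ _ _ _).trans (max_le (by simp) le_rfl)

theorem cl_of_nonpos (hi : ℝ) {x : ℝ} (h : x ≤ 0) : cl hi x = 0 :=
  max_eq_left ((min_le_right _ _).trans h)

theorem cl_of_ge {hi x : ℝ} (h0 : 0 ≤ hi) (h : hi ≤ x) : cl hi x = hi := by
  unfold cl; rw [min_eq_left h, max_eq_right h0]

theorem cl_of_mem {hi x : ℝ} (h : x ∈ Icc 0 hi) : cl hi x = x := by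
  unfold cl; rw [min_eq_right h.2, max_eq_right h.1]

theorem prim_eq {χ P P' : ℝ → ℝ} (hχ : Continuous χ) {A B : ℝ}
    (hP : ∀ t, HasDerivAt P (P' t) t) (h : ∀ t ∈ Icc A B, χ t = P' t) {x : ℝ} (hx : x ∈ Icc A B) :
    ∫ t in (0 : ℝ)..x, χ t = (∫ t in (0 : ℝ)..A, χ t) + (P x - P A) := by
  rw [← intervalIntegral.integral_add_adjacent_intervals (hχ.intervalIntegrable 0 A)
    (hχ.intervalIntegrable A x)]
  congr 1
  apply intervalIntegral.integral_eq_sub_of_hasDerivAt _ (hχ.intervalIntegrable A x)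
  intro t ht
  rw [uIcc_of_le hx.1] at ht
  rw [h t ⟨ht.1, ht.2.trans hx.2⟩]
  exact hP t

/-- The three-piece profile with prescribed phase after the first ramp. -/
theorem exists_chi {Θ Ξ : ℝ → ℝ} {K₀ : ℝ} (hK₀ : 0 ≤ K₀) (hΘ : ∀ x, HasDerivAt Θ (Ξ x) x)
    (hΘ0 : Θ 0 = 0) (hΞ0 : Ξ 0 = 0) (hΞ1 : Ξ 1 = 1)
    (hΞL : ∀ x ∈ Icc (0 : ℝ) 1, ∀ y ∈ Icc (0 : ℝ) 1, |Ξ x - Ξ y| ≤ K₀ * |x - y|)
    (hΞr : ∀ x ∈ Icc (0 : ℝ) 1, 0 ≤ Ξ x ∧ Ξ x ≤ 1)
    {A Lb h Λ : ℝ} (hA : 0 < A) (hLb : 0 < Lb) (hh : 0 < h) (hΛ : 0 < Λ) (hAh : 12 / h ≤ A)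
    (φ₁ : ℝ) :
    ∃ χ : ℝ → ℝ,
      (∀ x y, |χ x - χ y| ≤ (2 * A / h + Lb * K₀ / Λ + 2 * (A + Lb) / h) * |x - y|) ∧
      (∀ x, 0 ≤ χ x ∧ χ x ≤ A + Lb) ∧
      (∀ x, x ≤ 0 ∨ h + Λ + h ≤ x → χ x = 0) ∧
      (∃ m : ℤ, ∫ x in (0 : ℝ)..(h + Λ + h), χ x = m) ∧
      ∀ k : ℝ, ‖(∫ x in (0 : ℝ)..(h + Λ + h), e ((∫ t in (0 : ℝ)..x, χ t) - k * x)) -
        (Λ : ℝ) * e (φ₁ - k * h) * ∫ t in (0 : ℝ)..1, e (Λ * Lb * Θ t - Λ * (k - A) * t)‖
        ≤ 8 / √(A / (2 * h)) := by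
  have hc : ∀ y : ℝ, 0 ≤ 6 / h ^ 3 * Int.fract y ∧ 2 * (6 / h ^ 3 * Int.fract y) * h ^ 2 ≤ A := by
    intro y
    have h1 := Int.fract_nonneg y
    have h2 := Int.fract_lt_one y
    refine ⟨by positivity, le_trans ?_ hAh⟩
    have : 2 * (6 / h ^ 3 * Int.fract y) * h ^ 2 = 12 / h * Int.fract y := by field_simp; ring
    rw [this]
    have : 0 < 12 / h := by positivity
    nlinarith
  have hPtop : ∀ b y : ℝ, rampP b (6 / h ^ 3 * Int.fract y) h h = b * h / 2 + Int.fract y := by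
    intro b y; unfold rampP; field_simp; ring
  obtain ⟨c₁, hc₁⟩ : ∃ c₁, c₁ = 6 / h ^ 3 * Int.fract (φ₁ - A * h / 2) := ⟨_, rfl⟩
  obtain ⟨c₃, hc₃⟩ : ∃ c₃, c₃ = 6 / h ^ 3 *
    Int.fract (-(rampP A c₁ h h + A * Λ + Lb * Λ * Θ 1 + (A + Lb) * h / 2)) := ⟨_, rfl⟩
  have hc₁0 : 0 ≤ c₁ := hc₁ ▸ (hc _).1
  have hc₁1 : 2 * c₁ * h ^ 2 ≤ A := hc₁ ▸ (hc _).2
  have hc₃0 : 0 ≤ c₃ := hc₃ ▸ (hc _).1
  have hc₃1 : 2 * c₃ * h ^ 2 ≤ A + Lb := le_trans (hc₃ ▸ (hc _).2) (by linarith)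
  have hP1 : e (rampP A c₁ h h) = e φ₁ := by
    refine e_eq_of_sub_eq_int (-⌊φ₁ - A * h / 2⌋) ?_
    rw [hc₁, hPtop, ← Int.self_sub_floor]; push_cast; ring
  obtain ⟨χ, hχ⟩ : ∃ χ : ℝ → ℝ, χ = fun x => ramp A c₁ h (cl h x) + Lb * Ξ (cl 1 ((x - h) / Λ))
      + (ramp (A + Lb) c₃ h (cl h (h + Λ + h - x)) - (A + Lb)) := ⟨_, rfl⟩
  have hlip : ∀ x y, |χ x - χ y| ≤ (2 * A / h + Lb * K₀ / Λ + 2 * (A + Lb) / h) * |x - y| := by
    intro x y
    have h1 := (ramp_lip hh hc₁0 hc₁1 (cl_mem hh.le x) (cl_mem hh.le y)).trans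
      (mul_le_mul_of_nonneg_left (cl_lip h x y) (by positivity))
    have h2 := (hΞL _ (cl_mem zero_le_one ((x - h) / Λ)) _
      (cl_mem zero_le_one ((y - h) / Λ))).trans (mul_le_mul_of_nonneg_left (cl_lip 1 _ _) hK₀)
    have h3 := (ramp_lip hh hc₃0 hc₃1 (cl_mem hh.le (h + Λ + h - x))
      (cl_mem hh.le (h + Λ + h - y))).trans
      (mul_le_mul_of_nonneg_left (cl_lip h _ _) (by positivity))
    rw [show (x - h) / Λ - (y - h) / Λ = (x - y) / Λ by ring, abs_div, abs_of_pos hΛ] at h2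
    rw [show h + Λ + h - x - (h + Λ + h - y) = -(x - y) by ring, abs_neg] at h3
    have h4 : χ x - χ y = (ramp A c₁ h (cl h x) - ramp A c₁ h (cl h y)) +
        Lb * (Ξ (cl 1 ((x - h) / Λ)) - Ξ (cl 1 ((y - h) / Λ))) +
        (ramp (A + Lb) c₃ h (cl h (h + Λ + h - x)) -
          ramp (A + Lb) c₃ h (cl h (h + Λ + h - y))) := by
      rw [hχ]; ring
    rw [h4]
    refine (abs_add_three _ _ _).trans ?_
    rw [abs_mul, abs_of_pos hLb]
    have h5 := mul_le_mul_of_nonneg_left h2 hLb.le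
    calc _ ≤ 2 * A / h * |x - y| + Lb * (K₀ * (|x - y| / Λ)) + 2 * (A + Lb) / h * |x - y| := by
          gcongr
      _ = _ := by ring
  have hcχ : Continuous χ := by
    have : LipschitzWith ⟨2 * A / h + Lb * K₀ / Λ + 2 * (A + Lb) / h, by positivity⟩ χ :=
      LipschitzWith.of_dist_le_mul hlip
    exact this.continuous
  have e0 : ∀ x, x ≤ h → χ x = ramp A c₁ h (cl h x) := by
    intro x hx
    rw [hχ]
    simp only
    rw [cl_of_nonpos 1 (div_nonpos_of_nonpos_of_nonneg (by linarith) hΛ.le),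
      cl_of_ge hh.le (by linarith : h ≤ h + Λ + h - x), ramp_top _ _ hh.ne', hΞ0]
    ring
  have e2 : ∀ x ∈ Icc h (h + Λ), χ x = A + Lb * Ξ ((x - h) / Λ) := by
    intro x hx
    rw [hχ]
    simp only
    rw [cl_of_ge hh.le hx.1, cl_of_ge hh.le (by linarith [hx.2] : h ≤ h + Λ + h - x),
      ramp_top _ _ hh.ne', ramp_top _ _ hh.ne',
      cl_of_mem ⟨div_nonneg (by linarith [hx.1]) hΛ.le, by
        rw [div_le_one hΛ]; linarith [hx.2]⟩]
    ring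
  have e3 : ∀ x, h + Λ ≤ x → χ x = ramp (A + Lb) c₃ h (cl h (h + Λ + h - x)) := by
    intro x hx
    rw [hχ]
    simp only
    rw [cl_of_ge hh.le (by linarith : h ≤ x), ramp_top _ _ hh.ne',
      cl_of_ge zero_le_one (by rw [le_div_iff₀ hΛ]; linarith), hΞ1]
    ring
  -- primitives
  have p1 : ∀ x ∈ Icc 0 h, ∫ t in (0 : ℝ)..x, χ t = rampP A c₁ h x := by
    intro x hx
    rw [prim_eq hcχ (hasDerivAt_rampP A c₁ hh.ne')
      (fun t ht => by rw [e0 t ht.2, cl_of_mem ht]) hx]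
    simp [rampP]
  have p2 : ∀ x ∈ Icc h (h + Λ), ∫ t in (0 : ℝ)..x, χ t =
      rampP A c₁ h h + (A * (x - h) + Lb * Λ * Θ ((x - h) / Λ)) := by
    intro x hx
    have hd : ∀ t, HasDerivAt (fun x => A * (x - h) + Lb * Λ * Θ ((x - h) / Λ))
        (A + Lb * Ξ ((t - h) / Λ)) t := by
      intro t
      have h1 := (hasDerivAt_id t).sub_const h
      have h2 := (h1.const_mul A).add
        (((hΘ ((t - h) / Λ)).comp t (h1.div_const Λ)).const_mul (Lb * Λ))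
      exact h2.congr_deriv (by field_simp)
    rw [prim_eq hcχ hd e2 hx, p1 h ⟨hh.le, le_rfl⟩]
    simp [hΘ0]
  have p3 : ∀ x ∈ Icc (h + Λ) (h + Λ + h), ∫ t in (0 : ℝ)..x, χ t =
      rampP A c₁ h h + (A * Λ + Lb * Λ * Θ 1) + rampP (A + Lb) c₃ h h
        - rampP (A + Lb) c₃ h (h + Λ + h - x) := by
    intro x hx
    have hd : ∀ t, HasDerivAt (fun x => -rampP (A + Lb) c₃ h (h + Λ + h - x))
        (ramp (A + Lb) c₃ h (h + Λ + h - t)) t := by
      intro t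
      have h2 := ((hasDerivAt_rampP (A + Lb) c₃ hh.ne' (h + Λ + h - t)).comp t
        ((hasDerivAt_id t).const_sub (h + Λ + h))).neg
      exact h2.congr_deriv (by simp)
    rw [prim_eq hcχ hd (fun t ht => by
      rw [e3 t ht.1, cl_of_mem ⟨by linarith [ht.2], by linarith [ht.1]⟩]) hx,
      p2 (h + Λ) ⟨by linarith, le_rfl⟩]
    simp only [add_sub_cancel_left, div_self hΛ.ne']
    ring
  refine ⟨χ, hlip, fun x => ?_, fun x hx => ?_, ?_, fun k => ?_⟩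
  · rcases le_total x h with h1 | h1
    · rw [e0 x h1]
      have := ramp_range hh hc₁0 hc₁1 (cl_mem hh.le x)
      exact ⟨this.1, by linarith [this.2]⟩
    · rcases le_total x (h + Λ) with h2 | h2
      · rw [e2 x ⟨h1, h2⟩]
        have := hΞr ((x - h) / Λ) ⟨div_nonneg (by linarith) hΛ.le, by
          rw [div_le_one hΛ]; linarith⟩
        constructor <;> nlinarith [this.1, this.2]
      · rw [e3 x h2]
        exact ramp_range hh hc₃0 hc₃1 (cl_mem hh.le _)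
  · rcases hx with hx | hx
    · rw [e0 x (by linarith), cl_of_nonpos h hx, ramp_zero]
    · rw [e3 x (by linarith), cl_of_nonpos h (by linarith), ramp_zero]
  · refine ⟨-⌊-(rampP A c₁ h h + A * Λ + Lb * Λ * Θ 1 + (A + Lb) * h / 2)⌋, ?_⟩
    rw [p3 _ ⟨by linarith, le_rfl⟩]
    have h1 : rampP (A + Lb) c₃ h h = (A + Lb) * h / 2 +
        Int.fract (-(rampP A c₁ h h + A * Λ + Lb * Λ * Θ 1 + (A + Lb) * h / 2)) := by
      rw [hc₃, hPtop]
    rw [h1, ← Int.self_sub_floor, sub_self]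
    have h2 : rampP (A + Lb) c₃ h 0 = 0 := by simp [rampP]
    rw [h2]
    push_cast; ring
  · have hcp : Continuous fun x => ∫ t in (0 : ℝ)..x, χ t :=
      continuous_iff_continuousAt.2 fun x =>
        (hcχ.integral_hasStrictDerivAt 0 x).hasDerivAt.continuousAt
    have hcF : Continuous fun x => e ((∫ t in (0 : ℝ)..x, χ t) - k * x) := by fun_prop
    rw [← intervalIntegral.integral_add_adjacent_intervals (hcF.intervalIntegrable 0 (h + Λ))
      (hcF.intervalIntegrable (h + Λ) (h + Λ + h)),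
      ← intervalIntegral.integral_add_adjacent_intervals (hcF.intervalIntegrable 0 h)
      (hcF.intervalIntegrable h (h + Λ))]
    have i1 : ∫ x in (0 : ℝ)..h, e ((∫ t in (0 : ℝ)..x, χ t) - k * x)
        = ∫ v in (0 : ℝ)..h, e (0 + 1 * (rampP A c₁ h v - k * v)) := by
      apply intervalIntegral.integral_congr
      intro x hx
      rw [uIcc_of_le hh.le] at hx
      simp only [p1 x hx, zero_add, one_mul]
    have i2 : ∫ x in h..(h + Λ), e ((∫ t in (0 : ℝ)..x, χ t) - k * x)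
        = (Λ : ℝ) * e (φ₁ - k * h) * ∫ t in (0 : ℝ)..1, e (Λ * Lb * Θ t - Λ * (k - A) * t) := by
      have h1 := intervalIntegral.smul_integral_comp_mul_add
        (fun x => e ((∫ t in (0 : ℝ)..x, χ t) - k * x)) (a := 0) (b := 1) Λ h
      rw [mul_zero, zero_add, mul_one, add_comm Λ h] at h1
      rw [← h1, Complex.real_smul, mul_assoc, ← intervalIntegral.integral_const_mul (e (φ₁ - k * h))]
      congr 1
      apply intervalIntegral.integral_congr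
      intro t ht
      rw [uIcc_of_le zero_le_one] at ht
      simp only
      rw [p2 _ ⟨by nlinarith [ht.1], by nlinarith [ht.2]⟩, e_sub φ₁, ← hP1, ← e_add, ← e_add]
      congr 1
      rw [add_sub_cancel_right, mul_div_cancel_left₀ _ hΛ.ne']
      ring
    have i3 : ∫ x in (h + Λ)..(h + Λ + h), e ((∫ t in (0 : ℝ)..x, χ t) - k * x)
        = ∫ v in (0 : ℝ)..h, e ((rampP A c₁ h h + (A * Λ + Lb * Λ * Θ 1) + rampP (A + Lb) c₃ h h
          - k * (h + Λ + h)) + -1 * (rampP (A + Lb) c₃ h v - k * v)) := by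
      have h1 := intervalIntegral.integral_comp_sub_left
        (fun x => e ((∫ t in (0 : ℝ)..x, χ t) - k * x)) (a := 0) (b := h) (h + Λ + h)
      rw [sub_zero, add_sub_cancel_right] at h1
      rw [← h1]
      apply intervalIntegral.integral_congr
      intro t ht
      rw [uIcc_of_le hh.le] at ht
      simp only
      rw [p3 _ ⟨by linarith [ht.2], by linarith [ht.1]⟩]
      congr 1
      rw [sub_sub_cancel]
      ring
    rw [i2]
    have b1 := ramp_osc hh hc₁0 hA hc₁1 0 k 1 (Or.inl rfl)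
    have b3 := ramp_osc hh hc₃0 (by positivity) hc₃1 (rampP A c₁ h h + (A * Λ + Lb * Λ * Θ 1) +
      rampP (A + Lb) c₃ h h - k * (h + Λ + h)) k (-1) (Or.inr rfl)
    rw [← i1] at b1
    rw [← i3] at b3
    have b4 : 4 / √((A + Lb) / (2 * h)) ≤ 4 / √(A / (2 * h)) := by
      gcongr; linarith
    rw [show ∀ x y z : ℂ, x + y + z - y = x + z from fun x y z => by ring]
    refine (norm_add_le _ _).trans ?_
    have : 8 / √(A / (2 * h)) = 4 / √(A / (2 * h)) + 4 / √(A / (2 * h)) := by ring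
    linarith

theorem bundle (a l ζ γ : ℝ) (ha : 0 < a) (hl : 0 < l) (hζ : 0 < ζ) (hγ : 0 < γ) :
    ∃ g lam : ℕ → ℤ → ℝ, (∀ N k, 0 ≤ g N k ∧ g N k ≤ 1 + γ) ∧
      (∀ N k, g N k ≠ 0 → a < k / N ∧ k / N < a + l) ∧
      ∀ len : ℝ, 0 < len → len ≤ 1 → ∀ u : ℂ, ‖u‖ = 1 → ∃ K : ℝ, 0 ≤ K ∧
        ∀ᶠ N : ℕ in atTop, ∃ χ : ℝ → ℝ,
          (∀ x y, |χ x - χ y| ≤ K * N * |x - y|) ∧
          (∀ x, 0 ≤ χ x ∧ χ x ≤ (a + l) * N) ∧
          (∀ x, x ≤ 0 ∨ len ≤ x → χ x = 0) ∧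
          (∃ m : ℤ, ∫ x in (0 : ℝ)..len, χ x = m) ∧
          ∀ k : ℤ, ‖(√N : ℝ) * (∫ x in (0 : ℝ)..len, e ((∫ t in (0 : ℝ)..x, χ t) - k * x)) -
            (g N k * √(len / l) : ℝ) * u * e (len * lam N k)‖ ≤ ζ := by
  classical
  obtain ⟨ω₀, hω₀, hcore⟩ := core
  have hγ' : γ / (1 + γ) < 1 := by rw [div_lt_one (by positivity)]; linarith
  obtain ⟨Θ, Ξ, Ξ', K₀, w, hK₀, hw0, hw1, hΘ, hΞ, hΞ'c, hΞ'0, hΞ'L, hΞ'H, hΘ0, hΞ0, hΞ1, hΞL,
    hΞr, hΞo⟩ := exists_profile (γ / (1 + γ)) ((16 / ζ) ^ 2 / l) (by positivity) hγ'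
  obtain ⟨σ, hσ1, hσ2, hσ3⟩ := hcore Θ Ξ Ξ' (1 - γ / (1 + γ)) K₀ ((16 / ζ) ^ 2 / l) w
    (by linarith) hK₀ (by positivity) hw0 hw1 hΘ hΞ hΞ'c hΞ'0 hΞ'L hΞ'H
  obtain ⟨p, hp⟩ : ∃ p : ℝ, p = min (1 / 4) (a * (ζ / 16) ^ 2 / 2) := ⟨_, rfl⟩
  have hp0 : 0 < p := hp ▸ lt_min (by norm_num) (by positivity)
  have hp1 : p ≤ 1 / 4 := hp ▸ min_le_left _ _
  have hp2 : p ≤ a * (ζ / 16) ^ 2 / 2 := hp ▸ min_le_right _ _
  have hc0 : 1 - γ / (1 + γ) = 1 / (1 + γ) := by field_simp; ring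
  have hΞ'pos : ∀ x, 0 < Ξ' (σ x) := fun x => lt_of_lt_of_le (by linarith) (hΞ'0 _ (hσ1 x))
  refine ⟨fun N k => if σ ((k / N - a) / l) ∈ Icc w (1 - w) then
      √((1 - 2 * p) / Ξ' (σ ((k / N - a) / l))) else 0,
    fun N k => -(k * p) + (1 - 2 * p) * N * l *
      (Θ (σ ((k / N - a) / l)) - (k / N - a) / l * σ ((k / N - a) / l)), ?_, ?_, ?_⟩
  · intro N k
    simp only
    split_ifs
    · refine ⟨Real.sqrt_nonneg _, Real.sqrt_le_iff.2 ⟨by positivity, ?_⟩⟩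
      have h1 := hΞ'0 _ (hσ1 ((k / N - a) / l))
      rw [hc0, div_le_iff₀ (by positivity)] at h1
      rw [div_le_iff₀ (hΞ'pos _)]
      nlinarith [hΞ'pos ((k / N - a) / l)]
    · exact ⟨le_rfl, by positivity⟩
  · intro N k hk
    simp only at hk
    split_ifs at hk with h
    · have h1 := hσ2 _ h
      have h2 := hΞo (σ ((k / N - a) / l)) ⟨by linarith [h.1], by linarith [h.2]⟩
      rw [h1, lt_div_iff₀ hl, div_lt_one hl] at h2
      constructor <;> linarith [h2.1, h2.2]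
    · exact absurd rfl hk
  · intro len hlen0 hlen1 u hu
    obtain ⟨h, hh⟩ : ∃ h, h = p * len := ⟨_, rfl⟩
    obtain ⟨Λ, hΛ⟩ : ∃ Λ, Λ = (1 - 2 * p) * len := ⟨_, rfl⟩
    have hh0 : 0 < h := by rw [hh]; positivity
    have hΛ0 : 0 < Λ := by rw [hΛ]; exact mul_pos (by linarith) hlen0
    have hΛ1 : Λ ≤ 1 := by rw [hΛ]; nlinarith
    have hlen : h + Λ + h = len := by rw [hh, hΛ]; ring
    have hω0 : ω₀ ≠ 0 := by intro h; rw [h] at hω₀; simp at hω₀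
    obtain ⟨φ₁, hφ₁⟩ := exists_e_eq (u := u / ω₀) (by rw [norm_div, hu, hω₀, div_one])
    refine ⟨2 * a / h + l * K₀ / Λ + 2 * (a + l) / h, by positivity, ?_⟩
    have hT : Tendsto (fun N : ℕ => Λ * (l * N)) atTop atTop :=
      (tendsto_natCast_atTop_atTop.const_mul_atTop hl).const_mul_atTop hΛ0
    have hT2 : Tendsto (fun N : ℕ => a * N) atTop atTop :=
      tendsto_natCast_atTop_atTop.const_mul_atTop ha
    filter_upwards [hT.eventually (hσ3 (ζ * √l / 4) (by positivity)),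
      hT2.eventually_ge_atTop (12 / h), eventually_gt_atTop 0] with N hN1 hN2 hN3
    have hN : (0 : ℝ) < N := by exact_mod_cast hN3
    obtain ⟨χ, h1, h2, h3, h4, h5⟩ := exists_chi hK₀ hΘ hΘ0 hΞ0 hΞ1 hΞL hΞr
      (A := a * N) (Lb := l * N) (by positivity) (by positivity) hh0 hΛ0 hN2 φ₁
    rw [hlen] at h3 h4 h5
    refine ⟨χ, fun x y => (h1 x y).trans (le_of_eq (by ring)),
      fun x => ⟨(h2 x).1, (h2 x).2.trans (le_of_eq (by ring))⟩, h3, h4, fun k => ?_⟩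
    have h6 := h5 k
    obtain ⟨x, hx⟩ : ∃ x : ℝ, x = (k / N - a) / l := ⟨_, rfl⟩
    have hint : ∫ t in (0 : ℝ)..1, e (Λ * (l * N) * Θ t - Λ * (k - a * N) * t)
        = ∫ t in (0 : ℝ)..1, e (Λ * (l * N) * (Θ t - x * t)) := by
      congr 1
      funext t
      congr 1
      rw [hx]; field_simp
    rw [hint] at h6
    simp only [← hx]
    have hN4 := hN1 x
    generalize (∫ t in (0 : ℝ)..1, e (Λ * (l * N) * (Θ t - x * t))) = I at h6 hN4
    generalize (∫ x in (0 : ℝ)..len, e ((∫ t in (0 : ℝ)..x, χ t) - k * x)) = J at h6 ⊢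
    have hsl : 0 < √l := Real.sqrt_pos.2 hl
    have hsN : 0 < √(N : ℝ) := Real.sqrt_pos.2 hN
    have hq : √(Λ / l) ≤ 1 / √l := by
      rw [Real.sqrt_div hΛ0.le]
      gcongr
      exact Real.sqrt_le_one.2 hΛ1
    have hsq : √(N : ℝ) * Λ = √(Λ / l) * √(Λ * (l * N)) := by
      rw [← Real.sqrt_mul (by positivity), show Λ / l * (Λ * (l * N)) = N * Λ ^ 2 by field_simp,
        Real.sqrt_mul hN.le, Real.sqrt_sq hΛ0.le]
    have hA : ‖(√N : ℝ) * J - (√(Λ / l) : ℝ) * e (φ₁ - k * h) * ((√(Λ * (l * N)) : ℝ) * I)‖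
        ≤ ζ / 2 := by
      have h7 : ((√N : ℝ) : ℂ) * J - (√(Λ / l) : ℝ) * e (φ₁ - k * h) * ((√(Λ * (l * N)) : ℝ) * I)
          = (√N : ℝ) * (J - (Λ : ℝ) * e (φ₁ - k * h) * I) := by
        have : ((√N : ℝ) : ℂ) * (Λ : ℝ) = (√(Λ / l) : ℝ) * (√(Λ * (l * N)) : ℝ) := by
          exact_mod_cast hsq
        linear_combination (e (φ₁ - k * h) * I) * this
      rw [h7, norm_mul, Complex.norm_real, Real.norm_eq_abs, abs_of_pos hsN]
      refine (mul_le_mul_of_nonneg_left h6 hsN.le).trans ?_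
      have h8 : √(N : ℝ) * (16 / ζ) ≤ √(a * N / (2 * h)) := by
        apply Real.le_sqrt_of_sq_le
        rw [mul_pow, Real.sq_sqrt hN.le, le_div_iff₀ (by positivity)]
        have h9 : h ≤ a * (ζ / 16) ^ 2 / 2 := by rw [hh]; nlinarith
        calc (N : ℝ) * (16 / ζ) ^ 2 * (2 * h)
            ≤ N * (16 / ζ) ^ 2 * (2 * (a * (ζ / 16) ^ 2 / 2)) := by gcongr
          _ = a * N := by field_simp
      calc √(N : ℝ) * (8 / √(a * N / (2 * h))) ≤ √(N : ℝ) * (8 / (√(N : ℝ) * (16 / ζ))) := by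
            gcongr
        _ = ζ / 2 := by field_simp; norm_num
    have hB : ‖(√(Λ / l) : ℝ) * e (φ₁ - k * h) * ((√(Λ * (l * N)) : ℝ) * I) -
        ((if σ x ∈ Icc w (1 - w) then √((1 - 2 * p) / Ξ' (σ x)) else 0) * √(len / l) : ℝ) * u *
        e (len * (-(k * p) + (1 - 2 * p) * N * l * (Θ (σ x) - x * σ x)))‖ ≤ ζ / 2 := by
      split_ifs with hin
      · have h7 := hN4.1 hin
        have hs' : 0 < √(Ξ' (σ x)) := Real.sqrt_pos.2 (hΞ'pos x)
        have h8 : √((1 - 2 * p) / Ξ' (σ x)) * √(len / l) = √(Λ / l) / √(Ξ' (σ x)) := by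
          rw [← Real.sqrt_mul (div_nonneg (by linarith) (hΞ'pos x).le),
            ← Real.sqrt_div (by positivity), hΛ]
          congr 1; ring
        have h9 : e (len * (-(k * p) + (1 - 2 * p) * N * l * (Θ (σ x) - x * σ x)))
            = e (-(k * h)) * e (Λ * (l * N) * (Θ (σ x) - x * σ x)) := by
          rw [← e_add, hh, hΛ]; congr 1; ring
        have h10 : u = e φ₁ * ω₀ := by rw [hφ₁]; field_simp
        rw [h8, h9, h10, e_sub]
        have h11 : ((√(Λ / l) : ℝ) : ℂ) * (e φ₁ * e (-(k * h))) * ((√(Λ * (l * N)) : ℝ) * I) -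
            ((√(Λ / l) / √(Ξ' (σ x)) : ℝ) : ℂ) * (e φ₁ * ω₀) *
              (e (-(k * h)) * e (Λ * (l * N) * (Θ (σ x) - x * σ x)))
            = ((√(Λ / l) : ℝ) : ℂ) * (e φ₁ * e (-(k * h))) * ((√(Λ * (l * N)) : ℝ) * I -
              ω₀ * e (Λ * (l * N) * (Θ (σ x) - x * σ x)) / (√(Ξ' (σ x)) : ℝ)) := by
          push_cast; ring
        rw [h11, norm_mul, norm_mul, norm_mul, norm_e, norm_e, Complex.norm_real,
          Real.norm_eq_abs, abs_of_nonneg (Real.sqrt_nonneg _), mul_one, mul_one]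
        calc _ ≤ 1 / √l * (ζ * √l / 4) := by gcongr
          _ = ζ / 4 := by field_simp
          _ ≤ ζ / 2 := by linarith
      · have h7 := hN4.2 hin
        rw [zero_mul, Complex.ofReal_zero, zero_mul, zero_mul, sub_zero, norm_mul, norm_mul,
          norm_e, Complex.norm_real, Real.norm_eq_abs, abs_of_nonneg (Real.sqrt_nonneg _), mul_one]
        have h8 : √((16 / ζ) ^ 2 / l) = 16 / ζ / √l := by
          rw [Real.sqrt_div (by positivity), Real.sqrt_sq (by positivity)]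
        rw [h8] at h7
        calc _ ≤ 1 / √l * (4 / (16 / ζ / √l) + ζ * √l / 4) := by gcongr
          _ = ζ / 2 := by field_simp; norm_num
    refine le_trans (norm_sub_le_norm_sub_add_norm_sub _
      ((√(Λ / l) : ℝ) * e (φ₁ - k * h) * ((√(Λ * (l * N)) : ℝ) * I)) _) ?_
    linarith

end Vale.Agent.P110
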