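import Vale.Agent.P110.Basic

/-! A unimodular function whose local frequency stays in `[0, (1 - δ) N]` is close to a polynomial
of length `N` obtained by a trapezoidal cut-off of its Fourier series. -/

namespace Vale.Agent.P110

open Finset Filter

/-- The trapezoidal kernel. -/
noncomputable def trapKer (A N : ℕ) (u : ℝ) : ℂ :=
  (∑ a ∈ range A, e (a * u)) * (∑ b ∈ range (N - A), e (b * u)) * e (-(A * u)) / A

lemma trapKer_eq (A N : ℕ) (u : ℝ) : trapKer A N u =
    ∑ a ∈ range A, ∑ b ∈ range (N - A), e (((a + b - A : ℤ) : ℝ) * u) / A := by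
  rw [trapKer, sum_mul_sum, sum_mul, sum_div]
  refine sum_congr rfl fun a _ => ?_
  rw [sum_mul, sum_div]
  refine sum_congr rfl fun b _ => ?_
  rw [← e_add, ← e_add]
  congr 2
  push_cast
  ring

lemma continuous_trapKer (A N : ℕ) : Continuous (trapKer A N) := by
  unfold trapKer
  fun_prop

lemma trapKer_periodic (A N : ℕ) : Function.Periodic (trapKer A N) 1 := by
  intro u
  rw [trapKer_eq, trapKer_eq]
  refine sum_congr rfl fun a _ => sum_congr rfl fun b _ => ?_
  rw [mul_add, mul_one, e_add_int]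

lemma trapKer_bound1 {A : ℕ} (hA : 0 < A) (N : ℕ) {u : ℝ} (hu : |u| ≤ 1 / 2) :
    |u| * ‖trapKer A N u‖ ≤ 1 / 2 := by
  have hA' : (0 : ℝ) < A := by exact_mod_cast hA
  have h1 := abs_mul_norm_sum_range_e_le (N - A) hu
  have h2 := norm_sum_range_e_le A u
  rw [trapKer, norm_div, norm_mul, norm_mul, norm_e, mul_one, Complex.norm_natCast,
    ← mul_div_assoc, div_le_iff₀ hA']
  nlinarith [mul_le_mul h2 h1 (by positivity) hA'.le]

lemma trapKer_bound2 {A : ℕ} (hA : 0 < A) (N : ℕ) {u : ℝ} (hu : |u| ≤ 1 / 2) :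
    u ^ 2 * ‖trapKer A N u‖ ≤ 1 / (4 * A) := by
  have hA' : (0 : ℝ) < A := by exact_mod_cast hA
  have h1 := abs_mul_norm_sum_range_e_le (N - A) hu
  have h2 := abs_mul_norm_sum_range_e_le A hu
  rw [trapKer, norm_div, norm_mul, norm_mul, norm_e, mul_one, Complex.norm_natCast,
    ← mul_div_assoc, ← div_div, ← sq_abs]
  refine div_le_div_of_nonneg_right ?_ hA'.le
  nlinarith [mul_le_mul h2 h1 (by positivity) (by norm_num)]

lemma integral_trapKer {A N k : ℕ} (hA : 0 < A) (hk : k + 2 * A < N) :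
    ∫ u in (-1 / 2 : ℝ)..(-1 / 2 + 1), e (-(k * u)) * trapKer A N u = 1 := by
  have hA' : (A : ℂ) ≠ 0 := by exact_mod_cast hA.ne'
  have h1 : ∀ u : ℝ, e (-(k * u)) * trapKer A N u =
      ∑ a ∈ range A, ∑ b ∈ range (N - A), e (((a + b - A - k : ℤ) : ℝ) * u) / A := by
    intro u
    rw [trapKer_eq, mul_sum]
    refine sum_congr rfl fun a _ => ?_
    rw [mul_sum]
    refine sum_congr rfl fun b _ => ?_
    rw [← mul_div_assoc, ← e_add]
    congr 2
    push_cast
    ring
  simp_rw [h1]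
  rw [intervalIntegral.integral_finsetSum fun a _ => Continuous.intervalIntegrable (by fun_prop) _ _]
  have h2 : ∀ a ∈ range A, ∫ u in (-1 / 2 : ℝ)..(-1 / 2 + 1),
      ∑ b ∈ range (N - A), e (((a + b - A - k : ℤ) : ℝ) * u) / A = 1 / A := by
    intro a ha
    have ha' := mem_range.mp ha
    rw [intervalIntegral.integral_finsetSum fun b _ =>
      Continuous.intervalIntegrable (by fun_prop) _ _]
    simp_rw [intervalIntegral.integral_div, integral_e_int]
    rw [sum_eq_single (A + k - a)]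
    · rw [if_pos (by omega)]
    · intro b _ hb
      rw [if_neg (by omega), zero_div]
    · intro h; exact absurd (mem_range.mpr (by omega)) h
  rw [sum_congr rfl h2, sum_const, card_range, nsmul_eq_mul]
  field_simp

lemma trap_poly {A N : ℕ} (hAN : A ≤ N) {E : ℝ → ℂ} (hEc : Continuous E) (θ : ℝ)
    (S : Finset (ℕ × ℕ)) (hS : S = range A ×ˢ range (N - A)) :
    ∑ k ∈ range N, ((((S.filter fun p => p.1 + p.2 = k).card : ℝ) / A : ℝ) : ℂ) *
    (∫ s in (0 : ℝ)..1, E s * e (-(((k : ℤ) - (A : ℤ) : ℤ) * s))) * e (k * θ) =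
    e (A * θ) * ∫ s in (0 : ℝ)..1, E s * trapKer A N (θ - s) := by
  subst hS
  set S := range A ×ˢ range (N - A)
  have h1 : ∀ s : ℝ, E s * trapKer A N (θ - s) = ∑ p ∈ S,
      E s * e (-((((p.1 + p.2 : ℕ) : ℤ) - (A : ℤ) : ℤ) * s)) *
        (e ((p.1 + p.2 - A) * θ) / A) := by
    intro s
    rw [trapKer_eq, sum_product, mul_sum]
    refine sum_congr rfl fun a _ => ?_
    rw [mul_sum]
    refine sum_congr rfl fun b _ => ?_
    rw [mul_assoc, ← mul_div_assoc (e _), ← e_add]
    congr 3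
    push_cast
    ring
  simp_rw [h1]
  rw [intervalIntegral.integral_finsetSum fun p _ =>
    Continuous.intervalIntegrable (by fun_prop) _ _, mul_sum,
    ← sum_fiberwise_of_maps_to (s := S) (t := range N) (g := fun p => p.1 + p.2)
      (fun p hp => by
        have h2 := mem_product.mp hp
        have h3 := mem_range.mp h2.1
        have h4 := mem_range.mp h2.2
        exact mem_range.mpr (by omega))]
  refine sum_congr rfl fun k _ => ?_
  rw [sum_congr rfl (g := fun _ => (∫ s in (0 : ℝ)..1,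
    E s * e (-(((k : ℤ) - (A : ℤ) : ℤ) * s))) * e (k * θ) / A) fun p hp => ?_]
  · rw [sum_const, nsmul_eq_mul]
    push_cast
    ring
  · rw [intervalIntegral.integral_mul_const, ← (mem_filter.mp hp).2, mul_left_comm,
      ← mul_div_assoc (e _), ← e_add, mul_div_assoc]
    congr 3
    push_cast
    ring

lemma trap_shift (A N : ℕ) {E : ℝ → ℂ} (hEp : Function.Periodic E 1) (θ : ℝ) :
    ∫ s in (0 : ℝ)..1, E s * trapKer A N (θ - s) =
    ∫ u in (-1 / 2 : ℝ)..(-1 / 2 + 1), E (θ - u) * trapKer A N u := by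
  have hper : Function.Periodic (fun u => E (θ - u) * trapKer A N u) 1 := by
    intro u
    simp only
    rw [trapKer_periodic A N u, ← hEp (θ - (u + 1))]
    congr 2
    ring
  rw [← hper.intervalIntegral_add_eq (θ - 1)]
  have := intervalIntegral.integral_comp_sub_left (a := 0) (b := 1)
    (fun u => E (θ - u) * trapKer A N u) θ
  simp only [sub_sub_cancel, sub_zero] at this
  rw [this, sub_add_cancel]

lemma norm_integral_split {g : ℝ → ℂ} (hg : Continuous g) {w c₁ η : ℝ} (hw0 : 0 < w)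
    (hw1 : w ≤ 1 / 2) (hη : 0 < η) (hw2 : c₁ * (2 * w) ≤ η / 2)
    (hg1 : ∀ u, |u| ≤ 1 / 2 → ‖g u‖ ≤ c₁) (hg2 : ∀ u, w ≤ |u| → |u| ≤ 1 / 2 → ‖g u‖ ≤ η / 2) :
    ‖∫ u in (-1 / 2 : ℝ)..(-1 / 2 + 1), g u‖ ≤ η := by
  rw [← intervalIntegral.integral_add_adjacent_intervals (hg.intervalIntegrable _ (-w))
    (hg.intervalIntegrable _ _), ← intervalIntegral.integral_add_adjacent_intervals
    (hg.intervalIntegrable (-w) w) (hg.intervalIntegrable _ _)]
  have a1 := intervalIntegral.norm_integral_le_of_norm_le_const (a := -1 / 2) (b := -w)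
    (f := g) (C := η / 2) fun u hu => by
      rw [Set.uIoc_of_le (by linarith)] at hu
      have : |u| = -u := abs_of_nonpos (by linarith [hu.2])
      exact hg2 u (by linarith [hu.2]) (by linarith [hu.1])
  have a2 := intervalIntegral.norm_integral_le_of_norm_le_const (a := -w) (b := w)
    (f := g) (C := c₁) fun u hu => by
      rw [Set.uIoc_of_le (by linarith)] at hu
      exact hg1 u (abs_le.mpr ⟨by linarith [hu.1], by linarith [hu.2]⟩)
  have a3 := intervalIntegral.norm_integral_le_of_norm_le_const (a := w) (b := -1 / 2 + 1)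
    (f := g) (C := η / 2) fun u hu => by
      rw [Set.uIoc_of_le (by linarith)] at hu
      have : |u| = u := abs_of_nonneg (by linarith [hu.1])
      exact hg2 u (by linarith [hu.1]) (by linarith [hu.2])
  rw [abs_of_nonneg (by linarith)] at a1 a2 a3
  refine (norm_add_le _ _).trans ((add_le_add a1 ((norm_add_le _ _).trans
    (add_le_add a2 a3))).trans ?_)
  nlinarith [mul_pos hη hw0]

theorem smoothing (δ K η : ℝ) (hδ : 0 < δ) (hδ1 : δ ≤ 1) (hK : 0 ≤ K) (hη : 0 < η) :
    ∀ᶠ N : ℕ in atTop, ∀ E : ℝ → ℂ, Continuous E → Function.Periodic E 1 → (∀ θ, ‖E θ‖ = 1) →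
      (∀ θ, ∃ ξ : ℝ, 0 ≤ ξ ∧ ξ ≤ (1 - δ) * N ∧
        ∀ u, ‖E (θ - u) - E θ * e (-(ξ * u))‖ ≤ K * N * u ^ 2) →
      ∃ (A : ℤ) (m : ℕ → ℝ), (∀ k, 0 ≤ m k ∧ m k ≤ 1) ∧ ∀ θ : ℝ,
        |‖∑ k ∈ range N, (m k : ℂ) * (∫ s in (0 : ℝ)..1, E s * e (-(((k : ℤ) - A : ℤ) * s))) *
          e (k * θ)‖ - 1| ≤ η := by
  have hpi := Real.pi_pos
  set c₁ : ℝ := 2 * K / δ + Real.pi with hc₁
  have hc0 : 0 < c₁ := by positivity
  set w : ℝ := min (1 / 2) (η / (4 * c₁)) with hw
  have hw0 : 0 < w := by positivity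
  have hw1 : w ≤ 1 / 2 := min_le_left _ _
  have hw2 : c₁ * (2 * w) ≤ η / 2 := by
    have : w ≤ η / (4 * c₁) := min_le_right _ _
    rw [le_div_iff₀ (by positivity)] at this
    linarith
  have htend : Tendsto (fun N : ℕ => δ * N / 4) atTop atTop :=
    (tendsto_natCast_atTop_atTop.const_mul_atTop hδ).atTop_div_const (by norm_num)
  filter_upwards [htend.eventually_ge_atTop 1, htend.eventually_ge_atTop (2 / (η * w ^ 2))]
    with N hN1 hN2 E hEc hEp hE1 hE2
  set A : ℕ := ⌊δ * N / 4⌋₊ with hAdef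
  have hA : 0 < A := Nat.floor_pos.mpr hN1
  have hA' : (1 : ℝ) ≤ A := by exact_mod_cast hA
  have hA1 : (A : ℝ) ≤ δ * N / 4 := Nat.floor_le (by linarith)
  have hA2 : δ * N / 4 < A + 1 := Nat.lt_floor_add_one _
  have hN0 : (0 : ℝ) ≤ N := by positivity
  have hAN : A ≤ N := by
    have : (A : ℝ) ≤ N := by nlinarith
    exact_mod_cast this
  let S : Finset (ℕ × ℕ) := range A ×ˢ range (N - A)
  refine ⟨A, fun k => ((S.filter fun p => p.1 + p.2 = k).card : ℝ) / A, fun k => ⟨by positivity, ?_⟩,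
    fun θ => ?_⟩
  · rw [div_le_one (by linarith)]
    have : (S.filter fun p => p.1 + p.2 = k).card ≤ (range A).card := by
      refine card_le_card_of_injOn Prod.fst (fun p hp => ?_) fun p hp q hq hpq => ?_
      · exact (mem_product.mp (mem_filter.mp hp).1).1
      · have h1 := (mem_filter.mp hp).2
        have h2 := (mem_filter.mp hq).2
        exact Prod.ext hpq (by omega)
    rw [card_range] at this
    exact_mod_cast this
  have hD := continuous_trapKer A N
  have hpoly := trap_poly hAN hEc θ S rfl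
  have hshift := trap_shift A N hEp θ
  obtain ⟨ξ, hξ0, hξ1, hξ⟩ := hE2 θ
  set k₀ : ℕ := ⌊ξ⌋₊ with hk₀
  have hk1 : (k₀ : ℝ) ≤ ξ := Nat.floor_le hξ0
  have hk2 : ξ < k₀ + 1 := Nat.lt_floor_add_one _
  have hk3 : k₀ + 2 * A < N := by
    have : (k₀ : ℝ) + 2 * A < N := by nlinarith
    exact_mod_cast this
  let g : ℝ → ℂ := fun u => (E (θ - u) - E θ * e (-(k₀ * u))) * trapKer A N u
  have hg : Continuous g := by fun_prop
  have hdiff : (∫ u in (-1 / 2 : ℝ)..(-1 / 2 + 1), E (θ - u) * trapKer A N u) - E θ =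
      ∫ u in (-1 / 2 : ℝ)..(-1 / 2 + 1), g u := by
    have h1 : E θ = ∫ u in (-1 / 2 : ℝ)..(-1 / 2 + 1), E θ * (e (-(k₀ * u)) * trapKer A N u) := by
      rw [intervalIntegral.integral_const_mul, integral_trapKer hA hk3, mul_one]
    conv_lhs => rw [h1]
    rw [← intervalIntegral.integral_sub (Continuous.intervalIntegrable (by fun_prop) _ _)
      (Continuous.intervalIntegrable (by fun_prop) _ _)]
    congr 1
    ext u
    simp only [g]
    ring
  have hg1 : ∀ u, |u| ≤ 1 / 2 → ‖g u‖ ≤ c₁ := by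
    intro u hu
    have h1 : ‖E (θ - u) - E θ * e (-(k₀ * u))‖ ≤ K * N * u ^ 2 + 2 * Real.pi * |u| := by
      refine (norm_sub_le_norm_sub_add_norm_sub _ (E θ * e (-(ξ * u))) _).trans
        (add_le_add (hξ u) ?_)
      rw [← mul_sub, norm_mul, hE1, one_mul]
      refine (norm_e_sub_e_le _ _).trans (mul_le_mul_of_nonneg_left ?_ (by positivity))
      rw [show -(ξ * u) - -(k₀ * u) = (k₀ - ξ) * u by ring, abs_mul]
      exact mul_le_of_le_one_left (abs_nonneg _) (abs_le.mpr ⟨by linarith, by linarith⟩)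
    have h2 := trapKer_bound1 hA N hu
    have h3 := trapKer_bound2 hA N hu
    have h4 : K * N * (1 / (4 * A)) ≤ 2 * K / δ := by
      rw [mul_one_div, div_le_div_iff₀ (by positivity) hδ]
      nlinarith [mul_le_mul_of_nonneg_left hA2.le hK, mul_le_mul_of_nonneg_left hA' hK]
    simp only [g]
    rw [norm_mul]
    refine (mul_le_mul_of_nonneg_right h1 (norm_nonneg _)).trans ?_
    have h5 := mul_le_mul_of_nonneg_left h3 (mul_nonneg hK hN0)
    have h6 := mul_le_mul_of_nonneg_left h2 (by positivity : 0 ≤ 2 * Real.pi)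
    nlinarith
  have hg2 : ∀ u, w ≤ |u| → |u| ≤ 1 / 2 → ‖g u‖ ≤ η / 2 := by
    intro u hwu hu
    have h1 : ‖E (θ - u) - E θ * e (-(k₀ * u))‖ ≤ 2 := by
      refine (norm_sub_le _ _).trans ?_
      rw [norm_mul, hE1, hE1, norm_e]; norm_num
    have h3 := trapKer_bound2 hA N hu
    have h4 : w ^ 2 ≤ u ^ 2 := by rw [← sq_abs u]; exact pow_le_pow_left₀ hw0.le hwu 2
    have h5 : w ^ 2 * ‖trapKer A N u‖ * (4 * A) ≤ 1 := by
      rw [← le_div_iff₀ (by positivity)]
      exact (mul_le_mul_of_nonneg_right h4 (norm_nonneg _)).trans h3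
    have h6 : 1 ≤ η * w ^ 2 * A := by
      rw [div_le_iff₀ (by positivity)] at hN2
      have : 0 < η * w ^ 2 := by positivity
      nlinarith
    have h7 : ‖trapKer A N u‖ ≤ η / 4 := by
      apply le_of_mul_le_mul_right _ (by positivity : 0 < w ^ 2 * (4 * A))
      nlinarith
    simp only [g]
    rw [norm_mul]
    refine (mul_le_mul h1 h7 (norm_nonneg _) (by norm_num)).trans (le_of_eq (by ring))
  have hint := norm_integral_split hg hw0 hw1 hη hw2 hg1 hg2
  rw [hpoly, norm_mul, norm_e, one_mul, hshift]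
  have hfin := abs_norm_sub_norm_le
    (∫ u in (-1 / 2 : ℝ)..(-1 / 2 + 1), E (θ - u) * trapKer A N u) (E θ)
  rw [hdiff, hE1 θ] at hfin
  exact hfin.trans hint

end Vale.Agent.P110
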