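import Vale.Agent.P110.AssemblyAux
import Vale.Agent.P110.Bundle
import Vale.Agent.P110.Smoothing

/-! From a branch system to nearly flat polynomials with bounded real coefficients. -/

namespace Vale.Agent.P110

open Finset Filter

/-- The global unimodular function built from the local frequency profiles. -/
theorem exists_global {B : ℝ} (S : BranchSystem B) (χ : S.ι → ℝ → ℝ) (L : S.ι → ℝ) (M : ℝ)
    (hM : 0 ≤ M) (hL : ∀ i, 0 ≤ L i)
    (h1 : ∀ i x y, |χ i x - χ i y| ≤ L i * |x - y|)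
    (h2 : ∀ i x, 0 ≤ χ i x ∧ χ i x ≤ M)
    (h3 : ∀ i x, x ≤ 0 ∨ (S.s i / S.G : ℝ) ≤ x → χ i x = 0)
    (h4 : ∀ i, ∃ m : ℤ, ∫ x in (0 : ℝ)..(S.s i / S.G), χ i x = m) :
    ∃ E : ℝ → ℂ, Continuous E ∧ Function.Periodic E 1 ∧ (∀ θ, ‖E θ‖ = 1) ∧
      (∀ θ, ∃ ξ : ℝ, 0 ≤ ξ ∧ ξ ≤ M ∧
        ∀ u, ‖E (θ - u) - E θ * e (-(ξ * u))‖ ≤ 2 * Real.pi * (2 * ∑ i, L i) * u ^ 2) ∧
      ∀ k : ℤ, ∫ θ in (0 : ℝ)..1, E θ * e (-(k * θ)) =
        ((∑ i, 2 * (e (-(k * (S.C i / S.G))) * ∫ x in (0 : ℝ)..(S.s i / S.G),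
          e ((∫ t in (0 : ℝ)..x, χ i t) - k * x)).re : ℝ) : ℂ) := by
  have hG : (0 : ℝ) < S.G := by exact_mod_cast S.hG
  have hlen0 : ∀ i, (0 : ℝ) < S.s i / S.G := fun i => by have := S.hs i; positivity
  have hlen1 : ∀ i, (S.s i / S.G : ℝ) ≤ 1 := fun i => by
    rw [div_le_one hG]; exact_mod_cast S.s_le i
  choose m hm using h4
  choose ψ hψd hψ1 hψe hψF using fun i =>
    periodize (hL i) (hlen0 i) (hlen1 i) (h1 i) (h3 i) (hm i)
  have hcψ : ∀ i, Continuous (ψ i) := fun i =>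
    continuous_iff_continuousAt.2 fun x => (hψd i x).continuousAt
  let φ : S.ι ⊕ S.ι → ℝ → ℝ := fun j θ =>
    Sum.elim (fun i => ψ i (θ - S.C i / S.G)) (fun i => -ψ i (-θ - S.C i / S.G)) j
  let ξ : S.ι ⊕ S.ι → ℝ → ℝ := fun j θ =>
    Sum.elim (fun i => χ i (Int.fract (θ - S.C i / S.G)))
      (fun i => χ i (Int.fract (-θ - S.C i / S.G))) j
  have hφd : ∀ j θ, HasDerivAt (φ j) (ξ j θ) θ := by
    rintro (i | i) θ
    · have := (hψd i (θ - S.C i / S.G)).comp θ ((hasDerivAt_id θ).sub_const (S.C i / S.G : ℝ))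
      exact this.congr_deriv (by simp [ξ])
    · have := ((hψd i (-θ - S.C i / S.G)).comp θ
        ((hasDerivAt_neg θ).sub_const (S.C i / S.G : ℝ))).neg
      exact this.congr_deriv (by simp [ξ])
  have hχ01 : ∀ i, χ i 0 = χ i 1 := fun i => by
    rw [h3 i 0 (Or.inl le_rfl), h3 i 1 (Or.inr (hlen1 i))]
  have hξL : ∀ j x y, |ξ j x - ξ j y| ≤ Sum.elim L L j * |x - y| := by
    rintro (i | i) x y
    · have := lip_fract (hL i) (h1 i) (hχ01 i) (x - S.C i / S.G) (y - S.C i / S.G)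
      rwa [sub_sub_sub_cancel_right] at this
    · have := lip_fract (hL i) (h1 i) (hχ01 i) (-x - S.C i / S.G) (-y - S.C i / S.G)
      rwa [sub_sub_sub_cancel_right, neg_sub_neg, abs_sub_comm y x] at this
  have hφc : ∀ j, Continuous (φ j) := fun j =>
    continuous_iff_continuousAt.2 fun x => (hφd j x).continuousAt
  have hφe : ∀ θ j, ¬ S.act θ j → e (φ j θ) = 1 := by
    rintro θ (i | i) h
    · exact hψe i _ h
    · have := hψe i _ h
      simp only [φ, Sum.elim_inr]
      rw [e_neg, this, inv_one]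
  have hξ0 : ∀ θ j, ¬ S.act θ j → ξ j θ = 0 := by
    have key : ∀ i (x : ℝ), ¬ (0 < Int.fract x ∧ Int.fract x < S.s i / S.G) →
        χ i (Int.fract x) = 0 := by
      intro i x h
      apply h3
      by_contra h'
      rw [not_or, not_le, not_le] at h'
      exact h h'
    rintro θ (i | i) h
    · exact key i _ h
    · exact key i _ h
  have hφper : ∀ j, Function.Periodic (fun θ => e (φ j θ)) 1 := by
    rintro (i | i) θ
    · simp only [φ, Sum.elim_inl]
      rw [show θ + 1 - S.C i / S.G = θ - S.C i / S.G + 1 by ring, hψ1, e_add_int]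
    · simp only [φ, Sum.elim_inr]
      have := hψ1 i (-(θ + 1) - S.C i / S.G)
      rw [show -(θ + 1) - S.C i / S.G + 1 = -θ - S.C i / S.G by ring] at this
      exact e_eq_of_sub_eq_int (m i) (by rw [this]; ring)
  refine ⟨fun θ => e (∑ j, φ j θ), by fun_prop, ?_, fun θ => norm_e _, ?_, ?_⟩
  · intro θ
    simp only [e_sum]
    exact prod_congr rfl fun j _ => hφper j θ
  · intro θ
    refine ⟨∑ j, ξ j θ, sum_nonneg ?_, ?_, ?_⟩
    · rintro (i | i) _
      · exact (h2 i _).1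
      · exact (h2 i _).1
    · refine sum_le_of_unique _ (S.act θ) M hM ?_ (hξ0 θ) (S.act_unique θ)
      rintro (i | i)
      · exact (h2 i _).2
      · exact (h2 i _).2
    · intro u
      have hd : ∀ x, HasDerivAt (fun θ => ∑ j, φ j θ) (∑ j, ξ j x) x := fun x =>
        HasDerivAt.fun_sum fun j _ => hφd j x
      have hLip : ∀ x y, |∑ j, ξ j x - ∑ j, ξ j y| ≤ (2 * ∑ i, L i) * |x - y| := by
        intro x y
        rw [← sum_sub_distrib]
        refine (abs_sum_le_sum_abs _ _).trans ((sum_le_sum fun j _ => hξL j x y).trans ?_)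
        rw [← sum_mul, Fintype.sum_sum_type]
        simp only [Sum.elim_inl, Sum.elim_inr]
        exact le_of_eq (by ring)
      have hL2 : 0 ≤ 2 * ∑ i, L i := mul_nonneg (by norm_num) (sum_nonneg fun i _ => hL i)
      have ht := taylor_lip hL2 hd hLip θ u
      rw [← e_add, ← sub_eq_add_neg]
      refine (norm_e_sub_e_le _ _).trans ?_
      rw [mul_assoc (2 * Real.pi)]
      exact mul_le_mul_of_nonneg_left ht (by positivity)
  · intro k
    have hE : ∀ θ, e (∑ j, φ j θ) * e (-(k * θ))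
        = e (-(k * θ)) + ∑ j, (e (φ j θ) - 1) * e (-(k * θ)) := by
      intro θ
      rw [e_sum, prod_eq_one_add_sum _ (S.act θ) (hφe θ) (S.act_unique θ), add_mul, one_mul,
        sum_mul]
    simp only [hE]
    have hint : ∀ j, IntervalIntegrable (fun θ => (e (φ j θ) - 1) * e (-(k * θ)))
        MeasureTheory.volume 0 1 := fun j =>
      (by fun_prop : Continuous fun θ => (e (φ j θ) - 1) * e (-(k * θ))).intervalIntegrable _ _
    rw [intervalIntegral.integral_add
      ((by fun_prop : Continuous fun θ : ℝ => e (-(k * θ))).intervalIntegrable _ _)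
      ((by fun_prop : Continuous fun θ =>
        ∑ j, (e (φ j θ) - 1) * e (-(k * θ))).intervalIntegrable _ _),
      intervalIntegral.integral_finset_sum (fun j _ => hint j), Fintype.sum_sum_type,
      ← S.tiling k, ← sum_add_distrib, ← sum_add_distrib, Complex.ofReal_sum]
    refine sum_congr rfl fun i _ => ?_
    have hl : ∫ θ in (0 : ℝ)..1, (e (φ (Sum.inl i) θ) - 1) * e (-(k * θ)) = _ :=
      hψF i (S.C i / S.G) k
    have hp : Function.Periodic (fun θ => e (φ (Sum.inl i) θ) - 1) 1 := fun θ => by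
      have := hφper (Sum.inl i) θ
      simp only at this ⊢
      rw [this]
    have hr := integral_conj_neg hp k
    have hr' : ∫ θ in (0 : ℝ)..1, (e (φ (Sum.inr i) θ) - 1) * e (-(k * θ))
        = ∫ θ in (0 : ℝ)..1, (starRingEnd ℂ) (e (φ (Sum.inl i) (-θ)) - 1) * e (-(k * θ)) := by
      apply intervalIntegral.integral_congr
      intro θ _
      simp only [φ, Sum.elim_inl, Sum.elim_inr, map_sub, conj_e, map_one]
    rw [hr', hr, hl, map_sub, ← Complex.add_conj]
    ring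

theorem assembly {B : ℝ} (S : BranchSystem B) (η : ℝ) (hη : 0 < η) :
    ∀ᶠ N : ℕ in atTop, ∃ b : ℕ → ℝ, (∀ k < N, |b k| ≤ B + η) ∧
      ∀ θ : ℝ, |‖∑ k ∈ range N, (b k : ℂ) * e (k * θ)‖ - √N| ≤ η * √N := by
  have hG : (0 : ℝ) < S.G := by exact_mod_cast S.hG
  have hlen0 : ∀ i, (0 : ℝ) < S.s i / S.G := fun i => by have := S.hs i; positivity
  have hlen1 : ∀ i, (S.s i / S.G : ℝ) ≤ 1 := fun i => by
    rw [div_le_one hG]; exact_mod_cast S.s_le i
  have hBd : ∀ b, 0 ≤ S.Bd b := fun b => (abs_nonneg _).trans (S.bound b 0 0)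
  have hB : 0 ≤ B := (sum_nonneg fun b _ => hBd b).trans (S.overlap 0)
  obtain ⟨γ, hγ⟩ : ∃ γ : ℝ, γ = min 1 (η / (6 * (B + 1))) := ⟨_, rfl⟩
  have hγ0 : 0 < γ := hγ ▸ lt_min one_pos (by positivity)
  have hγ1 : γ ≤ 1 := hγ ▸ min_le_left _ _
  have hγ2 : γ * (6 * (B + 1)) ≤ η := by
    rw [← le_div_iff₀ (by positivity)]; exact hγ ▸ min_le_right _ _
  obtain ⟨τ, hτ⟩ : ∃ τ : ℝ, τ = 1 / (1 + γ) ^ 2 := ⟨_, rfl⟩
  have hτ0 : 0 < τ := by rw [hτ]; positivity
  have hτ1 : τ < 1 := by rw [hτ, div_lt_one (by positivity)]; nlinarith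
  obtain ⟨δ, hδ⟩ : ∃ δ : ℝ, δ = (1 - τ) / 3 := ⟨_, rfl⟩
  have hδ0 : 0 < δ := by rw [hδ]; linarith
  have hδ1 : δ ≤ 1 := by rw [hδ]; linarith
  obtain ⟨ζ, hζ⟩ : ∃ ζ : ℝ, ζ = η / (4 * (Fintype.card S.ι + 1)) := ⟨_, rfl⟩
  have hζ0 : 0 < ζ := by rw [hζ]; positivity
  have hζ1 : Fintype.card S.ι * (2 * ζ) ≤ η / 2 := by
    have : ζ * (4 * (Fintype.card S.ι + 1)) = η := by rw [hζ]; field_simp
    nlinarith
  choose g lam hg0 hg1 hbun using fun b => bundle (δ + τ * S.a b) (τ * S.l b) ζ γ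
    (by have := S.ha b; positivity) (by have := S.hl b; positivity) hζ0 hγ0
  choose K hK0 hK using fun i => hbun (S.bun i) (S.s i / S.G) (hlen0 i) (hlen1 i) (S.u i) (S.hu i)
  have hKs : 0 ≤ 2 * Real.pi * (2 * ∑ i, K i) := by
    have := sum_nonneg fun i (_ : i ∈ univ) => hK0 i
    positivity
  filter_upwards [eventually_all.2 hK, smoothing δ _ η hδ0 hδ1 hKs hη] with N hN hsm
  choose χ hχ1 hχ2 hχ3 hχ4 hχ5 using hN
  have hN0 : (0 : ℝ) ≤ N := Nat.cast_nonneg N
  obtain ⟨E, hE1, hE2, hE3, hE4, hE5⟩ := exists_global S χ (fun i => K i * N) ((1 - δ) * N)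
    (mul_nonneg (by linarith) hN0) (fun i => mul_nonneg (hK0 i) hN0) hχ1
    (fun i x => ⟨(hχ2 i x).1, (hχ2 i x).2.trans (mul_le_mul_of_nonneg_right (by
      have := S.hal (S.bun i)
      nlinarith) hN0)⟩) hχ3 hχ4
  obtain ⟨A, m, hm, hP⟩ := hsm E hE1 hE2 hE3 (fun θ => by
    obtain ⟨ξ, h1, h2, h3⟩ := hE4 θ
    refine ⟨ξ, h1, h2, fun u => (h3 u).trans (le_of_eq ?_)⟩
    rw [← sum_mul]; ring)
  let I : ℤ → ℝ := fun k => ∑ i, 2 * (e (-(k * (S.C i / S.G))) * ∫ x in (0 : ℝ)..(S.s i / S.G),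
          e ((∫ t in (0 : ℝ)..x, χ i t) - k * x)).re
  have hI : ∀ k : ℤ, |√N * I k| ≤ B + η := by
    intro k
    let main : S.ι → ℝ := fun i => 2 * ((√(S.s i / (S.G * S.l (S.bun i))) : ℝ) * S.u i *
      e (-(k * S.C i / S.G) + S.s i * (lam (S.bun i) N k / S.G))).re
    have h1 : ∀ i, |√N * (2 * (e (-(k * (S.C i / S.G))) * ∫ x in (0 : ℝ)..(S.s i / S.G),
        e ((∫ t in (0 : ℝ)..x, χ i t) - k * x)).re) - g (S.bun i) N k * (1 + γ) * main i|
        ≤ 2 * ζ := by
      intro i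
      have h2 := hχ5 i k
      have hl := S.hl (S.bun i)
      have hsq : √(S.s i / S.G / (τ * S.l (S.bun i)))
          = (1 + γ) * √(S.s i / (S.G * S.l (S.bun i))) := by
        have : (S.s i / S.G / (τ * S.l (S.bun i)) : ℝ)
            = (1 + γ) ^ 2 * (S.s i / (S.G * S.l (S.bun i))) := by
          rw [hτ]; field_simp
        rw [this, Real.sqrt_mul (by positivity), Real.sqrt_sq (by positivity)]
      rw [hsq] at h2
      generalize (∫ x in (0 : ℝ)..(S.s i / S.G), e ((∫ t in (0 : ℝ)..x, χ i t) - k * x)) = J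
        at h2 ⊢
      have h3 : e (-(k * S.C i / S.G) + S.s i * (lam (S.bun i) N k / S.G))
          = e (-(k * (S.C i / S.G))) * e (S.s i / S.G * lam (S.bun i) N k) := by
        rw [← e_add]; congr 1; ring
      have h4 : √N * (2 * (e (-(k * (S.C i / S.G))) * J).re) - g (S.bun i) N k * (1 + γ) * main i
          = 2 * (e (-(k * (S.C i / S.G))) * ((√N : ℝ) * J - (g (S.bun i) N k *
            ((1 + γ) * √(S.s i / (S.G * S.l (S.bun i)))) : ℝ) * S.u i *
            e (S.s i / S.G * lam (S.bun i) N k))).re := by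
        simp only [main]
        rw [h3]
        have e1 : ∀ (x : ℝ) (z : ℂ), x * (2 * z.re) = 2 * ((x : ℂ) * z).re := by
          intro x z; rw [Complex.re_ofReal_mul]; ring
        rw [e1, e1, ← mul_sub, ← Complex.sub_re]
        congr 2
        push_cast; ring
      rw [h4, abs_mul, abs_two]
      refine mul_le_mul_of_nonneg_left ((Complex.abs_re_le_norm _).trans ?_) (by norm_num)
      rw [norm_mul, norm_e, one_mul]
      exact h2
    have h5 : |√N * I k - ∑ i, g (S.bun i) N k * (1 + γ) * main i| ≤ η / 2 := by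
      simp only [I]
      rw [mul_sum, ← sum_sub_distrib]
      refine (abs_sum_le_sum_abs _ _).trans ((sum_le_sum fun i _ => h1 i).trans ?_)
      rw [sum_const, card_univ, nsmul_eq_mul]
      exact hζ1
    have h6 : |∑ i, g (S.bun i) N k * (1 + γ) * main i| ≤ (1 + γ) ^ 2 * B := by
      rw [← sum_fiberwise univ S.bun]
      refine (abs_sum_le_sum_abs _ _).trans ?_
      refine le_trans ?_ (mul_le_mul_of_nonneg_left (S.overlap ((k / N - δ) / τ))
        (by positivity))
      rw [mul_sum, sum_filter]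
      refine sum_le_sum fun b _ => ?_
      have h7 : ∑ i with S.bun i = b, g (S.bun i) N k * (1 + γ) * main i
          = g b N k * (1 + γ) * ∑ i with S.bun i = b, 2 * ((√(S.s i / (S.G * S.l b)) : ℝ) *
            S.u i * e (-(k * S.C i / S.G) + S.s i * (lam b N k / S.G))).re := by
        rw [mul_sum]
        refine sum_congr rfl fun i hi => ?_
        have := (mem_filter.1 hi).2
        simp only [main, this]
      rw [h7, abs_mul]
      have h8 := S.bound b k (lam b N k / S.G)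
      have h9 := hg0 b N k
      by_cases hgz : g b N k = 0
      · rw [hgz]
        simp only [zero_mul, abs_zero]
        split_ifs
        · have := hBd b; positivity
        · exact le_rfl
      · obtain ⟨h10, h11⟩ := hg1 b N k hgz
        rw [if_pos ⟨by rw [lt_div_iff₀ hτ0]; linarith, by rw [div_lt_iff₀ hτ0]; linarith⟩]
        rw [abs_of_nonneg (mul_nonneg h9.1 (by positivity))]
        refine mul_le_mul (by nlinarith) h8 (abs_nonneg _) (by positivity)
    have h12 : (1 + γ) ^ 2 * B ≤ B + η / 2 := by nlinarith [mul_nonneg hγ0.le hB]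
    have h13 := abs_sub_abs_le_abs_sub (√N * I k) (∑ i, g (S.bun i) N k * (1 + γ) * main i)
    linarith
  refine ⟨fun k => m k * (√N * I (k - A)), fun k _ => ?_, fun θ => ?_⟩
  · rw [abs_mul, abs_of_nonneg (hm k).1]
    have := hI (k - A)
    have h2 := hm k
    have h3 := abs_nonneg (√N * I (k - A))
    nlinarith
  · have h1 := hP θ
    have h2 : ∑ k ∈ range N, ((m k * (√N * I (k - A)) : ℝ) : ℂ) * e (k * θ)
        = (√N : ℝ) * ∑ k ∈ range N, (m k : ℂ) *
          (∫ s in (0 : ℝ)..1, E s * e (-(((k : ℤ) - A : ℤ) * s))) * e (k * θ) := by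
      rw [mul_sum]
      refine sum_congr rfl fun k _ => ?_
      rw [hE5]
      simp only [I]
      push_cast; ring
    rw [h2, norm_mul, Complex.norm_real, Real.norm_eq_abs, abs_of_nonneg (Real.sqrt_nonneg _)]
    have h3 := Real.sqrt_nonneg (N : ℝ)
    rw [← mul_sub_one, abs_mul, abs_of_nonneg h3, mul_comm]
    exact mul_le_mul_of_nonneg_right h1 h3

end Vale.Agent.P110
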