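import Vale.Agent.P110.Defs

/-! Auxiliary lemmas for the assembly of the global phase function. -/

namespace Vale.Agent.P110

open Finset

theorem lip_fract {χ : ℝ → ℝ} {L : ℝ} (hL : 0 ≤ L) (h : ∀ x y, |χ x - χ y| ≤ L * |x - y|)
    (h01 : χ 0 = χ 1) (x y : ℝ) : |χ (Int.fract x) - χ (Int.fract y)| ≤ L * |x - y| := by
  wlog hxy : x ≤ y generalizing x y
  · rw [abs_sub_comm, abs_sub_comm x y]; exact this y x (le_of_not_ge hxy)
  have hfl : ⌊x⌋ ≤ ⌊y⌋ := Int.floor_le_floor hxy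
  have hx := Int.self_sub_floor x
  have hy := Int.self_sub_floor y
  have hx1 := Int.fract_lt_one x
  have hy0 := Int.fract_nonneg y
  rcases hfl.eq_or_lt with he | hlt
  · have : Int.fract x - Int.fract y = x - y := by rw [← hx, ← hy, he]; ring
    rw [← this]; exact h _ _
  · have h1 : (⌊x⌋ : ℝ) + 1 ≤ ⌊y⌋ := by exact_mod_cast hlt
    have h2 := h (Int.fract x) 1
    have h3 := h 0 (Int.fract y)
    rw [abs_of_nonpos (by linarith : Int.fract x - 1 ≤ 0)] at h2
    rw [abs_of_nonpos (by linarith : 0 - Int.fract y ≤ 0)] at h3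
    have h4 : |χ (Int.fract x) - χ (Int.fract y)|
        ≤ |χ (Int.fract x) - χ 1| + |χ 0 - χ (Int.fract y)| := by
      rw [h01]; exact abs_sub_le _ _ _
    rw [abs_of_nonpos (by linarith : x - y ≤ 0)]
    have h5 : -(Int.fract x - 1) + -(0 - Int.fract y) ≤ -(x - y) := by linarith
    nlinarith

theorem continuous_of_lip {f : ℝ → ℝ} {L : ℝ} (hL : 0 ≤ L)
    (h : ∀ x y, |f x - f y| ≤ L * |x - y|) : Continuous f := by
  have : LipschitzWith ⟨L, hL⟩ f := by
    apply LipschitzWith.of_dist_le_mul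
    intro x y
    exact h x y
  exact this.continuous

theorem taylor_lip {Φ Ξ : ℝ → ℝ} {L : ℝ} (hL : 0 ≤ L) (hd : ∀ x, HasDerivAt Φ (Ξ x) x)
    (h : ∀ x y, |Ξ x - Ξ y| ≤ L * |x - y|) (θ u : ℝ) :
    |Φ (θ - u) - (Φ θ - Ξ θ * u)| ≤ L * u ^ 2 := by
  have h1 : ∀ x ∈ Set.uIcc θ (θ - u), HasDerivWithinAt (fun x => Φ x - Ξ θ * x) (Ξ x - Ξ θ)
      (Set.uIcc θ (θ - u)) x := by
    intro x _
    have := (hd x).sub ((hasDerivAt_id x).const_mul (Ξ θ))
    exact (this.congr_deriv (by simp)).hasDerivWithinAt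
  have h2 : ∀ x ∈ Set.uIcc θ (θ - u), ‖Ξ x - Ξ θ‖ ≤ L * |u| := by
    intro x hx
    refine (h x θ).trans (mul_le_mul_of_nonneg_left ?_ hL)
    have := Set.abs_sub_left_of_mem_uIcc hx
    simpa using this
  have h3 := Convex.norm_image_sub_le_of_norm_hasDerivWithin_le h1 h2 (convex_uIcc _ _)
    Set.left_mem_uIcc Set.right_mem_uIcc
  have h4 : Φ (θ - u) - (Φ θ - Ξ θ * u)
      = Φ (θ - u) - Ξ θ * (θ - u) - (Φ θ - Ξ θ * θ) := by ring
  rw [h4]
  refine h3.trans (le_of_eq ?_)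
  rw [Real.norm_eq_abs, show θ - u - θ = -u by ring, abs_neg, mul_assoc, abs_mul_abs_self]
  ring

theorem prod_eq_one_add_sum {J : Type*} [Fintype J] (x : J → ℂ) (act : J → Prop)
    (h1 : ∀ j, ¬ act j → x j = 1) (h2 : ∀ j j', act j → act j' → j = j') :
    ∏ j, x j = 1 + ∑ j, (x j - 1) := by
  classical
  by_cases h : ∃ j, act j
  · obtain ⟨j, hj⟩ := h
    have h3 : ∀ j', j' ≠ j → x j' = 1 := fun j' hj' => h1 j' fun h => hj' (h2 _ _ h hj)
    rw [prod_eq_single j (fun j' _ hj' => h3 j' hj') (by simp),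
      sum_eq_single j (fun j' _ hj' => by rw [h3 j' hj', sub_self]) (by simp)]
    ring
  · have h3 : ∀ j, x j = 1 := fun j => h1 j fun hj => h ⟨j, hj⟩
    simp [h3]

theorem sum_le_of_unique {J : Type*} [Fintype J] (x : J → ℝ) (act : J → Prop) (M : ℝ)
    (hM : 0 ≤ M) (h0 : ∀ j, x j ≤ M)
    (h1 : ∀ j, ¬ act j → x j = 0) (h2 : ∀ j j', act j → act j' → j = j') :
    ∑ j, x j ≤ M := by
  classical
  by_cases h : ∃ j, act j
  · obtain ⟨j, hj⟩ := h
    have h3 : ∀ j', j' ≠ j → x j' = 0 := fun j' hj' => h1 j' fun h => hj' (h2 _ _ h hj)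
    rw [sum_eq_single j (fun j' _ hj' => h3 j' hj') (by simp)]
    exact h0 j
  · have h3 : ∀ j, x j = 0 := fun j => h1 j fun hj => h ⟨j, hj⟩
    simp [h3, hM]

/-- Properties of the primitive of the periodised frequency profile. -/
theorem periodize {χ : ℝ → ℝ} {L len : ℝ} {m : ℤ} (hL : 0 ≤ L) (hlen0 : 0 < len) (hlen1 : len ≤ 1)
    (h : ∀ x y, |χ x - χ y| ≤ L * |x - y|) (h0 : ∀ x, x ≤ 0 ∨ len ≤ x → χ x = 0)
    (hm : ∫ x in (0 : ℝ)..len, χ x = m) :
    ∃ ψ : ℝ → ℝ, (∀ x, HasDerivAt ψ (χ (Int.fract x)) x) ∧ (∀ x, ψ (x + 1) = ψ x + m) ∧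
      (∀ x, ¬ (0 < Int.fract x ∧ Int.fract x < len) → e (ψ x) = 1) ∧
      ∀ (c : ℝ) (k : ℤ), ∫ θ in (0 : ℝ)..1, (e (ψ (θ - c)) - 1) * e (-(k * θ)) =
        e (-(k * c)) * (∫ x in (0 : ℝ)..len, e ((∫ t in (0 : ℝ)..x, χ t) - k * x))
          - ∫ x in c..(c + len), e (-(k * x)) := by
  have h01 : χ 0 = χ 1 := by rw [h0 0 (Or.inl le_rfl), h0 1 (Or.inr hlen1)]
  have hcχ : Continuous χ := continuous_of_lip hL h
  have hc : Continuous fun x => χ (Int.fract x) := continuous_of_lip hL (lip_fract hL h h01)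
  have hper : Function.Periodic (fun x => χ (Int.fract x)) 1 := fun x => by
    simp only [Int.fract_add_one]
  set ψ : ℝ → ℝ := fun x => ∫ t in (0 : ℝ)..x, χ (Int.fract t) with hψ
  have hd : ∀ x, HasDerivAt ψ (χ (Int.fract x)) x := fun x =>
    (hc.integral_hasStrictDerivAt 0 x).hasDerivAt
  have hloc : ∀ x ∈ Set.Icc (0 : ℝ) 1, ψ x = ∫ t in (0 : ℝ)..x, χ t := by
    intro x hx
    apply intervalIntegral.integral_congr
    intro t ht
    rw [Set.uIcc_of_le hx.1] at ht
    rcases (ht.2.trans hx.2).eq_or_lt with h1 | h1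
    · simp only [h1, Int.fract_one, h01]
    · simp only [Int.fract_eq_self.2 ⟨ht.1, h1⟩]
  have htail : ∀ x ∈ Set.Icc len 1, ψ x = m := by
    intro x hx
    rw [hloc x ⟨hlen0.le.trans hx.1, hx.2⟩, ← intervalIntegral.integral_add_adjacent_intervals
      (hcχ.intervalIntegrable 0 len) (hcχ.intervalIntegrable len x), hm]
    have : ∫ t in len..x, χ t = ∫ _ in len..x, (0 : ℝ) := by
      apply intervalIntegral.integral_congr
      intro t ht
      rw [Set.uIcc_of_le hx.1] at ht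
      exact h0 t (Or.inr ht.1)
    rw [this]; simp
  have hψ1 : ∀ x, ψ (x + 1) = ψ x + m := by
    intro x
    have h1 := hper.intervalIntegral_add_eq x 0
    have h2 : ψ (x + 1) = ψ x + ∫ t in x..(x + 1), χ (Int.fract t) :=
      (intervalIntegral.integral_add_adjacent_intervals (hc.intervalIntegrable _ _)
        (hc.intervalIntegrable _ _)).symm
    have h3 := htail 1 ⟨hlen1, le_rfl⟩
    rw [h2, h1, zero_add]
    congr 1
  have hEper : Function.Periodic (fun x => e (ψ x)) 1 := fun x => by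
    simp only [hψ1, e_add_int]
  have hcψ : Continuous ψ := continuous_iff_continuousAt.2 fun x => (hd x).continuousAt
  refine ⟨ψ, hd, hψ1, ?_, ?_⟩
  · intro x hx
    have h1 : e (ψ x) = e (ψ (Int.fract x)) := by
      have := hEper.sub_int_mul_eq (x := x) ⌊x⌋
      simp only [mul_one, Int.self_sub_floor] at this
      exact this.symm
    rw [h1]
    by_cases h2 : Int.fract x = 0
    · rw [h2]; simp [hψ]
    · have h3 : 0 < Int.fract x := lt_of_le_of_ne (Int.fract_nonneg x) (Ne.symm h2)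
      have h4 : len ≤ Int.fract x := le_of_not_gt fun h => hx ⟨h3, h⟩
      rw [htail _ ⟨h4, (Int.fract_lt_one x).le⟩, e_intCast]
  · intro c k
    have hp : Function.Periodic (fun θ => (e (ψ (θ - c)) - 1) * e (-(k * θ))) 1 := by
      intro θ
      have h1 : θ + 1 - c = θ - c + 1 := by ring
      have h2 : -((k : ℝ) * (θ + 1)) = -(k * θ) - k := by ring
      simp only [h1, hψ1, e_add_int, h2, e_sub_int]
    have h1 := hp.intervalIntegral_add_eq 0 c
    rw [zero_add] at h1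
    rw [h1]
    have h2 := intervalIntegral.integral_comp_add_right
      (fun θ => (e (ψ (θ - c)) - 1) * e (-(k * θ))) (a := 0) (b := 1) c
    rw [zero_add, add_comm 1 c] at h2
    rw [← h2]
    simp only [add_sub_cancel_right]
    have hcF : Continuous fun x => (e (ψ x) - 1) * e (-(k * (x + c))) := by fun_prop
    rw [← intervalIntegral.integral_add_adjacent_intervals
      (hcF.intervalIntegrable 0 len) (hcF.intervalIntegrable len 1)]
    have h3 : ∫ x in len..1, (e (ψ x) - 1) * e (-(k * (x + c))) = ∫ _ in len..1, (0 : ℂ) := by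
      apply intervalIntegral.integral_congr
      intro t ht
      rw [Set.uIcc_of_le hlen1] at ht
      simp only [htail t ht, e_intCast, sub_self, zero_mul]
    rw [h3, intervalIntegral.integral_zero, add_zero]
    have h4 := intervalIntegral.integral_comp_add_right
      (fun x => e (-(k * x))) (a := 0) (b := len) c
    rw [zero_add, add_comm len c] at h4
    rw [← h4, ← intervalIntegral.integral_const_mul, ← intervalIntegral.integral_sub]
    · apply intervalIntegral.integral_congr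
      intro x hx
      rw [Set.uIcc_of_le hlen0.le] at hx
      simp only
      rw [← hloc x ⟨hx.1, hx.2.trans hlen1⟩, sub_mul, one_mul, ← e_add, ← e_add]
      congr 2; ring
    · have hc2 : Continuous fun x => ∫ t in (0 : ℝ)..x, χ t :=
        continuous_iff_continuousAt.2 fun x =>
          (hcχ.integral_hasStrictDerivAt 0 x).hasDerivAt.continuousAt
      exact (by fun_prop : Continuous fun x =>
        e (-(k * c)) * e ((∫ t in (0 : ℝ)..x, χ t) - k * x)).intervalIntegrable _ _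
    · exact (by fun_prop : Continuous fun x : ℝ => e (-(k * (x + c)))).intervalIntegrable _ _

theorem integral_conj_neg {h : ℝ → ℂ} (hp : Function.Periodic h 1) (k : ℤ) :
    ∫ θ in (0 : ℝ)..1, (starRingEnd ℂ) (h (-θ)) * e (-(k * θ))
      = (starRingEnd ℂ) (∫ θ in (0 : ℝ)..1, h θ * e (-(k * θ))) := by
  rw [← intervalIntegral.intervalIntegral_conj]
  have hp2 : Function.Periodic (fun θ => (starRingEnd ℂ) (h θ * e (-(k * θ)))) 1 := by
    intro θ
    have h2 : -((k : ℝ) * (θ + 1)) = -(k * θ) - k := by ring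
    simp only [hp θ, h2, e_sub_int]
  have h1 := hp2.intervalIntegral_add_eq 0 (-1)
  rw [zero_add, neg_add_cancel] at h1
  rw [h1]
  have h2 := intervalIntegral.integral_comp_neg
    (fun θ => (starRingEnd ℂ) (h θ * e (-(k * θ)))) (a := 0) (b := 1)
  rw [neg_zero] at h2
  rw [← h2]
  apply intervalIntegral.integral_congr
  intro θ _
  simp only [map_mul, conj_e]
  congr 2; ring

theorem active_pos {G : ℕ} (hG : 0 < G) (C : ℤ) (s : ℕ) (θ : ℝ)
    (h : Int.fract (θ - C / G) < s / G) :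
    ∃ r : ℕ, r < s ∧ (G : ℤ) ∣ ⌊G * θ⌋ - (C + r) := by
  have hG' : (0 : ℝ) < G := by exact_mod_cast hG
  set n := ⌊θ - C / G⌋ with hn
  have h1 : G * Int.fract (θ - C / G) = G * θ - ((C + G * n : ℤ) : ℝ) := by
    rw [← Int.self_sub_floor, ← hn]; push_cast; field_simp; ring
  have h2 : 0 ≤ G * Int.fract (θ - C / G) := mul_nonneg hG'.le (Int.fract_nonneg _)
  have h3 : G * Int.fract (θ - C / G) < s := by
    rw [lt_div_iff₀ hG'] at h; linarith
  have h4 : ⌊G * Int.fract (θ - C / G)⌋ = ⌊G * θ⌋ - (C + G * n) := by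
    rw [h1, Int.floor_sub_intCast]
  have h5 : 0 ≤ ⌊G * Int.fract (θ - C / G)⌋ := Int.floor_nonneg.2 h2
  have h6 : ⌊G * Int.fract (θ - C / G)⌋ < s := by
    rw [Int.floor_lt]; exact_mod_cast h3
  refine ⟨⌊G * Int.fract (θ - C / G)⌋.toNat, by omega, n, ?_⟩
  rw [Int.toNat_of_nonneg h5, h4]; ring

theorem active_neg {G : ℕ} (hG : 0 < G) (C : ℤ) (s : ℕ) (θ : ℝ)
    (h0 : 0 < Int.fract (-θ - C / G)) (h : Int.fract (-θ - C / G) < s / G) :
    ∃ r : ℕ, r < s ∧ (G : ℤ) ∣ ⌊G * θ⌋ + (C + r) + 1 := by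
  have hG' : (0 : ℝ) < G := by exact_mod_cast hG
  set n := ⌊-θ - C / G⌋ with hn
  have h1 : G * Int.fract (-θ - C / G) = -(G * θ) - ((C + G * n : ℤ) : ℝ) := by
    rw [← Int.self_sub_floor, ← hn]; push_cast; field_simp; ring
  have h2 : 0 < G * Int.fract (-θ - C / G) := mul_pos hG' h0
  have h3 : G * Int.fract (-θ - C / G) < s := by
    rw [lt_div_iff₀ hG'] at h; linarith
  have h4 : ⌈G * Int.fract (-θ - C / G)⌉ = -⌊G * θ⌋ - (C + G * n) := by
    rw [h1, Int.ceil_sub_intCast, Int.ceil_neg]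
  have h5 : 0 < ⌈G * Int.fract (-θ - C / G)⌉ := Int.ceil_pos.2 h2
  have h6 : ⌈G * Int.fract (-θ - C / G)⌉ ≤ s := by
    rw [Int.ceil_le]; exact_mod_cast h3.le
  refine ⟨(⌈G * Int.fract (-θ - C / G)⌉ - 1).toNat, by omega, -n, ?_⟩
  rw [Int.toNat_of_nonneg (by omega), h4]; ring

namespace BranchSystem

variable {B : ℝ} (S : BranchSystem B)

theorem s_le (i : S.ι) : S.s i ≤ S.G := by
  by_contra h
  have := (S.inj1 i i S.G 0 (by omega) (S.hs i) (by simp)).2
  have := S.hG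
  omega

/-- Activity of a branch or of its mirror image at the point `θ`. -/
def act (θ : ℝ) : S.ι ⊕ S.ι → Prop
  | Sum.inl i => 0 < Int.fract (θ - S.C i / S.G) ∧ Int.fract (θ - S.C i / S.G) < S.s i / S.G
  | Sum.inr i => 0 < Int.fract (-θ - S.C i / S.G) ∧ Int.fract (-θ - S.C i / S.G) < S.s i / S.G

theorem act_unique (θ : ℝ) (j j' : S.ι ⊕ S.ι) (hj : S.act θ j) (hj' : S.act θ j') : j = j' := by
  rcases j with i | i <;> rcases j' with i' | i'
  · obtain ⟨r, hr, h⟩ := active_pos S.hG _ _ _ hj.2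
    obtain ⟨r', hr', h'⟩ := active_pos S.hG _ _ _ hj'.2
    have := S.inj1 i i' r r' hr hr' ((dvd_sub h' h).trans (dvd_of_eq (by ring)))
    rw [this.1]
  · obtain ⟨r, hr, h⟩ := active_pos S.hG _ _ _ hj.2
    obtain ⟨r', hr', h'⟩ := active_neg S.hG _ _ _ hj'.1 hj'.2
    exact (S.inj2 i i' r r' hr hr' ((dvd_sub h' h).trans (dvd_of_eq (by ring)))).elim
  · obtain ⟨r, hr, h⟩ := active_neg S.hG _ _ _ hj.1 hj.2
    obtain ⟨r', hr', h'⟩ := active_pos S.hG _ _ _ hj'.2
    exact (S.inj2 i i' r r' hr hr' ((dvd_sub h h').trans (dvd_of_eq (by ring)))).elim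
  · obtain ⟨r, hr, h⟩ := active_neg S.hG _ _ _ hj.1 hj.2
    obtain ⟨r', hr', h'⟩ := active_neg S.hG _ _ _ hj'.1 hj'.2
    have := S.inj1 i i' r r' hr hr' ((dvd_sub h h').trans (dvd_of_eq (by ring)))
    rw [this.1]

theorem sum_cells (f : ℤ → ℂ) (hf : ∀ c c', (S.G : ℤ) ∣ c - c' → f c = f c') :
    ∑ i, ∑ r ∈ range (S.s i), (f (S.C i + r) + f (-1 - (S.C i + r)))
      = ∑ c ∈ range S.G, f c := by
  classical
  have hG : (0 : ℤ) < S.G := by exact_mod_cast S.hG
  let cell : (Σ i, Fin (S.s i)) ⊕ (Σ i, Fin (S.s i)) → ℤ := fun j =>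
    Sum.elim (fun t => S.C t.1 + (t.2 : ℕ)) (fun t => -1 - (S.C t.1 + (t.2 : ℕ))) j
  have h1 : ∑ i, ∑ r ∈ range (S.s i), (f (S.C i + r) + f (-1 - (S.C i + r)))
      = ∑ j, f (cell j) := by
    rw [Fintype.sum_sum_type, Fintype.sum_sigma, Fintype.sum_sigma, ← sum_add_distrib]
    refine sum_congr rfl fun i _ => ?_
    rw [sum_add_distrib]
    simp only [cell, Sum.elim_inl, Sum.elim_inr]
    rw [Fin.sum_univ_eq_sum_range (fun r => f (S.C i + r)),
      Fin.sum_univ_eq_sum_range (fun r => f (-1 - (S.C i + r)))]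
  rw [h1]
  have hmod : ∀ c : ℤ, (((c % S.G).toNat : ℕ) : ℤ) = c % S.G := fun c =>
    Int.toNat_of_nonneg (Int.emod_nonneg _ hG.ne')
  apply sum_bij (fun j _ => (cell j % S.G).toNat)
  · intro j _
    rw [mem_range]
    have := Int.emod_lt_of_pos (cell j) hG
    have := hmod (cell j)
    omega
  · intro j _ j' _ h
    have h2 : cell j % S.G = cell j' % S.G := by rw [← hmod, ← hmod (cell j'), h]
    have h3 : (S.G : ℤ) ∣ cell j - cell j' := Int.modEq_iff_dvd.1 h2.symm
    rcases j with ⟨i, r⟩ | ⟨i, r⟩ <;> rcases j' with ⟨i', r'⟩ | ⟨i', r'⟩ <;>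
      simp only [cell, Sum.elim_inl, Sum.elim_inr] at h3
    · obtain ⟨rfl, h4⟩ := S.inj1 i i' r r' r.2 r'.2 h3
      rw [Fin.ext h4]
    · exact (S.inj2 i i' r r' r.2 r'.2 (h3.trans (dvd_of_eq (by ring)))).elim
    · exact (S.inj2 i i' r r' r.2 r'.2 (h3.neg_right.trans (dvd_of_eq (by ring)))).elim
    · obtain ⟨rfl, h4⟩ := S.inj1 i i' r r' r.2 r'.2 (h3.neg_right.trans (dvd_of_eq (by ring)))
      rw [Fin.ext h4]
  · intro c hc
    rw [mem_range] at hc
    have hc' : (c : ℤ) % S.G = c := Int.emod_eq_of_lt (by omega) (by exact_mod_cast hc)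
    obtain ⟨i, r, hr, h | h⟩ := S.surj c
    · refine ⟨Sum.inl ⟨i, ⟨r, hr⟩⟩, mem_univ _, ?_⟩
      have : cell (Sum.inl ⟨i, ⟨r, hr⟩⟩) % S.G = c % S.G :=
        Int.modEq_iff_dvd.2 (by simpa only [cell, Sum.elim_inl] using h)
      rw [this, hc']; simp
    · refine ⟨Sum.inr ⟨i, ⟨r, hr⟩⟩, mem_univ _, ?_⟩
      have : cell (Sum.inr ⟨i, ⟨r, hr⟩⟩) % S.G = c % S.G :=
        Int.modEq_iff_dvd.2 (by
          simp only [cell, Sum.elim_inr]
          convert h using 1; ring)
      rw [this, hc']; simp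
  · intro j _
    apply hf
    rw [hmod]
    exact ⟨cell j / S.G, by linarith [Int.mul_ediv_add_emod (cell j) S.G]⟩

theorem tiling (k : ℤ) :
    ∑ i, ((∫ x in (S.C i / S.G : ℝ)..(S.C i / S.G + S.s i / S.G), e (-(k * x))) +
      (starRingEnd ℂ) (∫ x in (S.C i / S.G : ℝ)..(S.C i / S.G + S.s i / S.G), e (-(k * x))))
      = ∫ x in (0 : ℝ)..1, e (-(k * x)) := by
  have hG : (0 : ℝ) < S.G := by exact_mod_cast S.hG
  have hc : Continuous fun x : ℝ => e (-(k * x)) := by fun_prop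
  set f : ℤ → ℂ := fun c => ∫ x in (c / S.G : ℝ)..((c + 1) / S.G), e (-(k * x)) with hf
  have hadj : ∀ (C : ℤ) (n : ℕ), ∑ r ∈ range n, f (C + r)
      = ∫ x in (C / S.G : ℝ)..(C / S.G + n / S.G), e (-(k * x)) := by
    intro C n
    have := intervalIntegral.sum_integral_adjacent_intervals (f := fun x : ℝ => e (-(k * x)))
      (μ := MeasureTheory.volume) (a := fun r : ℕ => ((C : ℝ) + r) / S.G) (n := n)
      (fun r _ => hc.intervalIntegrable _ _)
    simp only [Nat.cast_zero, add_zero] at this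
    rw [← add_div, ← this]
    refine sum_congr rfl fun r _ => ?_
    simp only [hf]
    push_cast
    rw [add_assoc]
  have hconj : ∀ c : ℤ, (starRingEnd ℂ) (f c) = f (-1 - c) := by
    intro c
    simp only [hf]
    rw [← intervalIntegral.intervalIntegral_conj]
    have h2 := intervalIntegral.integral_comp_neg (fun x : ℝ => e (-(k * x)))
      (a := (c / S.G : ℝ)) (b := (c + 1) / S.G)
    have h3 : (((-1 - c : ℤ) : ℝ)) / S.G = -((c + 1) / S.G) := by push_cast; ring
    have h4 : (((-1 - c : ℤ) : ℝ) + 1) / S.G = -(c / S.G) := by push_cast; ring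
    rw [h3, h4, ← h2]
    apply intervalIntegral.integral_congr
    intro x _
    simp only [conj_e]
    congr 1; ring
  have hper : ∀ c c', (S.G : ℤ) ∣ c - c' → f c = f c' := by
    rintro c c' ⟨t, ht⟩
    have hcc : c = c' + S.G * t := by linarith
    simp only [hf]
    have h2 := intervalIntegral.integral_comp_add_right (fun x : ℝ => e (-(k * x)))
      (a := (c' / S.G : ℝ)) (b := (c' + 1) / S.G) t
    have h3 : (c : ℝ) / S.G = c' / S.G + t := by rw [hcc]; push_cast; field_simp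
    have h4 : ((c : ℝ) + 1) / S.G = (c' + 1) / S.G + t := by rw [hcc]; push_cast; field_simp; ring
    rw [h3, h4, ← h2]
    apply intervalIntegral.integral_congr
    intro x _
    exact e_eq_of_sub_eq_int (-(k * t)) (by push_cast; ring)
  have h1 := S.sum_cells f hper
  have h2 := hadj 0 S.G
  simp only [zero_add, Int.cast_zero, zero_div, div_self hG.ne'] at h2
  rw [← h2, ← h1]
  refine sum_congr rfl fun i _ => ?_
  rw [← hadj, map_sum, ← sum_add_distrib]
  refine sum_congr rfl fun r _ => ?_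
  rw [hconj]

end BranchSystem

end Vale.Agent.P110
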