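import Mathlib

/-! Basic facts about the character `e x = exp (2 π i x)`. -/

namespace Vale.Agent.P110

open Finset

/-- `e x = exp (2 π i x)`. -/
noncomputable def e (x : ℝ) : ℂ := Complex.exp (((2 * Real.pi * x : ℝ) : ℂ) * Complex.I)

@[simp] theorem norm_e (x : ℝ) : ‖e x‖ = 1 := by
  unfold e; exact Complex.norm_exp_ofReal_mul_I _

@[simp] theorem e_zero : e 0 = 1 := by simp [e]

theorem e_add (x y : ℝ) : e (x + y) = e x * e y := by
  unfold e; rw [← Complex.exp_add]; congr 1; push_cast; ring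

theorem e_ne_zero (x : ℝ) : e x ≠ 0 := by
  unfold e; exact Complex.exp_ne_zero _

theorem conj_e (x : ℝ) : (starRingEnd ℂ) (e x) = e (-x) := by
  unfold e
  rw [← Complex.exp_conj]; congr 1
  simp only [map_mul, Complex.conj_ofReal, Complex.conj_I]
  push_cast; ring

theorem e_mul_e_neg (x : ℝ) : e x * e (-x) = 1 := by
  rw [← e_add]; simp

theorem e_neg (x : ℝ) : e (-x) = (e x)⁻¹ :=
  eq_inv_of_mul_eq_one_right (e_mul_e_neg x)

theorem e_sub (x y : ℝ) : e (x - y) = e x * e (-y) := by
  rw [sub_eq_add_neg, e_add]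

@[simp] theorem e_intCast (m : ℤ) : e m = 1 := by
  unfold e
  have := Complex.exp_int_mul_two_pi_mul_I m
  rw [← this]; congr 1; push_cast; ring

@[simp] theorem e_natCast (m : ℕ) : e m = 1 := by
  have := e_intCast m
  simpa using this

@[simp] theorem e_one : e 1 = 1 := by
  have := e_intCast 1
  simpa using this

theorem e_add_int (x : ℝ) (m : ℤ) : e (x + m) = e x := by
  rw [e_add, e_intCast, mul_one]

theorem e_sub_int (x : ℝ) (m : ℤ) : e (x - m) = e x := by
  have := e_add_int x (-m)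
  rw [← this]; congr 1; push_cast; ring

/-- If two reals differ by an integer, their characters agree. -/
theorem e_eq_of_sub_eq_int {x y : ℝ} (m : ℤ) (h : x - y = m) : e x = e y := by
  have : x = y + m := by linarith
  rw [this, e_add_int]

theorem e_sum {ι : Type*} (s : Finset ι) (f : ι → ℝ) : e (∑ i ∈ s, f i) = ∏ i ∈ s, e (f i) := by
  classical
  induction s using Finset.induction_on with
  | empty => simp
  | insert a s ha ih => rw [sum_insert ha, prod_insert ha, e_add, ih]

theorem e_nat_mul (n : ℕ) (x : ℝ) : e (n * x) = e x ^ n := by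
  induction n with
  | zero => simp
  | succ n ih => rw [pow_succ, ← ih, ← e_add]; congr 1; push_cast; ring

theorem e_eq_cos_add_sin (x : ℝ) :
    e x = (Real.cos (2 * Real.pi * x) : ℂ) + (Real.sin (2 * Real.pi * x) : ℂ) * Complex.I := by
  unfold e
  rw [Complex.exp_mul_I, ← Complex.ofReal_cos, ← Complex.ofReal_sin]

theorem e_re (x : ℝ) : (e x).re = Real.cos (2 * Real.pi * x) := by
  unfold e; exact Complex.exp_ofReal_mul_I_re _

theorem e_im (x : ℝ) : (e x).im = Real.sin (2 * Real.pi * x) := by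
  unfold e; exact Complex.exp_ofReal_mul_I_im _

@[fun_prop, continuity] theorem continuous_e : Continuous e := by
  unfold e; fun_prop

theorem hasDerivAt_e (x : ℝ) :
    HasDerivAt e (e x * (2 * Real.pi * Complex.I)) x := by
  unfold e
  have h1 : HasDerivAt (fun y : ℝ => (((2 * Real.pi * y : ℝ) : ℂ) * Complex.I))
      (2 * Real.pi * Complex.I) x := by
    have h0 : HasDerivAt (fun y : ℝ => 2 * Real.pi * y) (2 * Real.pi) x := by
      simpa using (hasDerivAt_id x).const_mul (2 * Real.pi)
    exact (h0.ofReal_comp.mul_const Complex.I).congr_deriv (by push_cast; ring)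
  exact h1.cexp

theorem HasDerivAt.e_comp {f : ℝ → ℝ} {f' x : ℝ} (hf : HasDerivAt f f' x) :
    HasDerivAt (fun y => e (f y)) (e (f x) * (2 * Real.pi * Complex.I) * f') x := by
  have := (hasDerivAt_e (f x)).scomp x hf
  exact this.congr_deriv (by rw [Complex.real_smul]; ring)

theorem norm_e_sub_one_le (x : ℝ) : ‖e x - 1‖ ≤ 2 * Real.pi * |x| := by
  unfold e
  have h := Real.norm_exp_I_mul_ofReal_sub_one_le (x := 2 * Real.pi * x)
  rw [mul_comm Complex.I] at h
  refine h.trans (le_of_eq ?_)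
  rw [Real.norm_eq_abs, abs_mul, abs_of_pos (by positivity)]

theorem norm_e_sub_e_le (x y : ℝ) : ‖e x - e y‖ ≤ 2 * Real.pi * |x - y| := by
  have : e x - e y = e y * (e (x - y) - 1) := by
    rw [mul_sub, ← e_add, mul_one]; congr 2; ring
  rw [this, norm_mul, norm_e, one_mul]
  exact norm_e_sub_one_le _

/-- Every unit complex number is a value of `e`. -/
theorem exists_e_eq {u : ℂ} (hu : ‖u‖ = 1) : ∃ x : ℝ, e x = u := by
  refine ⟨Complex.arg u / (2 * Real.pi), ?_⟩
  unfold e
  have h := Complex.norm_mul_exp_arg_mul_I u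
  rw [hu] at h
  have hpi : (2 * Real.pi) ≠ 0 := by positivity
  rw [mul_div_cancel₀ _ hpi]
  simpa using h

theorem e_eq_one_iff (x : ℝ) : e x = 1 ↔ ∃ m : ℤ, x = m := by
  constructor
  · intro h
    unfold e at h
    rw [Complex.exp_eq_one_iff] at h
    obtain ⟨m, hm⟩ := h
    refine ⟨m, ?_⟩
    have h2 : ((2 * Real.pi * x : ℝ) : ℂ) = ((m * (2 * Real.pi) : ℝ) : ℂ) := by
      have hI := Complex.I_ne_zero
      apply mul_right_cancel₀ hI
      rw [hm]; push_cast; ring
    have h3 : 2 * Real.pi * x = m * (2 * Real.pi) := by exact_mod_cast h2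
    have hpi : (2 * Real.pi) ≠ 0 := by positivity
    apply mul_left_cancel₀ hpi
    linarith
  · rintro ⟨m, rfl⟩; simp

/-- Discrete orthogonality of characters modulo `M`. -/
theorem sum_range_e (M : ℕ) (hM : 0 < M) (a : ℤ) :
    ∑ j ∈ range M, e (j * a / M) = if (M : ℤ) ∣ a then (M : ℂ) else 0 := by
  have hM' : (M : ℝ) ≠ 0 := by positivity
  have hterm : ∀ j : ℕ, e (j * a / M) = e (a / M) ^ j := by
    intro j; rw [← e_nat_mul]; congr 1; ring
  simp_rw [hterm]
  split_ifs with h
  · obtain ⟨b, rfl⟩ := h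
    have : (((M : ℤ) * b : ℤ) : ℝ) / M = (b : ℤ) := by push_cast; field_simp
    rw [this]; simp
  · have hne : e (a / M) ≠ 1 := by
      intro h1
      rw [e_eq_one_iff] at h1
      obtain ⟨m, hm⟩ := h1
      apply h
      refine ⟨m, ?_⟩
      have : (a : ℝ) = M * m := by rw [← hm]; field_simp
      exact_mod_cast this
    rw [geom_sum_eq hne, ← e_nat_mul]
    have : (M : ℝ) * (a / M) = (a : ℤ) := by field_simp
    rw [this]; simp

/-- Continuous orthogonality over an interval of length one. -/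
theorem integral_e_int (a : ℝ) (m : ℤ) :
    ∫ x in a..(a + 1), e (m * x) = if m = 0 then 1 else 0 := by
  split_ifs with h
  · subst h; simp
  · have hm : (m : ℂ) ≠ 0 := by exact_mod_cast h
    have hpi : (Real.pi : ℂ) ≠ 0 := by exact_mod_cast Real.pi_ne_zero
    have hI := Complex.I_ne_zero
    have hd : ∀ x ∈ Set.uIcc a (a + 1),
        HasDerivAt (fun y : ℝ => e (m * y) / (2 * Real.pi * Complex.I * m)) (e (m * x)) x := by
      intro x _
      have h0 : HasDerivAt (fun y : ℝ => (m : ℝ) * y) (m : ℝ) x := by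
        simpa using (hasDerivAt_id x).const_mul (m : ℝ)
      have := (HasDerivAt.e_comp h0).div_const (2 * Real.pi * Complex.I * m)
      exact this.congr_deriv (by push_cast; field_simp)
    rw [intervalIntegral.integral_eq_sub_of_hasDerivAt hd]
    · have : e (m * (a + 1)) = e (m * a) := by
        rw [mul_add, mul_one, e_add_int]
      rw [this, sub_self]
    · exact (by fun_prop : Continuous fun x : ℝ => e (m * x)).intervalIntegrable _ _

theorem four_mul_abs_le_norm_e_sub_one {u : ℝ} (hu : |u| ≤ 1 / 2) : 4 * |u| ≤ ‖e u - 1‖ := by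
  unfold e
  have h := Complex.norm_exp_I_mul_ofReal_sub_one (2 * Real.pi * u)
  rw [mul_comm Complex.I] at h
  rw [h, Real.norm_eq_abs, abs_mul]
  have h1 : 2 * Real.pi * u / 2 = Real.pi * u := by ring
  rw [h1]
  have h2 : 2 / Real.pi * |Real.pi * u| ≤ |Real.sin (Real.pi * u)| := by
    apply Real.mul_abs_le_abs_sin
    rw [abs_mul, abs_of_pos Real.pi_pos]
    nlinarith [Real.pi_pos]
  rw [abs_mul, abs_of_pos Real.pi_pos] at h2
  have h3 : 2 / Real.pi * (Real.pi * |u|) = 2 * |u| := by
    have := Real.pi_ne_zero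
    field_simp
  rw [h3] at h2
  have : |(2 : ℝ)| = 2 := by norm_num
  rw [this]; linarith

/-- The Dirichlet kernel bound. -/
theorem abs_mul_norm_sum_range_e_le (n : ℕ) {u : ℝ} (hu : |u| ≤ 1 / 2) :
    |u| * ‖∑ a ∈ range n, e (a * u)‖ ≤ 1 / 2 := by
  have h1 : (∑ a ∈ range n, e (a * u)) * (e u - 1) = e u ^ n - 1 := by
    simp_rw [e_nat_mul]; exact geom_sum_mul _ _
  have h2 : ‖∑ a ∈ range n, e (a * u)‖ * ‖e u - 1‖ ≤ 2 := by
    rw [← norm_mul, h1]
    refine (norm_sub_le _ _).trans ?_
    rw [norm_pow, norm_e]; norm_num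
  have h3 := four_mul_abs_le_norm_e_sub_one hu
  have h4 := norm_nonneg (∑ a ∈ range n, e (a * u))
  nlinarith [mul_le_mul_of_nonneg_left h3 h4]

theorem norm_sum_range_e_le (n : ℕ) (u : ℝ) : ‖∑ a ∈ range n, e (a * u)‖ ≤ n := by
  refine (norm_sum_le _ _).trans ?_
  simp

end Vale.Agent.P110
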