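import Vale.Agent.P110.ColoringAux

/-! A random antisymmetric colouring of `ZMod q` with nearly uniform marginals. -/

namespace Vale.Agent.P110

open Finset

theorem second_moment {α V Γ : Type} [Fintype α] [DecidableEq α] [AddCommGroup V] [Fintype V]
    [DecidableEq V] [AddCommGroup Γ] [Fintype Γ] [DecidableEq Γ] {q : ℕ} [Fact q.Prime]
    (l : α → V →+ ZMod q) (y z : α → V) (hz : ∀ a, l a (z a) + l a (z a) ≠ 0)
    (hy0 : ∀ a, l a (y a) = 0) (hy1 : ∀ a b, a ≠ b → l b (y a) ≠ 0)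
    (o : α → ZMod q) (C : α → Finset Γ) (a : α) :
    (∑ ω : ZMod q → Γ, ∑ x : ZMod q,
      (∑ W with l a W + o a = x, (∏ b ∈ univ.erase a,
          if kap ω (l b W + o b) ∈ C b then (1 : ℝ) else 0)
        - Fintype.card V / q * ∏ b ∈ univ.erase a, ((C b).card : ℝ) / Fintype.card Γ) ^ 2) * q ^ 2
      ≤ Fintype.card (ZMod q → Γ) * (16 * (Fintype.card α) ^ 2 * (Fintype.card V) ^ 2) := by
  classical
  have hq : (0 : ℝ) < q := by exact_mod_cast (Fact.out : q.Prime).pos
  have hza : l a (z a) ≠ 0 := fun h => hz a (by rw [h, add_zero])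
  obtain ⟨π, hπ⟩ : ∃ π : ℝ, π = ∏ b ∈ univ.erase a, ((C b).card : ℝ) / Fintype.card Γ := ⟨_, rfl⟩
  rw [← hπ]
  let J := {b : α // b ≠ a}
  let ψ : V × V →+ ZMod q := (l a).comp (AddMonoidHom.fst V V) - (l a).comp (AddMonoidHom.snd V V)
  have hψ : ∀ p : V × V, ψ p = l a p.1 - l a p.2 := fun p => rfl
  let H := ψ.ker
  have hH : (Fintype.card H : ℝ) * q = Fintype.card V ^ 2 := by
    have := card_fiber ψ (z a, 0) (by rw [hψ]; simpa using hza) 0
    rw [Fintype.card_prod] at this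
    push_cast at this
    rw [sq, ← this, Fintype.card_subtype]
    congr 3
    exact filter_congr fun p _ => AddMonoidHom.mem_ker
  let φ : J ⊕ J → H →+ ZMod q := fun j => Sum.elim
    (fun b : J => ((l b).comp (AddMonoidHom.fst V V)).comp H.subtype)
    (fun b : J => ((l b).comp (AddMonoidHom.snd V V)).comp H.subtype) j
  have hφ1 : ∀ (b : J) (g : H), φ (Sum.inl b) g = l b g.1.1 := fun _ _ => rfl
  have hφ2 : ∀ (b : J) (g : H), φ (Sum.inr b) g = l b g.1.2 := fun _ _ => rfl
  have hdiag : ∀ v : V, (v, v) ∈ H := fun v => by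
    change ψ (v, v) = 0
    rw [hψ, sub_self]
  have hya : (y a, (0 : V)) ∈ H := by
    change ψ (y a, 0) = 0
    rw [hψ]; simp [hy0]
  have hya' : ((0 : V), y a) ∈ H := by
    change ψ (0, y a) = 0
    rw [hψ]; simp [hy0]
  have hsame : ∀ b b' : J, ∃ v, l b v + l b' v ≠ 0 := by
    intro b b'
    by_cases h : (b : α) = b'
    · exact ⟨z b, by rw [← h]; exact hz b⟩
    · exact ⟨y b, by rw [hy0, zero_add]; exact hy1 _ _ h⟩
  have hdiff : ∀ b b' : J, b ≠ b' → ∃ v, l b v - l b' v ≠ 0 := by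
    intro b b' h
    exact ⟨y b, by rw [hy0, zero_sub, neg_ne_zero]; exact hy1 _ _ fun h' => h (Subtype.ext h')⟩
  have h1 : ∀ j j', j ≠ j' → ∃ g, φ j g - φ j' g ≠ 0 := by
    rintro (b | b) (b' | b') h
    · obtain ⟨v, hv⟩ := hdiff b b' fun h' => h (by rw [h'])
      exact ⟨⟨(v, v), hdiag v⟩, hv⟩
    · exact ⟨⟨_, hya⟩, by rw [hφ1, hφ2]; simpa using hy1 a b b.2.symm⟩
    · exact ⟨⟨_, hya'⟩, by rw [hφ1, hφ2]; simpa using hy1 a b b.2.symm⟩
    · obtain ⟨v, hv⟩ := hdiff b b' fun h' => h (by rw [h'])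
      exact ⟨⟨(v, v), hdiag v⟩, hv⟩
  have h2 : ∀ j j', ∃ g, φ j g + φ j' g ≠ 0 := by
    rintro (b | b) (b' | b') <;>
    · obtain ⟨v, hv⟩ := hsame b b'
      exact ⟨⟨(v, v), hdiag v⟩, hv⟩
  let A : (J → Γ) → ℝ := fun t => (∏ b : J, if t b ∈ C b then (1 : ℝ) else 0) - π
  have hπJ : π = ∏ b : J, ((C b).card : ℝ) / Fintype.card Γ := by
    rw [hπ]
    exact prod_subtype _ (fun b => by simp) _
  have hπ01 : 0 ≤ π ∧ π ≤ 1 := by
    rw [hπJ]
    refine ⟨prod_nonneg fun b _ => by positivity, prod_le_one (fun b _ => by positivity)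
      fun b _ => div_le_one_of_le₀ (by exact_mod_cast card_le_univ _) (by positivity)⟩
  have hA1 : ∀ t, |A t| ≤ 1 := by
    intro t
    have h3 : 0 ≤ ∏ b : J, if t b ∈ C b then (1 : ℝ) else 0 :=
      prod_nonneg fun b _ => by split_ifs <;> norm_num
    have h4 : (∏ b : J, if t b ∈ C b then (1 : ℝ) else 0) ≤ 1 :=
      prod_le_one (fun b _ => by split_ifs <;> norm_num) fun b _ => by split_ifs <;> norm_num
    simp only [A]
    rw [abs_le]; constructor <;> linarith [hπ01.1, hπ01.2]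
  have hA0 : ∑ t, A t = 0 := by
    simp only [A]
    rw [sum_sub_distrib, sum_prod_ind (fun b : J => C b), ← hπJ, sum_const, card_univ,
      nsmul_eq_mul]
    ring
  let f : (J ⊕ J → Γ) → ℝ := fun t => A (fun b => t (Sum.inl b)) * A (fun b => t (Sum.inr b))
  have hf1 : ∀ t, |f t| ≤ 1 := fun t => by
    simp only [f]
    rw [abs_mul]
    exact mul_le_one₀ (hA1 _) (abs_nonneg _) (hA1 _)
  have hf0 : ∑ t, f t = 0 * Fintype.card (J ⊕ J → Γ) := by
    rw [zero_mul, ← (Equiv.sumArrowEquivProdArrow J J Γ).symm.sum_comp, Fintype.sum_prod_type]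
    simp only [f, Equiv.sumArrowEquivProdArrow_symm_apply_inl,
      Equiv.sumArrowEquivProdArrow_symm_apply_inr]
    rw [← sum_mul_sum, hA0, zero_mul]
  have hm := moment φ (Sum.elim (fun b : J => o b) (fun b : J => o b)) h1 h2 f hf1 0 hf0
  rw [zero_mul, mul_zero, sub_zero] at hm
  have hkey : ∀ ω : ZMod q → Γ, ∑ x : ZMod q,
      (∑ W with l a W + o a = x, (∏ b ∈ univ.erase a,
          if kap ω (l b W + o b) ∈ C b then (1 : ℝ) else 0) - Fintype.card V / q * π) ^ 2
      = ∑ g : H, f (fun j => kap ω (φ j g + Sum.elim (fun b : J => o b) (fun b : J => o b) j)) := by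
    intro ω
    let D : V → ℝ := fun W => A (fun b => kap ω (l b W + o b))
    have hD : ∀ x, ∑ W with l a W + o a = x, (∏ b ∈ univ.erase a,
          if kap ω (l b W + o b) ∈ C b then (1 : ℝ) else 0) - Fintype.card V / q * π
        = ∑ W with l a W + o a = x, D W := by
      intro x
      simp only [D, A]
      rw [sum_sub_distrib, sum_const, nsmul_eq_mul]
      congr 1
      · refine sum_congr rfl fun W _ => ?_
        exact prod_subtype _ (fun b => by simp) _
      · have := card_fiber (l a) (z a) hza (x - o a)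
        congr 1
        rw [div_eq_iff hq.ne', ← this]
        congr 2
        exact congrArg card (filter_congr fun W _ => eq_sub_iff_add_eq)
    simp only [hD]
    have h5 : ∑ g : H, f (fun j => kap ω (φ j g + Sum.elim (fun b : J => o b) (fun b : J => o b) j))
        = ∑ p : V × V with l a p.1 = l a p.2, D p.1 * D p.2 := by
      symm
      refine sum_subtype _ (fun p => ?_) (fun p : V × V => D p.1 * D p.2)
      simp only [mem_filter, mem_univ, true_and]
      change _ ↔ ψ p = 0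
      rw [hψ, sub_eq_zero]
    rw [h5, sum_filter, Fintype.sum_prod_type]
    simp only [sq, sum_filter, sum_mul_sum]
    rw [sum_comm]
    refine sum_congr rfl fun W _ => ?_
    rw [sum_comm]
    refine sum_congr rfl fun W' _ => ?_
    rw [sum_eq_single (l a W + o a) (fun x _ hx => by rw [if_neg (Ne.symm hx), zero_mul])
      (fun h => absurd (mem_univ _) h), if_pos rfl]
    by_cases h : l a W = l a W'
    · rw [if_pos h, if_pos (by rw [h])]
    · rw [if_neg h, if_neg (fun h' => h (add_right_cancel h').symm), mul_zero]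
  simp only [hkey]
  have hJ : (Fintype.card (J ⊕ J) : ℝ) ≤ 2 * Fintype.card α := by
    rw [Fintype.card_sum]
    have : Fintype.card J ≤ Fintype.card α := Fintype.card_subtype_le _
    push_cast
    have : (Fintype.card J : ℝ) ≤ Fintype.card α := by exact_mod_cast this
    linarith
  have hW : (0 : ℝ) ≤ Fintype.card (ZMod q → Γ) := Nat.cast_nonneg _
  generalize (∑ ω : ZMod q → Γ, ∑ g : H,
    f (fun j => kap ω (φ j g + Sum.elim (fun b : J => o b) (fun b : J => o b) j))) = S at hm ⊢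
  calc S * q ^ 2 = S * q * q := by ring
    _ ≤ |S| * q * q := by gcongr; exact le_abs_self S
    _ ≤ Fintype.card (ZMod q → Γ) * (4 * (Fintype.card (J ⊕ J)) ^ 2 * Fintype.card H) * q := by
        gcongr
    _ = Fintype.card (ZMod q → Γ) * (4 * (Fintype.card (J ⊕ J)) ^ 2 * (Fintype.card H * q)) := by
        ring
    _ ≤ Fintype.card (ZMod q → Γ) * (4 * (2 * Fintype.card α) ^ 2 * (Fintype.card H * q)) := by
        gcongr
    _ = _ := by rw [hH]; ring

theorem first_moment {α V Γ : Type} [Fintype α] [DecidableEq α] [AddCommGroup V] [Fintype V]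
    [AddCommGroup Γ] [Fintype Γ] [DecidableEq Γ] {q : ℕ} [Fact q.Prime]
    (l : α → V →+ ZMod q) (y z : α → V) (hz : ∀ a, l a (z a) + l a (z a) ≠ 0)
    (hy0 : ∀ a, l a (y a) = 0) (hy1 : ∀ a b, a ≠ b → l b (y a) ≠ 0)
    (o : α → ZMod q) (C : α → Finset Γ) :
    Fintype.card (ZMod q → Γ) * (((∏ a, ((C a).card : ℝ) / Fintype.card Γ) -
      4 * (Fintype.card α) ^ 2 / q) * Fintype.card V)
      ≤ ∑ ω : ZMod q → Γ, ∑ W, ∏ a, if kap ω (l a W + o a) ∈ C a then (1 : ℝ) else 0 := by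
  have hq : (0 : ℝ) < q := by exact_mod_cast (Fact.out : q.Prime).pos
  have hm := moment l o (fun a b h => ⟨y a, by rw [hy0, zero_sub, neg_ne_zero]; exact hy1 _ _ h⟩)
    (fun a b => by
      by_cases h : a = b
      · exact ⟨z a, by rw [← h]; exact hz a⟩
      · exact ⟨y a, by rw [hy0, zero_add]; exact hy1 _ _ h⟩)
    (fun t => ∏ a, if t a ∈ C a then (1 : ℝ) else 0) (fun t => by
      rw [abs_prod]
      exact prod_le_one (fun b _ => abs_nonneg _) fun b _ => by split_ifs <;> norm_num)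
    _ (sum_prod_ind C)
  rw [← le_div_iff₀ hq, abs_le] at hm
  have h1 := hm.1
  have h2 : (Fintype.card (ZMod q → Γ) : ℝ) * (4 * (Fintype.card α) ^ 2 * Fintype.card V) / q
      = Fintype.card (ZMod q → Γ) * (4 * (Fintype.card α) ^ 2 / q * Fintype.card V) := by ring
  rw [h2] at h1
  linarith

theorem coloring_aux {α V Ω Γ : Type} [Fintype α] [DecidableEq α] [AddCommGroup V] [Fintype V]
    [DecidableEq V] [Fintype Ω] [DecidableEq Ω] [AddCommGroup Γ] [Fintype Γ] [DecidableEq Γ]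
    {q : ℕ} [Fact q.Prime]
    (l : α → V →+ ZMod q) (y z : α → V) (hz : ∀ a, l a (z a) + l a (z a) ≠ 0)
    (hy0 : ∀ a, l a (y a) = 0) (hy1 : ∀ a b, a ≠ b → l b (y a) ≠ 0)
    (o : Ω → α → ZMod q) (C : α → Finset Γ) (hC : ∀ a, 0 < (C a).card) (ε π : ℝ) (hε : 0 < ε)
    (hπ : π = ∏ a, ((C a).card : ℝ) / Fintype.card Γ)
    (hqL : 4 * (Fintype.card α : ℝ) ^ 2 + 16 * (Fintype.card α) ^ 3 * ((1 + ε) / ε ^ 2) / π
      ≤ ε * π * q) :
    ∃ (ω : ZMod q → Γ) (𝒢 : Finset (Ω × V)),
      (∀ p ∈ 𝒢, ∀ a, kap ω (l a p.2 + o p.1 a) ∈ C a) ∧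
      (1 - ε) * (Fintype.card Ω * (Fintype.card V * π)) ≤ 𝒢.card ∧
      ∀ a i x, ((𝒢.filter fun p => p.1 = i ∧ l a p.2 + o i a = x).card : ℝ) ≤
        (1 + ε) * (Fintype.card V / q *
          ∏ b ∈ univ.erase a, ((C b).card : ℝ) / Fintype.card Γ) := by
  classical
  have hq : (0 : ℝ) < q := by exact_mod_cast (Fact.out : q.Prime).pos
  have hΓ : (0 : ℝ) < Fintype.card Γ := by exact_mod_cast Fintype.card_pos
  have hV : (0 : ℝ) < Fintype.card V := by exact_mod_cast Fintype.card_pos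
  have hρ0 : ∀ a, 0 < ((C a).card : ℝ) / Fintype.card Γ := fun a => by
    have := hC a; positivity
  have hρ1 : ∀ a, ((C a).card : ℝ) / Fintype.card Γ ≤ 1 := fun a =>
    div_le_one_of_le₀ (by exact_mod_cast card_le_univ _) hΓ.le
  have hπ0 : 0 < π := hπ ▸ prod_pos fun a _ => hρ0 a
  obtain ⟨μ, hμ⟩ : ∃ μ : α → ℝ, μ = fun a => Fintype.card V / q *
      ∏ b ∈ univ.erase a, ((C b).card : ℝ) / Fintype.card Γ := ⟨_, rfl⟩
  have hμπ : ∀ a, Fintype.card V / q * π ≤ μ a := by
    intro a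
    rw [hμ, hπ, ← mul_prod_erase univ _ (mem_univ a)]
    refine mul_le_mul_of_nonneg_left ?_ (by positivity)
    exact mul_le_of_le_one_left (prod_nonneg fun b _ => (hρ0 b).le) (hρ1 a)
  have hμ0 : ∀ a, 0 < μ a := fun a => lt_of_lt_of_le (by positivity) (hμπ a)
  let Ia : (ZMod q → Γ) → Ω → α → V → ℝ := fun ω i a W =>
    ∏ b ∈ univ.erase a, if kap ω (l b W + o i b) ∈ C b then (1 : ℝ) else 0
  have hIa0 : ∀ ω i a W, 0 ≤ Ia ω i a W := fun ω i a W =>
    prod_nonneg fun b _ => by split_ifs <;> norm_num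
  have hIa1 : ∀ ω i a W, (∀ b, kap ω (l b W + o i b) ∈ C b) → Ia ω i a W = 1 := fun ω i a W h =>
    prod_eq_one fun b _ => if_pos (h b)
  let X : (ZMod q → Γ) → Ω → α → ZMod q → ℝ := fun ω i a x =>
    ∑ W with l a W + o i a = x, Ia ω i a W
  let 𝒢 : (ZMod q → Γ) → Finset (Ω × V) := fun ω => univ.filter fun p =>
    (∀ a, kap ω (l a p.2 + o p.1 a) ∈ C a) ∧ ∀ a, X ω p.1 a (l a p.2 + o p.1 a) ≤ (1 + ε) * μ a
  obtain ⟨c, hc⟩ : ∃ c : ℝ, c = (1 + ε) / ε ^ 2 := ⟨_, rfl⟩
  have hc0 : 0 < c := by rw [hc]; positivity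
  rw [← hc] at hqL
  have hdet : ∀ ω, ∑ i, (∑ W, (∏ a, if kap ω (l a W + o i a) ∈ C a then (1 : ℝ) else 0) -
      ∑ a, c / μ a * ∑ x, (X ω i a x - μ a) ^ 2) ≤ (𝒢 ω).card := by
    intro ω
    rw [card_filter, Nat.cast_sum, Fintype.sum_prod_type]
    refine sum_le_sum fun i _ => ?_
    have h1 : ∀ a, ∑ W, (if (1 + ε) * μ a < X ω i a (l a W + o i a) then Ia ω i a W else 0)
        ≤ c / μ a * ∑ x, (X ω i a x - μ a) ^ 2 := by
      intro a
      rw [← sum_fiberwise univ (fun W => l a W + o i a), mul_sum]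
      refine sum_le_sum fun x _ => ?_
      have h2 : ∑ W with l a W + o i a = x,
          (if (1 + ε) * μ a < X ω i a (l a W + o i a) then Ia ω i a W else 0)
          = if (1 + ε) * μ a < X ω i a x then X ω i a x else 0 := by
        rw [sum_congr rfl fun W hW => by rw [(mem_filter.1 hW).2]]
        split_ifs
        · rfl
        · simp
      rw [h2]
      have hm := hμ0 a
      split_ifs with h
      · rw [hc, div_mul_eq_mul_div, div_mul_eq_mul_div, div_div, le_div_iff₀ (by positivity)]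
        have h3 : 0 < X ω i a x - μ a - ε * μ a := by linarith
        generalize X ω i a x = Y at h h3 ⊢
        obtain ⟨d, rfl⟩ : ∃ d, Y = (1 + ε) * μ a + d := ⟨Y - (1 + ε) * μ a, by ring⟩
        have hd : 0 < d := by linarith
        have : (1 + ε) * ((1 + ε) * μ a + d - μ a) ^ 2 - ((1 + ε) * μ a + d) * (ε ^ 2 * μ a)
            = d * μ a * ε * (2 + ε) + (1 + ε) * d ^ 2 := by ring
        have : 0 ≤ d * μ a * ε * (2 + ε) + (1 + ε) * d ^ 2 := by positivity
        linarith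
      · positivity
    refine le_trans (sub_le_sub_left (sum_le_sum fun a _ => h1 a) _) ?_
    rw [sum_comm, ← sum_sub_distrib]
    refine sum_le_sum fun W _ => ?_
    have h3 : ∀ a, 0 ≤ (if (1 + ε) * μ a < X ω i a (l a W + o i a) then Ia ω i a W else 0) :=
      fun a => by
        split_ifs
        · exact hIa0 _ _ _ _
        · exact le_rfl
    have h4 := sum_nonneg fun a (_ : a ∈ univ) => h3 a
    by_cases hall : ∀ a, kap ω (l a W + o i a) ∈ C a
    · rw [prod_eq_one fun a _ => if_pos (hall a)]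
      by_cases hb : ∀ a, X ω i a (l a W + o i a) ≤ (1 + ε) * μ a
      · rw [if_pos ⟨hall, hb⟩]; push_cast; linarith
      · rw [if_neg fun h => hb h.2]
        obtain ⟨a, ha⟩ := not_forall.1 hb
        have h5 := single_le_sum (fun a (_ : a ∈ univ) => h3 a) (mem_univ a)
        rw [if_pos (not_le.1 ha), hIa1 ω i a W hall] at h5
        push_cast; linarith
    · obtain ⟨a, ha⟩ := not_forall.1 hall
      rw [prod_eq_zero (mem_univ a) (if_neg ha), if_neg fun h => hall h.1]
      push_cast; linarith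
  have hW : (0 : ℝ) < Fintype.card (ZMod q → Γ) := by exact_mod_cast Fintype.card_pos
  have havg : ∑ _ω : ZMod q → Γ, (1 - ε) * (Fintype.card Ω * (Fintype.card V * π))
      ≤ ∑ ω : ZMod q → Γ, ((𝒢 ω).card : ℝ) := by
    refine le_trans ?_ (sum_le_sum fun ω _ => hdet ω)
    rw [sum_comm, sum_const, card_univ, nsmul_eq_mul]
    have h1 : ∀ i, Fintype.card (ZMod q → Γ) * ((1 - ε) * (Fintype.card V * π)) ≤
        ∑ ω : ZMod q → Γ, (∑ W, (∏ a, if kap ω (l a W + o i a) ∈ C a then (1 : ℝ) else 0) -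
          ∑ a, c / μ a * ∑ x, (X ω i a x - μ a) ^ 2) := by
      intro i
      rw [sum_sub_distrib, sum_comm (s := univ) (t := (univ : Finset α))]
      have h2 := first_moment l y z hz hy0 hy1 (o i) C
      rw [← hπ] at h2
      have h3 : ∀ a, ∑ ω : ZMod q → Γ, c / μ a * ∑ x, (X ω i a x - μ a) ^ 2
          ≤ Fintype.card (ZMod q → Γ) *
            (16 * (Fintype.card α) ^ 2 * c / π / q * Fintype.card V) := by
        intro a
        rw [← mul_sum]
        have h4 := second_moment l y z hz hy0 hy1 (o i) C a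
        rw [← le_div_iff₀ (by positivity)] at h4
        have h5 : ∑ ω : ZMod q → Γ, ∑ x, (X ω i a x - μ a) ^ 2 ≤ Fintype.card (ZMod q → Γ) *
            (16 * (Fintype.card α) ^ 2 * (Fintype.card V) ^ 2) / q ^ 2 := by
          rw [hμ]; exact h4
        calc c / μ a * ∑ ω : ZMod q → Γ, ∑ x, (X ω i a x - μ a) ^ 2
            ≤ c / (Fintype.card V / q * π) * (Fintype.card (ZMod q → Γ) *
              (16 * (Fintype.card α) ^ 2 * (Fintype.card V) ^ 2) / q ^ 2) := by
              gcongr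
              exact hμπ a
          _ = _ := by field_simp
      have h6 := sum_le_sum fun a (_ : a ∈ univ) => h3 a
      rw [sum_const, card_univ, nsmul_eq_mul] at h6
      have h7 : 4 * (Fintype.card α : ℝ) ^ 2 / q +
          Fintype.card α * (16 * (Fintype.card α) ^ 2 * c / π / q) ≤ ε * π := by
        have : 4 * (Fintype.card α : ℝ) ^ 2 / q +
          Fintype.card α * (16 * (Fintype.card α) ^ 2 * c / π / q)
          = (4 * (Fintype.card α : ℝ) ^ 2 + 16 * (Fintype.card α) ^ 3 * c / π) / q := by ring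
        rw [this, div_le_iff₀ hq]; exact hqL
      have h8 := mul_le_mul_of_nonneg_left h7 (mul_pos hW hV).le
      nlinarith
    have h9 := sum_le_sum fun i (_ : i ∈ univ) => h1 i
    rw [sum_const, card_univ, nsmul_eq_mul] at h9
    refine le_trans (le_of_eq ?_) h9
    ring
  obtain ⟨ω, _, hω⟩ := exists_le_of_sum_le univ_nonempty havg
  refine ⟨ω, 𝒢 ω, fun p hp => (mem_filter.1 hp).2.1, hω, fun a i x => ?_⟩
  have hμa : μ a = Fintype.card V / q *
      ∏ b ∈ univ.erase a, ((C b).card : ℝ) / Fintype.card Γ := by rw [hμ]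
  rw [← hμa]
  rcases ((𝒢 ω).filter fun p => p.1 = i ∧ l a p.2 + o i a = x).eq_empty_or_nonempty with h | h
  · rw [h, card_empty, Nat.cast_zero]
    have := hμ0 a
    positivity
  · obtain ⟨p, hp⟩ := h
    obtain ⟨hp1, hp2, hp3⟩ := mem_filter.1 hp
    have h1 := (mem_filter.1 hp1).2.2 a
    rw [hp2, hp3] at h1
    refine le_trans ?_ h1
    have h2 : ((𝒢 ω).filter fun p => p.1 = i ∧ l a p.2 + o i a = x).card ≤
        ((univ.filter fun W => l a W + o i a = x).filter fun W => Ia ω i a W = 1).card := by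
      apply card_le_card_of_injOn (fun p => p.2)
      · intro p hp
        obtain ⟨hp1, hp2, hp3⟩ := mem_filter.1 (mem_coe.1 hp)
        refine mem_coe.2 (mem_filter.2 ⟨mem_filter.2 ⟨mem_univ _, hp3⟩, hIa1 _ _ _ _ ?_⟩)
        rw [← hp2]; exact (mem_filter.1 hp1).2.1
      · intro p hp p' hp' h
        exact Prod.ext ((mem_filter.1 (mem_coe.1 hp)).2.1.trans
          (mem_filter.1 (mem_coe.1 hp')).2.1.symm) h
    refine le_trans (Nat.cast_le.2 h2) ?_
    rw [card_filter, Nat.cast_sum]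
    refine sum_le_sum fun W _ => ?_
    split_ifs with h
    · rw [h]; simp
    · simpa using hIa0 ω i a W

theorem coloring {α δ Ω : Type} [Fintype α] [DecidableEq α] [Fintype δ] [DecidableEq δ]
    [Fintype Ω] [DecidableEq Ω] [Nonempty Ω] (n z y : α → δ → ℤ)
    (hz : ∀ a, ∑ i, n a i * z a i = 1) (hy0 : ∀ a, ∑ i, n a i * y a i = 0)
    (hy1 : ∀ a b, a ≠ b → ∑ i, n b i * y a i ≠ 0)
    (o : Ω → α → ℤ) (w : α → ℝ) (hw : ∀ a, 0 < w a) (hsum : 2 * ∑ a, w a < 1) :
    ∃ (q : ℕ) (has : α → ZMod q → Prop) (𝒢 : Finset (Ω × (δ → ℤ))), 0 < q ∧ 𝒢.Nonempty ∧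
      (∀ a b x, has a x → has b x → a = b) ∧
      (∀ a b x, has a x → has b (-1 - x) → False) ∧
      (∀ p ∈ 𝒢, ∀ a, has a ((∑ j, n a j * p.2 j + o p.1 a : ℤ) : ZMod q)) ∧
      ∀ (a : α) (i : Ω) (x : ZMod q),
        ((𝒢.filter fun p => p.1 = i ∧ ((∑ j, n a j * p.2 j + o i a : ℤ) : ZMod q) = x).card : ℝ)
          * (w a * q * Fintype.card Ω) ≤ 𝒢.card := by
  classical
  have hS : 0 ≤ 2 * ∑ a, w a := mul_nonneg (by norm_num) (sum_nonneg fun a _ => (hw a).le)
  obtain ⟨ε, hε⟩ : ∃ ε : ℝ, ε = (1 - 2 * ∑ a, w a) / 4 := ⟨_, rfl⟩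
  have hε0 : 0 < ε := by rw [hε]; linarith
  have hε1 : ε ≤ 1 / 4 := by rw [hε]; linarith
  have hε2 : 0 < 1 - ε := by linarith
  obtain ⟨B, C, hC1, hC2, hC3⟩ := exists_classes (fun a => w a * ((1 + ε) / (1 - ε)))
    (fun a => by have := hw a; positivity) (by
      rw [← sum_mul, ← mul_assoc, ← mul_div_assoc, div_lt_one hε2]
      nlinarith)
  have hB : (0 : ℝ) < (B + 1 : ℕ) := by positivity
  have hC0 : ∀ a, 0 < (C a).card := fun a => by
    have h1 := hw a
    have : (0 : ℝ) < (C a).card := lt_of_lt_of_le (by positivity) (hC1 a)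
    exact_mod_cast this
  obtain ⟨π, hπ⟩ : ∃ π : ℝ, π = ∏ a, ((C a).card : ℝ) / Fintype.card (ZMod (B + 1)) := ⟨_, rfl⟩
  have hπ0 : 0 < π := hπ ▸ prod_pos fun a _ => by
    have := hC0 a
    rw [ZMod.card]; positivity
  obtain ⟨M, hM⟩ := exists_nat_ge ((4 * (Fintype.card α : ℝ) ^ 2 +
    16 * (Fintype.card α) ^ 3 * ((1 + ε) / ε ^ 2) / π) / (ε * π))
  obtain ⟨q, hq1, hq⟩ := Nat.exists_infinite_primes
    (M + 3 + ∑ a, ∑ b, (∑ i, n b i * y a i).natAbs)
  have : Fact q.Prime := ⟨hq⟩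
  have hqr : (0 : ℝ) < q := by exact_mod_cast hq.pos
  let l : α → (δ → ZMod q) →+ ZMod q := fun a =>
    { toFun := fun W => ∑ j, (n a j : ZMod q) * W j
      map_zero' := by simp
      map_add' := fun W W' => by simp only [Pi.add_apply, mul_add, sum_add_distrib] }
  have hl : ∀ a (W : δ → ℤ), l a (fun j => (W j : ZMod q)) = ((∑ j, n a j * W j : ℤ) : ZMod q) := by
    intro a W
    push_cast; rfl
  obtain ⟨ω, 𝒢, h1, h2, h3⟩ := coloring_aux l (fun a j => (y a j : ZMod q))
    (fun a j => (z a j : ZMod q)) (fun a => by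
      rw [hl, hz, ← Int.cast_add, Ne, ZMod.intCast_zmod_eq_zero_iff_dvd]
      intro h
      have := Int.le_of_dvd (by norm_num) h
      omega) (fun a => by rw [hl, hy0, Int.cast_zero]) (fun a b hab => by
      rw [hl, Ne, ZMod.intCast_zmod_eq_zero_iff_dvd]
      intro h
      have h1 := Nat.le_of_dvd (Int.natAbs_pos.2 (hy1 a b hab)) (Int.natCast_dvd.1 h)
      have h2 : (∑ i, n b i * y a i).natAbs ≤ ∑ a, ∑ b, (∑ i, n b i * y a i).natAbs :=
        le_trans (single_le_sum (f := fun b => (∑ i, n b i * y a i).natAbs)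
          (fun _ _ => Nat.zero_le _) (mem_univ b))
          (single_le_sum (f := fun a => ∑ b, (∑ i, n b i * y a i).natAbs)
            (fun _ _ => Nat.zero_le _) (mem_univ a))
      omega) (fun i a => (o i a : ZMod q)) C hC0 ε π hε0 hπ (by
      rw [div_le_iff₀ (by positivity)] at hM
      have : (M : ℝ) ≤ q := by exact_mod_cast (by omega : M ≤ q)
      have h4 : 0 < ε * π := by positivity
      nlinarith)
  let lift : Ω × (δ → ZMod q) → Ω × (δ → ℤ) := fun p => (p.1, fun j => ((p.2 j).val : ℤ))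
  have hlift : Function.Injective lift := by
    intro p p' h
    simp only [lift, Prod.mk.injEq] at h
    refine Prod.ext h.1 (funext fun j => ?_)
    have := congrFun h.2 j
    exact ZMod.val_injective q (by exact_mod_cast this)
  have hcast : ∀ (p : Ω × (δ → ZMod q)) a (c : ℤ),
      ((∑ j, n a j * (lift p).2 j + c : ℤ) : ZMod q) = l a p.2 + c := by
    intro p a c
    rw [Int.cast_add, ← hl]
    simp [lift]
  have hΩ : (0 : ℝ) < Fintype.card Ω := by exact_mod_cast Fintype.card_pos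
  have hV : (0 : ℝ) < Fintype.card (δ → ZMod q) := by exact_mod_cast Fintype.card_pos
  refine ⟨q, fun a x => kap ω x ∈ C a, 𝒢.image lift, hq.pos, ?_, fun a b x => hC2 a b _,
    fun a b x ha hb => hC3 a b _ ha (by rw [← kap_refl]; exact hb), ?_, ?_⟩
  · rw [image_nonempty, ← card_pos]
    have : (0 : ℝ) < 𝒢.card := lt_of_lt_of_le (by positivity) h2
    exact_mod_cast this
  · intro p hp a
    obtain ⟨p', hp', rfl⟩ := mem_image.1 hp
    have := h1 p' hp' a
    rw [← hcast] at this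
    exact this
  · intro a i x
    rw [filter_image, card_image_of_injective _ hlift, card_image_of_injective _ hlift]
    simp only [hcast]
    refine le_trans ?_ h2
    have h4 := h3 a i x
    have h5 := hC1 a
    have h6 := hw a
    rw [hπ, ← mul_prod_erase univ _ (mem_univ a)]
    have h7 : 0 ≤ ∏ b ∈ univ.erase a, ((C b).card : ℝ) / Fintype.card (ZMod (B + 1)) :=
      prod_nonneg fun b _ => by positivity
    generalize (∏ b ∈ univ.erase a, ((C b).card : ℝ) / Fintype.card (ZMod (B + 1))) = P at h4 h7 ⊢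
    have h8 : (1 + ε) * w a ≤ (1 - ε) * (((C a).card : ℝ) / Fintype.card (ZMod (B + 1))) := by
      rw [ZMod.card, ← le_div_iff₀ hB] at *
      rw [← div_le_iff₀' hε2]
      refine le_trans (le_of_eq ?_) h5
      ring
    calc _ ≤ (1 + ε) * (Fintype.card (δ → ZMod q) / q * P) * (w a * q * Fintype.card Ω) :=
          mul_le_mul_of_nonneg_right h4 (by positivity)
      _ = ((1 + ε) * w a) * (Fintype.card Ω * (Fintype.card (δ → ZMod q) * P)) := by
          field_simp
      _ ≤ ((1 - ε) * (((C a).card : ℝ) / Fintype.card (ZMod (B + 1)))) *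
          (Fintype.card Ω * (Fintype.card (δ → ZMod q) * P)) :=
          mul_le_mul_of_nonneg_right h8 (by positivity)
      _ = _ := by ring

end Vale.Agent.P110
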