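import Mathlib

/-! Averaging lemmas for the random colouring. -/

namespace Vale.Agent.P110

open Finset

theorem sum_comp_surj {G H : Type*} [AddCommGroup G] [AddCommGroup H] [Fintype G] [Fintype H]
    (φ : G →+ H) (hφ : Function.Surjective φ) (f : H → ℝ) :
    (∑ g, f (φ g)) * Fintype.card H = Fintype.card G * ∑ h, f h := by
  have h1 : ∀ h : H, ∑ g, f (φ g) = ∑ g, f (φ g + h) := by
    intro h
    obtain ⟨s, rfl⟩ := hφ h
    rw [← Equiv.sum_comp (Equiv.addRight s)]
    simp
  calc (∑ g, f (φ g)) * Fintype.card H = ∑ _h : H, ∑ g, f (φ g) := by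
        rw [sum_const, card_univ, nsmul_eq_mul, mul_comm]
    _ = ∑ h : H, ∑ g, f (φ g + h) := sum_congr rfl fun h _ => h1 h
    _ = ∑ g, ∑ h : H, f (φ g + h) := sum_comm
    _ = ∑ _g : G, ∑ h : H, f h := sum_congr rfl fun g _ =>
        Equiv.sum_comp (Equiv.addLeft (φ g)) f
    _ = _ := by rw [sum_const, card_univ, nsmul_eq_mul]

theorem surj_of_ne_zero {G : Type*} [AddCommGroup G] {q : ℕ} [Fact q.Prime] (φ : G →+ ZMod q)
    (g : G) (hg : φ g ≠ 0) : Function.Surjective φ := by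
  intro x
  refine ⟨(x / φ g).val • g, ?_⟩
  rw [map_nsmul, nsmul_eq_mul, ZMod.natCast_zmod_val, div_mul_cancel₀ _ hg]

theorem card_fiber {G : Type*} [AddCommGroup G] [Fintype G] {q : ℕ} [Fact q.Prime]
    (φ : G →+ ZMod q) (g : G) (hg : φ g ≠ 0) (c : ZMod q) :
    ((univ.filter fun x => φ x = c).card : ℝ) * q = Fintype.card G := by
  classical
  have := sum_comp_surj φ (surj_of_ne_zero φ g hg) (fun h => if h = c then 1 else 0)
  rw [sum_boole, sum_ite_eq' univ c, if_pos (mem_univ _), mul_one, ZMod.card] at this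
  exact this

/-- A family of points is free if the points and their reflections are all different. -/
def Free {J : Type*} {q : ℕ} (x : J → ZMod q) : Prop :=
  (∀ j j', x j = x j' → j = j') ∧ ∀ j j', x j ≠ -1 - x j'

open Classical in
theorem card_not_free {G J : Type*} [AddCommGroup G] [Fintype G] [Fintype J] {q : ℕ}
    [Fact q.Prime] (φ : J → G →+ ZMod q) (o : J → ZMod q)
    (h1 : ∀ j j', j ≠ j' → ∃ g, φ j g - φ j' g ≠ 0) (h2 : ∀ j j', ∃ g, φ j g + φ j' g ≠ 0) :
    ((univ.filter fun g => ¬ Free fun j => φ j g + o j).card : ℝ) * q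
      ≤ 2 * (Fintype.card J) ^ 2 * Fintype.card G := by
  let A : J × J → Finset G := fun p =>
    if p.1 = p.2 then ∅ else univ.filter fun g => (φ p.1 - φ p.2) g = o p.2 - o p.1
  let B : J × J → Finset G := fun p =>
    univ.filter fun g => (φ p.1 + φ p.2) g = -1 - o p.1 - o p.2
  have hsub : (univ.filter fun g => ¬ Free fun j => φ j g + o j)
      ⊆ univ.biUnion A ∪ univ.biUnion B := by
    intro g hg
    simp only [mem_filter, mem_univ, true_and, Free, not_and_or, not_forall] at hg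
    simp only [mem_union, mem_biUnion, mem_univ, true_and]
    rcases hg with ⟨j, j', h, hne⟩ | ⟨j, j', h⟩
    · refine Or.inl ⟨(j, j'), ?_⟩
      simp only [A, if_neg hne]
      refine mem_filter.2 ⟨mem_univ _, ?_⟩
      rw [AddMonoidHom.sub_apply]
      linear_combination h
    · refine Or.inr ⟨(j, j'), ?_⟩
      simp only [B, mem_filter, mem_univ, true_and, AddMonoidHom.add_apply]
      rw [not_not] at h
      linear_combination h
  have hA : ∀ p, ((A p).card : ℝ) * q ≤ Fintype.card G := by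
    intro p
    simp only [A]
    split_ifs with h
    · simp
    · obtain ⟨g, hg⟩ := h1 p.1 p.2 h
      exact (card_fiber (φ p.1 - φ p.2) g hg _).le
  have hB : ∀ p, ((B p).card : ℝ) * q ≤ Fintype.card G := by
    intro p
    obtain ⟨g, hg⟩ := h2 p.1 p.2
    exact (card_fiber (φ p.1 + φ p.2) g hg _).le
  have h3 : ((univ.filter fun g => ¬ Free fun j => φ j g + o j).card : ℝ)
      ≤ ∑ p, ((A p).card : ℝ) + ∑ p, ((B p).card : ℝ) := by
    have := (card_le_card hsub).trans ((card_union_le _ _).trans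
      (add_le_add card_biUnion_le card_biUnion_le))
    exact_mod_cast this
  have hq : (0 : ℝ) ≤ q := Nat.cast_nonneg q
  calc _ ≤ (∑ p, ((A p).card : ℝ) + ∑ p, ((B p).card : ℝ)) * q :=
        mul_le_mul_of_nonneg_right h3 hq
    _ = ∑ p, ((A p).card : ℝ) * q + ∑ p, ((B p).card : ℝ) * q := by
        rw [add_mul, sum_mul, sum_mul]
    _ ≤ ∑ _p : J × J, (Fintype.card G : ℝ) + ∑ _p : J × J, (Fintype.card G : ℝ) :=
        add_le_add (sum_le_sum fun p _ => hA p) (sum_le_sum fun p _ => hB p)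
    _ = _ := by
        rw [sum_const, card_univ, Fintype.card_prod, nsmul_eq_mul]; push_cast; ring

/-- The antisymmetrised random function. -/
def kap {Γ : Type*} [AddCommGroup Γ] {q : ℕ} (ω : ZMod q → Γ) (x : ZMod q) : Γ :=
  ω x - ω (-1 - x)

theorem kap_refl {Γ : Type*} [AddCommGroup Γ] {q : ℕ} (ω : ZMod q → Γ) (x : ZMod q) :
    kap ω (-1 - x) = -kap ω x := by
  unfold kap
  rw [show -1 - (-1 - x) = x by ring, neg_sub]

theorem sum_kap_free {Γ J : Type*} [AddCommGroup Γ] [Fintype Γ] [Fintype J] [DecidableEq J]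
    {q : ℕ} [NeZero q] (x : J → ZMod q) (hx : Free x) (f : (J → Γ) → ℝ) :
    (∑ ω : ZMod q → Γ, f (fun j => kap ω (x j))) * Fintype.card (J → Γ)
      = Fintype.card (ZMod q → Γ) * ∑ t, f t := by
  classical
  let φ : (ZMod q → Γ) →+ (J → Γ) :=
    { toFun := fun ω j => kap ω (x j)
      map_zero' := by funext j; simp [kap]
      map_add' := fun ω ω' => by funext j; simp only [kap, Pi.add_apply]; abel }
  have hφ : Function.Surjective φ := by
    intro t
    have hinj : Function.Injective x := fun j j' h => hx.1 j j' h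
    refine ⟨Function.extend x t 0, ?_⟩
    funext j
    change kap _ (x j) = t j
    unfold kap
    rw [hinj.extend_apply, Function.extend_apply' _ _ _ (fun ⟨j', h⟩ => hx.2 j' j h)]
    simp
  exact sum_comp_surj φ hφ f

theorem moment {G J Γ : Type*} [AddCommGroup G] [Fintype G] [Fintype J] [DecidableEq J]
    [AddCommGroup Γ] [Fintype Γ] {q : ℕ} [Fact q.Prime] (φ : J → G →+ ZMod q) (o : J → ZMod q)
    (h1 : ∀ j j', j ≠ j' → ∃ g, φ j g - φ j' g ≠ 0) (h2 : ∀ j j', ∃ g, φ j g + φ j' g ≠ 0)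
    (f : (J → Γ) → ℝ) (hf : ∀ t, |f t| ≤ 1) (m : ℝ)
    (hm : ∑ t, f t = m * Fintype.card (J → Γ)) :
    |∑ ω : ZMod q → Γ, ∑ g, f (fun j => kap ω (φ j g + o j)) -
        Fintype.card (ZMod q → Γ) * (m * Fintype.card G)| * q
      ≤ Fintype.card (ZMod q → Γ) * (4 * (Fintype.card J) ^ 2 * Fintype.card G) := by
  classical
  have hc : (0 : ℝ) < Fintype.card (J → Γ) := by exact_mod_cast Fintype.card_pos
  have hW : (0 : ℝ) ≤ Fintype.card (ZMod q → Γ) := Nat.cast_nonneg _
  have hm1 : |m| ≤ 1 := by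
    have h3 : |∑ t, f t| ≤ Fintype.card (J → Γ) := by
      refine (abs_sum_le_sum_abs _ _).trans ((sum_le_sum fun t _ => hf t).trans ?_)
      simp
    rw [hm, abs_mul, abs_of_pos hc] at h3
    nlinarith
  have h4 : ∀ g, |∑ ω : ZMod q → Γ, f (fun j => kap ω (φ j g + o j)) -
      Fintype.card (ZMod q → Γ) * m| ≤
      if ¬ Free (fun j => φ j g + o j) then Fintype.card (ZMod q → Γ) * (2 : ℝ) else 0 := by
    intro g
    split_ifs with h
    · have h5 := sum_kap_free _ h f
      rw [hm, ← mul_assoc] at h5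
      rw [mul_right_cancel₀ hc.ne' h5]; simp
    · have h5 : |∑ ω : ZMod q → Γ, f (fun j => kap ω (φ j g + o j))|
          ≤ Fintype.card (ZMod q → Γ) := by
        refine (abs_sum_le_sum_abs _ _).trans ((sum_le_sum fun t _ => hf _).trans ?_)
        simp
      refine (abs_sub _ _).trans ?_
      rw [abs_mul, abs_of_nonneg hW]
      nlinarith
  have h6 : |∑ ω : ZMod q → Γ, ∑ g, f (fun j => kap ω (φ j g + o j)) -
        Fintype.card (ZMod q → Γ) * (m * Fintype.card G)|
      ≤ ((univ.filter fun g => ¬ Free fun j => φ j g + o j).card : ℝ) *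
        (Fintype.card (ZMod q → Γ) * (2 : ℝ)) := by
    rw [sum_comm]
    have : (Fintype.card (ZMod q → Γ) : ℝ) * (m * Fintype.card G)
        = ∑ _g : G, Fintype.card (ZMod q → Γ) * m := by
      rw [sum_const, card_univ, nsmul_eq_mul]; ring
    rw [this, ← sum_sub_distrib]
    refine (abs_sum_le_sum_abs _ _).trans ((sum_le_sum fun g _ => h4 g).trans (le_of_eq ?_))
    rw [← sum_filter, sum_const, nsmul_eq_mul]
  have h7 := card_not_free φ o h1 h2
  have hq : (0 : ℝ) ≤ q := Nat.cast_nonneg q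
  calc _ ≤ ((univ.filter fun g => ¬ Free fun j => φ j g + o j).card : ℝ) *
        (Fintype.card (ZMod q → Γ) * (2 : ℝ)) * q := mul_le_mul_of_nonneg_right h6 hq
    _ = (((univ.filter fun g => ¬ Free fun j => φ j g + o j).card : ℝ) * q) *
        (Fintype.card (ZMod q → Γ) * (2 : ℝ)) := by ring
    _ ≤ (2 * (Fintype.card J) ^ 2 * Fintype.card G) * (Fintype.card (ZMod q → Γ) * (2 : ℝ)) :=
        mul_le_mul_of_nonneg_right h7 (by positivity)
    _ = _ := by ring

theorem sum_prod_ind {J Γ : Type*} [Fintype J] [DecidableEq J] [Fintype Γ] [DecidableEq Γ]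
    [Nonempty Γ] (C : J → Finset Γ) :
    ∑ t : J → Γ, ∏ j, (if t j ∈ C j then (1 : ℝ) else 0)
      = (∏ j, ((C j).card : ℝ) / Fintype.card Γ) * Fintype.card (J → Γ) := by
  have hc : (Fintype.card Γ : ℝ) ≠ 0 := by exact_mod_cast Fintype.card_ne_zero
  rw [← Fintype.piFinset_univ, ← prod_univ_sum (fun _ => univ)
    (fun j γ => if γ ∈ C j then (1 : ℝ) else 0)]
  simp only [sum_boole, filter_mem_eq_inter, univ_inter]
  rw [prod_div_distrib, prod_const, card_univ, Fintype.card_fun]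
  push_cast
  field_simp

theorem exists_classes {α : Type} [Fintype α] [DecidableEq α] (w : α → ℝ) (hw : ∀ a, 0 < w a)
    (hsum : 2 * ∑ a, w a < 1) :
    ∃ (B : ℕ) (C : α → Finset (ZMod (B + 1))), (∀ a, w a * (B + 1 : ℕ) ≤ (C a).card) ∧
      (∀ a b x, x ∈ C a → x ∈ C b → a = b) ∧ (∀ a b x, x ∈ C a → -x ∈ C b → False) := by
  obtain ⟨B, hB⟩ := exists_nat_gt (2 * Fintype.card α / (1 - 2 * ∑ a, w a))
  have hB' : (2 * Fintype.card α : ℝ) < (B + 1 : ℕ) * (1 - 2 * ∑ a, w a) := by
    rw [div_lt_iff₀ (by linarith)] at hB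
    push_cast
    nlinarith
  let r : α → ℕ := fun a => ⌈w a * (B + 1 : ℕ)⌉₊
  have hr : 2 * ∑ a, r a < B + 1 := by
    have h1 : ∀ a, (r a : ℝ) ≤ w a * (B + 1 : ℕ) + 1 := fun a =>
      (Nat.ceil_lt_add_one (by have := hw a; positivity)).le
    have h2 : ∑ a, (r a : ℝ) ≤ (∑ a, w a) * (B + 1 : ℕ) + Fintype.card α := by
      refine (sum_le_sum fun a _ => h1 a).trans (le_of_eq ?_)
      rw [sum_add_distrib, sum_mul]; simp
    have h3 : (2 * ∑ a, (r a : ℝ)) < (B + 1 : ℕ) := by nlinarith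
    exact_mod_cast h3
  have hcard : Fintype.card (Σ a, Fin (r a)) = ∑ a, r a := by simp
  let idx : (Σ a, Fin (r a)) ≃ Fin (∑ a, r a) := Fintype.equivFinOfCardEq hcard
  let v : (Σ a, Fin (r a)) → ZMod (B + 1) := fun t => (((idx t : ℕ) + 1 : ℕ) : ZMod (B + 1))
  have hv : Function.Injective v := by
    intro t t' h
    simp only [v] at h
    rw [ZMod.natCast_eq_natCast_iff] at h
    have h1 := (idx t).2
    have h2 := (idx t').2
    have := Nat.ModEq.eq_of_lt_of_lt h (by omega) (by omega)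
    exact idx.injective (Fin.ext (by omega))
  refine ⟨B, fun a => univ.image fun i : Fin (r a) => v ⟨a, i⟩, fun a => ?_, ?_, ?_⟩
  · rw [card_image_of_injective _ (fun i i' h => by simpa using hv h), card_univ, Fintype.card_fin]
    exact Nat.le_ceil _
  · intro a b x ha hb
    obtain ⟨i, _, hi⟩ := mem_image.1 ha
    obtain ⟨j, _, hj⟩ := mem_image.1 hb
    exact congrArg Sigma.fst (hv (hi.trans hj.symm))
  · intro a b x ha hb
    obtain ⟨i, _, hi⟩ := mem_image.1 ha
    obtain ⟨j, _, hj⟩ := mem_image.1 hb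
    have h1 : ((((idx ⟨a, i⟩ : ℕ) + 1) + ((idx ⟨b, j⟩ : ℕ) + 1) : ℕ) : ZMod (B + 1)) = 0 := by
      rw [Nat.cast_add]
      change v ⟨a, i⟩ + v ⟨b, j⟩ = 0
      rw [hi, hj, add_neg_cancel]
    rw [ZMod.natCast_eq_zero_iff] at h1
    have h2 := Nat.le_of_dvd (by omega) h1
    have h3 := (idx ⟨a, i⟩).2
    have h4 := (idx ⟨b, j⟩).2
    omega

end Vale.Agent.P110
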