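import Vale.Agent.P110.Defs

/-! Filling the uncovered cells by branches of small amplitude. -/

namespace Vale.Agent.P110

open Finset

lemma dvd_of_eq' {G a b : ℤ} (h : G ∣ a) (hab : b = a) : G ∣ b := hab ▸ h

lemma two_sum_le_of_inj {ι : Type} [Fintype ι] {G : ℕ} (hG : 0 < G) (C : ι → ℤ) (s : ι → ℕ)
    (inj1 : ∀ i j (r r' : ℕ), r < s i → r' < s j → (G : ℤ) ∣ (C i + r) - (C j + r') →
      i = j ∧ r = r')
    (inj2 : ∀ i j (r r' : ℕ), r < s i → r' < s j → ¬ (G : ℤ) ∣ (C i + r) + (C j + r') + 1) :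
    2 * ∑ i, s i ≤ G := by
  have : NeZero G := ⟨hG.ne'⟩
  let φ : (Σ i, Fin (s i)) × Bool → ZMod G := fun p =>
    if p.2 then ((C p.1.1 + (p.1.2 : ℕ) : ℤ) : ZMod G)
    else ((-1 - (C p.1.1 + (p.1.2 : ℕ)) : ℤ) : ZMod G)
  have hφ : Function.Injective φ := by
    rintro ⟨⟨i, r⟩, t⟩ ⟨⟨j, r'⟩, t'⟩ h
    cases t <;> cases t' <;>
      simp only [φ, if_true, Bool.false_eq_true, if_false, ZMod.intCast_eq_intCast_iff_dvd_sub] at h
    · obtain ⟨rfl, h2⟩ := inj1 i j r r' r.2 r'.2 (dvd_of_eq' h (by ring))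
      rw [Fin.ext h2]
    · exact absurd (dvd_of_eq' h (by ring)) (inj2 i j r r' r.2 r'.2)
    · exact absurd (dvd_of_eq' h.neg_right (by ring)) (inj2 i j r r' r.2 r'.2)
    · obtain ⟨rfl, h2⟩ := inj1 i j r r' r.2 r'.2 (dvd_of_eq' h.neg_right (by ring))
      rw [Fin.ext h2]
  have := Fintype.card_le_of_injective φ hφ
  simpa [ZMod.card, mul_comm] using this

lemma overlap_le {γ : Type} [Fintype γ] (c x : ℝ) (hc : 0 ≤ c) :
    ∑ b : γ, (if ((Fintype.equivFin γ b : ℕ) : ℝ) / Fintype.card γ < x ∧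
      x < ((Fintype.equivFin γ b : ℕ) : ℝ) / Fintype.card γ + 1 / Fintype.card γ then c else 0)
      ≤ c := by
  classical
  rw [← sum_filter, sum_const, nsmul_eq_mul]
  refine mul_le_of_le_one_left hc ?_
  rw [Nat.cast_le_one, card_le_one]
  intro a ha b hb
  have h1 := (mem_filter.mp ha).2
  have h2 := (mem_filter.mp hb).2
  have hL : (0 : ℝ) < Fintype.card γ := by exact_mod_cast Fintype.card_pos_iff.mpr ⟨a⟩
  rw [← add_div, div_lt_iff₀ hL, lt_div_iff₀ hL] at h1 h2
  apply (Fintype.equivFin γ).injective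
  apply Fin.ext
  have h3 : ((Fintype.equivFin γ a : ℕ) : ℝ) < (Fintype.equivFin γ b : ℕ) + 1 := by linarith
  have h4 : ((Fintype.equivFin γ b : ℕ) : ℝ) < (Fintype.equivFin γ a : ℕ) + 1 := by linarith
  have h5 : (Fintype.equivFin γ a : ℕ) < (Fintype.equivFin γ b : ℕ) + 1 := by exact_mod_cast h3
  have h6 : (Fintype.equivFin γ b : ℕ) < (Fintype.equivFin γ a : ℕ) + 1 := by exact_mod_cast h4
  omega

lemma idx_add_le {γ : Type} [Fintype γ] (b : γ) :
    ((Fintype.equivFin γ b : ℕ) : ℝ) / Fintype.card γ + 1 / Fintype.card γ ≤ 1 := by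
  have hL : (0 : ℝ) < Fintype.card γ := by exact_mod_cast Fintype.card_pos_iff.mpr ⟨b⟩
  rw [← add_div, div_le_one hL]
  exact_mod_cast (Fintype.equivFin γ b).2

theorem completion {ε : ℝ} (hε : 0 < ε) (P : PreSystem ε) :
    Nonempty (BranchSystem (1 + ε + 2 * √ε)) := by
  classical
  obtain ⟨g, hg⟩ := P.hGe
  let U : Finset ℕ := (range g).filter fun c => ∀ i, ∀ r < P.s i,
    ¬ (P.G : ℤ) ∣ c - (P.C i + r) ∧ ¬ (P.G : ℤ) ∣ c + (P.C i + r) + 1
  have hU1 : ∀ c : U, (c : ℕ) < g := fun c => mem_range.mp (mem_filter.mp c.2).1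
  have hU2 : ∀ c : U, ∀ i, ∀ r < P.s i, ¬ (P.G : ℤ) ∣ (c : ℕ) - (P.C i + r) ∧
      ¬ (P.G : ℤ) ∣ (c : ℕ) + (P.C i + r) + 1 := fun c => (mem_filter.mp c.2).2
  let C : P.ι ⊕ U → ℤ := Sum.elim P.C fun c => (c : ℕ)
  let s : P.ι ⊕ U → ℕ := Sum.elim P.s fun _ => 1
  have inj1 : ∀ i j (r r' : ℕ), r < s i → r' < s j → (P.G : ℤ) ∣ (C i + r) - (C j + r') →
      i = j ∧ r = r' := by
    rintro (i | c) (j | d) r r' hr hr' h <;> simp only [C, s, Sum.elim_inl, Sum.elim_inr] at hr hr' h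
    · obtain ⟨h1, h2⟩ := P.inj1 i j r r' hr hr' h
      exact ⟨by rw [h1], h2⟩
    · obtain rfl : r' = 0 := by omega
      exact absurd (dvd_of_eq' h.neg_right (by push_cast; ring)) (hU2 d i r hr).1
    · obtain rfl : r = 0 := by omega
      exact absurd (dvd_of_eq' h (by push_cast; ring)) (hU2 c j r' hr').1
    · have h1 := hU1 c
      have h2 := hU1 d
      have h3 := Int.eq_zero_of_abs_lt_dvd h (abs_lt.mpr ⟨by omega, by omega⟩)
      exact ⟨by rw [Subtype.ext (by omega : (c : ℕ) = d)], by omega⟩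
  have inj2 : ∀ i j (r r' : ℕ), r < s i → r' < s j →
      ¬ (P.G : ℤ) ∣ (C i + r) + (C j + r') + 1 := by
    rintro (i | c) (j | d) r r' hr hr' h <;> simp only [C, s, Sum.elim_inl, Sum.elim_inr] at hr hr' h
    · exact P.inj2 i j r r' hr hr' h
    · obtain rfl : r' = 0 := by omega
      exact absurd (dvd_of_eq' h (by push_cast; ring)) (hU2 d i r hr).2
    · obtain rfl : r = 0 := by omega
      exact absurd (dvd_of_eq' h (by push_cast; ring)) (hU2 c j r' hr').2
    · have h1 := hU1 c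
      have h2 := hU1 d
      have h3 := Int.eq_zero_of_abs_lt_dvd h (abs_lt.mpr ⟨by omega, by omega⟩)
      omega
  have hG : (0 : ℝ) < P.G := by exact_mod_cast P.hG
  have hD : (Fintype.card U : ℝ) ≤ ε * P.G := by
    have h1 := two_sum_le_of_inj P.hG C s inj1 inj2
    rw [Fintype.sum_sum_type] at h1
    simp only [s, Sum.elim_inl, Sum.elim_inr, sum_const, card_univ, smul_eq_mul, mul_one] at h1
    have h2 : 2 * (∑ i, (P.s i : ℝ) + Fintype.card U) ≤ P.G := by exact_mod_cast h1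
    have h3 := P.cover
    have h4 : (0 : ℝ) ≤ Fintype.card U := by positivity
    linarith
  have hmem : ∀ c : ℕ, c < g → ∃ i, ∃ r : ℕ, r < s i ∧
      ((P.G : ℤ) ∣ c - (C i + r) ∨ (P.G : ℤ) ∣ c + (C i + r) + 1) := by
    intro c hc
    by_cases h : c ∈ U
    · exact ⟨Sum.inr ⟨c, h⟩, 0, by simp [s], Or.inl (by simp [C])⟩
    · simp only [U, mem_filter, mem_range, hc, true_and] at h
      push Not at h
      obtain ⟨i, r, hr, h⟩ := h
      refine ⟨Sum.inl i, r, hr, ?_⟩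
      by_cases h1 : (P.G : ℤ) ∣ c - (P.C i + r)
      · exact Or.inl h1
      · exact Or.inr (h h1)
  refine ⟨{
    ι := P.ι ⊕ U
    β := P.β ⊕ U
    bun := Sum.map P.bun id
    G := P.G
    C := C
    s := s
    u := Sum.elim P.u fun _ => 1
    a := Sum.elim (fun b => ((Fintype.equivFin P.β b : ℕ) : ℝ) / Fintype.card P.β)
      fun c => ((Fintype.equivFin U c : ℕ) : ℝ) / Fintype.card U
    l := Sum.elim (fun _ => 1 / (Fintype.card P.β : ℝ)) fun _ => 1 / (Fintype.card U : ℝ)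
    Bd := Sum.elim (fun _ => 1 + ε) fun _ => 2 * √ε
    hG := P.hG
    hs := ?_
    hu := ?_
    ha := ?_
    hl := ?_
    hal := ?_
    inj1 := inj1
    inj2 := inj2
    surj := ?_
    bound := ?_
    overlap := ?_ }⟩
  · rintro (i | c)
    · exact P.hs i
    · exact Nat.one_pos
  · rintro (i | c)
    · exact P.hu i
    · simp
  · rintro (b | c) <;> simp only [Sum.elim_inl, Sum.elim_inr] <;> positivity
  · rintro (b | c) <;> simp only [Sum.elim_inl, Sum.elim_inr]
    · have : (0 : ℝ) < Fintype.card P.β := by exact_mod_cast Fintype.card_pos_iff.mpr ⟨b⟩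
      positivity
    · have : (0 : ℝ) < Fintype.card U := by exact_mod_cast Fintype.card_pos_iff.mpr ⟨c⟩
      positivity
  · rintro (b | c)
    · exact idx_add_le b
    · exact idx_add_le c
  · intro c
    have hG' : (0 : ℤ) < P.G := by exact_mod_cast P.hG
    have h0 := Int.emod_nonneg c hG'.ne'
    have h1 := Int.emod_lt_of_pos c hG'
    obtain ⟨c0, hc0⟩ := Int.eq_ofNat_of_zero_le h0
    have h2 : (P.G : ℤ) ∣ c - c0 := hc0 ▸ Int.dvd_self_sub_emod
    by_cases h : c0 < g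
    · obtain ⟨i, r, hr, h3⟩ := hmem c0 h
      refine ⟨i, r, hr, h3.imp (fun h4 => ?_) fun h4 => ?_⟩
      · exact dvd_of_eq' (h2.add h4) (by ring)
      · exact dvd_of_eq' (h2.add h4) (by ring)
    · obtain ⟨i, r, hr, h3⟩ := hmem (P.G - 1 - c0) (by omega)
      have h5 : ((P.G - 1 - c0 : ℕ) : ℤ) = P.G - 1 - c0 := by omega
      rw [h5] at h3
      refine ⟨i, r, hr, h3.symm.imp (fun h4 => ?_) fun h4 => ?_⟩
      · exact dvd_of_eq' ((h2.sub h4).add (dvd_refl (P.G : ℤ))) (by ring)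
      · exact dvd_of_eq' ((h2.sub h4).add (dvd_refl (P.G : ℤ))) (by ring)
  · rintro (b | c) k lam
    · have h1 := P.bound b k lam
      rw [sum_filter] at h1 ⊢
      rw [Fintype.sum_sum_type]
      simp only [Sum.map_inl, Sum.map_inr, Sum.inl.injEq, reduceCtorEq, if_false, sum_const_zero,
        add_zero, Sum.elim_inl, C, s, mul_one_div, div_div_eq_mul_div]
      exact h1
    · rw [sum_filter, Fintype.sum_sum_type]
      simp only [Sum.map_inl, Sum.map_inr, Sum.inr.injEq, reduceCtorEq, if_false, sum_const_zero,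
        zero_add, Sum.elim_inr, C, s, mul_one_div, div_div_eq_mul_div, id, sum_ite_eq', mem_univ,
        if_true, Nat.cast_one, one_mul, mul_one]
      rw [abs_mul, abs_two]
      refine mul_le_mul_of_nonneg_left ((Complex.abs_re_le_norm _).trans ?_) (by norm_num)
      rw [norm_mul, norm_e, mul_one, Complex.norm_real, Real.norm_eq_abs,
        abs_of_nonneg (Real.sqrt_nonneg _)]
      exact Real.sqrt_le_sqrt ((div_le_iff₀ hG).mpr hD)
  · intro x
    rw [sum_filter, Fintype.sum_sum_type]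
    exact add_le_add (overlap_le (1 + ε) x (by linarith)) (overlap_le (2 * √ε) x (by positivity))

end Vale.Agent.P110
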