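import Vale.Agent.P110.Basic

/-! The Fresnel integral with an error term. -/

namespace Vale.Agent.P110

open Set Filter Topology

lemma fresnel_tail {b : ℂ} (hb : 0 ≤ b.re) (hb0 : b ≠ 0) {r R : ℝ} (hr : 0 < r) (hR : r ≤ R) :
    ‖∫ t in r..R, Complex.exp (-b * (t : ℂ) ^ 2)‖ ≤ 1 / (‖b‖ * r) := by
  have hnb : 0 < ‖b‖ := norm_pos_iff.mpr hb0
  have hE : ∀ t : ℝ, ‖Complex.exp (-b * (t : ℂ) ^ 2)‖ ≤ 1 := by
    intro t
    rw [Complex.norm_exp, Real.exp_le_one_iff, ← Complex.ofReal_pow, Complex.re_mul_ofReal,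
      Complex.neg_re]
    nlinarith [sq_nonneg t]
  have hc : Continuous fun t : ℝ => Complex.exp (-b * (t : ℂ) ^ 2) := by fun_prop
  have hpos : ∀ t ∈ uIcc r R, 0 < t := fun t ht => by
    rw [uIcc_of_le hR] at ht; linarith [ht.1]
  have hq : ContinuousOn (fun t : ℝ => (t ^ 2)⁻¹) (uIcc r R) :=
    (continuous_pow 2).continuousOn.inv₀ fun t ht => pow_ne_zero _ (hpos t ht).ne'
  let h : ℝ → ℂ := fun t => Complex.exp (-b * (t : ℂ) ^ 2) * ((t⁻¹ : ℝ) : ℂ) / (-2 * b)
  let g : ℝ → ℂ := fun t => Complex.exp (-b * (t : ℂ) ^ 2) * (((t ^ 2)⁻¹ : ℝ) : ℂ) / (2 * b)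
  have hg : ContinuousOn g (uIcc r R) :=
    (hc.continuousOn.mul (Complex.continuous_ofReal.comp_continuousOn hq)).div_const _
  have hd : ∀ t ∈ uIcc r R, HasDerivAt h (Complex.exp (-b * (t : ℂ) ^ 2) + g t) t := by
    intro t ht
    have ht0 := (hpos t ht).ne'
    have ht1 : (t : ℂ) ≠ 0 := by exact_mod_cast ht0
    have h1 : HasDerivAt (fun t : ℝ => -b * (t : ℂ) ^ 2) (-b * (2 * t)) t := by
      have h2 : HasDerivAt (fun t : ℝ => (t : ℂ)) 1 t := (hasDerivAt_id t).ofReal_comp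
      exact ((h2.pow 2).const_mul (-b)).congr_deriv (by simp)
    refine ((h1.cexp.mul (hasDerivAt_inv ht0).ofReal_comp).div_const _).congr_deriv ?_
    simp only [g]
    push_cast
    field_simp
    ring
  have e1 := intervalIntegral.integral_eq_sub_of_hasDerivAt hd
    ((hc.intervalIntegrable _ _).add hg.intervalIntegrable)
  rw [intervalIntegral.integral_add (hc.intervalIntegrable _ _) hg.intervalIntegrable] at e1
  have hh : ∀ t, 0 < t → ‖h t‖ ≤ t⁻¹ / (2 * ‖b‖) := fun t ht => by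
    simp only [h]
    rw [norm_div, norm_mul, norm_mul, Complex.norm_real, Real.norm_eq_abs,
      abs_of_pos (inv_pos.mpr ht), norm_neg, Complex.norm_ofNat]
    exact div_le_div_of_nonneg_right (mul_le_of_le_one_left (inv_pos.mpr ht).le (hE t))
      (by positivity)
  have e2 : ∫ t in r..R, (t ^ 2)⁻¹ / (2 * ‖b‖) = -R⁻¹ / (2 * ‖b‖) - -r⁻¹ / (2 * ‖b‖) := by
    apply intervalIntegral.integral_eq_sub_of_hasDerivAt (f := fun t => -t⁻¹ / (2 * ‖b‖))
    · intro t ht
      exact ((hasDerivAt_inv (hpos t ht).ne').neg.div_const _).congr_deriv (by simp)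
    · exact (hq.div_const _).intervalIntegrable
  have e3 : ‖∫ t in r..R, g t‖ ≤ ∫ t in r..R, (t ^ 2)⁻¹ / (2 * ‖b‖) := by
    refine intervalIntegral.norm_integral_le_of_norm_le hR
      (Filter.Eventually.of_forall fun t _ => ?_) (hq.div_const _).intervalIntegrable
    simp only [g]
    rw [norm_div, norm_mul, norm_mul, Complex.norm_real, Real.norm_eq_abs,
      abs_of_nonneg (by positivity), Complex.norm_ofNat]
    exact div_le_div_of_nonneg_right (mul_le_of_le_one_left (by positivity) (hE t))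
      (by positivity)
  have e5 : ∫ t in r..R, Complex.exp (-b * (t : ℂ) ^ 2) = h R - h r - ∫ t in r..R, g t := by
    rw [← e1]; ring
  rw [e5]
  refine (norm_sub_le _ _).trans ?_
  have a1 := norm_sub_le (h R) (h r)
  have a2 := hh r hr
  have a3 := hh R (by linarith)
  have a4 : 1 / (‖b‖ * r) = r⁻¹ / (2 * ‖b‖) + r⁻¹ / (2 * ‖b‖) := by field_simp; ring
  rw [e2, neg_div, neg_div] at e3
  linarith

lemma fresnel_gauss {b : ℂ} (hb : 0 < b.re) {r : ℝ} (hr : 0 < r) :
    ‖(∫ t in (-r)..r, Complex.exp (-b * (t : ℂ) ^ 2)) - (Real.pi / b) ^ (1 / 2 : ℂ)‖ ≤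
      2 / (‖b‖ * r) := by
  have hb0 : b ≠ 0 := fun h => by simp [h] at hb
  have hc : Continuous fun t : ℝ => Complex.exp (-b * (t : ℂ) ^ 2) := by fun_prop
  have hlim := MeasureTheory.intervalIntegral_tendsto_integral (integrable_cexp_neg_mul_sq hb)
    tendsto_neg_atTop_atBot tendsto_id
  rw [integral_gaussian_complex hb] at hlim
  refine le_of_tendsto ((tendsto_const_nhds.sub hlim).norm) ?_
  filter_upwards [eventually_ge_atTop r] with R hR
  have h1 := fresnel_tail hb.le hb0 hr hR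
  have h2 : ∫ t in (-R)..(-r), Complex.exp (-b * (t : ℂ) ^ 2) =
      ∫ t in r..R, Complex.exp (-b * (t : ℂ) ^ 2) := by
    rw [← intervalIntegral.integral_comp_neg]
    simp
  simp only [id]
  rw [← intervalIntegral.integral_add_adjacent_intervals (hc.intervalIntegrable (-R) (-r))
    (hc.intervalIntegrable _ R), ← intervalIntegral.integral_add_adjacent_intervals
    (hc.intervalIntegrable (-r) r) (hc.intervalIntegrable _ R), h2]
  have e3 : ∀ a b : ℂ, b - (a + (b + a)) = -(a + a) := fun a b => by ring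
  rw [e3, norm_neg]
  refine (norm_add_le _ _).trans ?_
  have : 2 / (‖b‖ * r) = 1 / (‖b‖ * r) + 1 / (‖b‖ * r) := by ring
  linarith

theorem fresnel : ∃ ω₀ : ℂ, ‖ω₀‖ = 1 ∧ ∀ Ω r : ℝ, 0 < Ω → 0 < r →
    ‖(∫ t in (-r)..r, e (Ω * t ^ 2 / 2)) - ω₀ / (√Ω : ℝ)‖ ≤ 1 / (Ω * r) := by
  refine ⟨Complex.I ^ (1 / 2 : ℂ), ?_, fun Ω r hΩ hr => ?_⟩
  · have := Complex.norm_cpow_real Complex.I (1 / 2)
    simpa using this
  have hpi := Real.pi_pos
  have hpic : (Real.pi : ℂ) ≠ 0 := by exact_mod_cast hpi.ne'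
  have hΩc : (Ω : ℂ) ≠ 0 := by exact_mod_cast hΩ.ne'
  let b : ℝ → ℂ := fun ε => Real.pi * (ε - Ω * Complex.I)
  have hbc : Continuous b := by fun_prop
  have hb0 : (Real.pi : ℂ) / b 0 = ((Ω⁻¹ : ℝ) : ℂ) * Complex.I := by
    rw [div_eq_iff (by simp [b, hpi.ne', hΩ.ne'])]
    simp only [b]
    push_cast
    field_simp
    linear_combination (Ω : ℂ) * Complex.I_mul_I
  have hb00 : b 0 ≠ 0 := by simp [b, hpi.ne', hΩ.ne']
  let F : ℝ → ℝ := fun ε => ‖(∫ t in (-r)..r, Complex.exp (-b ε * (t : ℂ) ^ 2)) -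
    (Real.pi / b ε) ^ (1 / 2 : ℂ)‖
  have hF : ContinuousAt F 0 := by
    refine ContinuousAt.norm (ContinuousAt.sub ?_ ?_)
    · exact (intervalIntegral.continuous_parametric_intervalIntegral_of_continuous'
        (f := fun ε (t : ℝ) => Complex.exp (-b ε * (t : ℂ) ^ 2)) (by fun_prop) _ _).continuousAt
    · refine ContinuousAt.comp (g := fun z : ℂ => z ^ (1 / 2 : ℂ)) (continuousAt_cpow_const ?_)
        (continuousAt_const.div hbc.continuousAt hb00)
      rw [hb0, Complex.mem_slitPlane_iff]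
      right
      simp [hΩ.ne']
  have hle : F 0 ≤ 1 / (Ω * r) := by
    refine le_of_tendsto (hF.tendsto.mono_left (nhdsWithin_le_nhds (s := Ioi 0))) ?_
    filter_upwards [self_mem_nhdsWithin] with ε hε
    have hε' : 0 < ε := hε
    refine (fresnel_gauss (by simp [b]; positivity) hr).trans ?_
    have h1 : Real.pi * Ω ≤ ‖b ε‖ := by
      have := Complex.abs_im_le_norm (b ε)
      simpa [b, abs_mul, abs_of_pos hpi, abs_of_pos hΩ] using this
    rw [div_le_div_iff₀ (mul_pos (lt_of_lt_of_le (by positivity) h1) hr) (by positivity)]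
    have h2 := Real.two_le_pi
    nlinarith [mul_le_mul_of_nonneg_right h1 hr.le, mul_le_mul_of_nonneg_right h2 (mul_pos hΩ hr).le]
  have e1 : ∀ t : ℝ, e (Ω * t ^ 2 / 2) = Complex.exp (-b 0 * (t : ℂ) ^ 2) := by
    intro t
    simp only [e, b]
    congr 1
    push_cast
    ring
  have e2 : Complex.I ^ (1 / 2 : ℂ) / (√Ω : ℝ) = (Real.pi / b 0) ^ (1 / 2 : ℂ) := by
    rw [hb0, Complex.cpow_def_of_ne_zero (mul_ne_zero (by simpa using hΩ.ne') Complex.I_ne_zero),
      Complex.log_ofReal_mul (inv_pos.mpr hΩ) Complex.I_ne_zero, add_mul, Complex.exp_add,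
      ← Complex.cpow_def_of_ne_zero Complex.I_ne_zero, div_eq_inv_mul]
    congr 1
    rw [← Complex.ofReal_inv, ← Real.sqrt_inv, Real.sqrt_eq_rpow,
      Real.rpow_def_of_pos (inv_pos.mpr hΩ)]
    push_cast
    rfl
  simp_rw [e1, e2]
  exact hle

end Vale.Agent.P110
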