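import Vale.Agent.P110.Osc
import Vale.Agent.P110.Fresnel

/-! Stationary phase on the slow part of a branch. -/

namespace Vale.Agent.P110

open Set Filter

lemma core_taylor {Θ Ξ Ξ' : ℝ → ℝ} {K₀ τ r : ℝ} (hK : 0 ≤ K₀) (hr : 0 ≤ r)
    (h1 : ∀ x, HasDerivAt Θ (Ξ x) x) (h2 : ∀ x, HasDerivAt Ξ (Ξ' x) x)
    (hL : ∀ t ∈ Icc (-r) r, |Ξ' (τ + t) - Ξ' τ| ≤ K₀ * |t|) :
    ∀ t ∈ Icc (-r) r, |Θ (τ + t) - Θ τ - Ξ τ * t - Ξ' τ * t ^ 2 / 2| ≤ K₀ * r ^ 3 := by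
  have h0 : (0 : ℝ) ∈ Icc (-r) r := ⟨by linarith, hr⟩
  have habs : ∀ t ∈ Icc (-r) r, |t| ≤ r := fun t ht => abs_le.mpr ht
  have d1 : ∀ t, HasDerivAt (fun t => Ξ (τ + t) - Ξ τ - Ξ' τ * t) (Ξ' (τ + t) - Ξ' τ) t := by
    intro t
    exact ((((h2 (τ + t)).comp_const_add τ t).sub_const (Ξ τ)).sub
      ((hasDerivAt_id t).const_mul (Ξ' τ))).congr_deriv (by simp)
  have b1 : ∀ t ∈ Icc (-r) r, |Ξ (τ + t) - Ξ τ - Ξ' τ * t| ≤ K₀ * r ^ 2 := by
    intro t ht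
    have := (convex_Icc (-r) r).norm_image_sub_le_of_norm_hasDerivWithin_le (C := K₀ * r)
      (fun x _ => (d1 x).hasDerivWithinAt)
      (fun x hx => (hL x hx).trans (mul_le_mul_of_nonneg_left (habs x hx) hK)) h0 ht
    simp only [add_zero, sub_self, mul_zero, sub_zero, Real.norm_eq_abs] at this
    refine this.trans ?_
    have := mul_le_mul_of_nonneg_left (habs t ht) (mul_nonneg hK hr)
    nlinarith
  have d2 : ∀ t, HasDerivAt (fun t => Θ (τ + t) - Θ τ - Ξ τ * t - Ξ' τ * t ^ 2 / 2)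
      (Ξ (τ + t) - Ξ τ - Ξ' τ * t) t := by
    intro t
    exact (((((h1 (τ + t)).comp_const_add τ t).sub_const (Θ τ)).sub
      ((hasDerivAt_id t).const_mul (Ξ τ))).sub
      (((hasDerivAt_pow 2 t).const_mul (Ξ' τ)).div_const 2)).congr_deriv (by simp; ring)
  intro t ht
  have := (convex_Icc (-r) r).norm_image_sub_le_of_norm_hasDerivWithin_le (C := K₀ * r ^ 2)
    (fun x _ => (d2 x).hasDerivWithinAt) b1 h0 ht
  simp only [add_zero, sub_self, mul_zero, sub_zero, Real.norm_eq_abs, ne_eq, OfNat.ofNat_ne_zero,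
    not_false_eq_true, zero_pow, zero_div] at this
  refine this.trans ?_
  have := mul_le_mul_of_nonneg_left (habs t ht) (mul_nonneg hK (sq_nonneg r))
  nlinarith

/-- Stationary phase, uniformly in the parameter `x`.  The centre `σ x` does not depend on the
large parameter `ω`. -/
theorem core : ∃ ω₀ : ℂ, ‖ω₀‖ = 1 ∧
    ∀ (Θ Ξ Ξ' : ℝ → ℝ) (c₀ K₀ H₀ w : ℝ), 0 < c₀ → 0 ≤ K₀ → 0 < H₀ → 0 < w → w ≤ 1 / 4 →
    (∀ x, HasDerivAt Θ (Ξ x) x) → (∀ x, HasDerivAt Ξ (Ξ' x) x) → Continuous Ξ' →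
    (∀ x ∈ Icc (0 : ℝ) 1, c₀ ≤ Ξ' x) →
    (∀ x ∈ Icc (0 : ℝ) 1, ∀ y ∈ Icc (0 : ℝ) 1, |Ξ' x - Ξ' y| ≤ K₀ * |x - y|) →
    (∀ x ∈ Icc (0 : ℝ) 1, x ≤ 2 * w ∨ 1 - 2 * w ≤ x → H₀ ≤ Ξ' x) →
    ∃ σ : ℝ → ℝ, (∀ x, σ x ∈ Icc (0 : ℝ) 1) ∧ (∀ x, σ x ∈ Icc w (1 - w) → Ξ (σ x) = x) ∧
      ∀ η : ℝ, 0 < η → ∀ᶠ ω : ℝ in atTop, ∀ x : ℝ,
        (σ x ∈ Icc w (1 - w) →
          ‖(√ω : ℝ) * (∫ t in (0 : ℝ)..1, e (ω * (Θ t - x * t))) -
            ω₀ * e (ω * (Θ (σ x) - x * σ x)) / (√(Ξ' (σ x)) : ℝ)‖ ≤ η) ∧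
        (σ x ∉ Icc w (1 - w) →
          ‖(√ω : ℝ) * (∫ t in (0 : ℝ)..1, e (ω * (Θ t - x * t)))‖ ≤ 4 / √H₀ + η) := by
  obtain ⟨ω₀, hω₀, hfr⟩ := fresnel
  refine ⟨ω₀, hω₀, fun Θ Ξ Ξ' c₀ K₀ H₀ w hc₀ hK₀ hH₀ hw hw4 h1 h2 h3 hlow hlip hH => ?_⟩
  have hcen : ∀ x : ℝ, ∃ τ ∈ Icc (0 : ℝ) 1, (∀ t ∈ Icc (0 : ℝ) 1, c₀ * |t - τ| ≤ |Ξ t - x|) ∧
      (Ξ τ - x = 0 ∨ τ = 0 ∨ τ = 1) := fun x =>
    exists_center (g := fun t => Ξ t - x) zero_le_one hc₀
      (fun t _ => ((h2 t).sub_const x).continuousAt.continuousWithinAt)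
      (mono_of_deriv (fun t => (h2 t).sub_const x) hlow)
  choose σ hσ hσc hσ0 using hcen
  have hΞ : ∀ x, σ x ∈ Icc w (1 - w) → Ξ (σ x) = x := by
    intro x hx
    rcases hσ0 x with h | h | h
    · linarith
    · linarith [hx.1]
    · linarith [hx.2]
  refine ⟨σ, hσ, hΞ, fun η hη => ?_⟩
  set ρ : ℝ := 6 / (c₀ * η) with hρ
  have hρ0 : 0 < ρ := by positivity
  have hpi := Real.pi_pos
  have hsq := Real.tendsto_sqrt_atTop
  filter_upwards [eventually_gt_atTop 0, hsq.eventually_ge_atTop (ρ / w),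
    hsq.eventually_ge_atTop (2 / (c₀ * w * η)),
    hsq.eventually_ge_atTop (8 * Real.pi * K₀ * ρ ^ 4 / η)] with ω hω hω1 hω2 hω3 x
  set s : ℝ := √ω with hs
  have hs0 : 0 < s := Real.sqrt_pos.mpr hω
  have hss : ω = s ^ 2 := (Real.sq_sqrt hω.le).symm
  have hns : ‖(s : ℂ)‖ = s := by rw [Complex.norm_real, Real.norm_eq_abs, abs_of_pos hs0]
  let f : ℝ → ℝ := fun t => ω * (Θ t - x * t)
  have f1 : ∀ t, HasDerivAt f (ω * (Ξ t - x)) t := fun t =>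
    (((h1 t).sub ((hasDerivAt_id t).const_mul x)).const_mul ω).congr_deriv (by simp)
  have f2 : ∀ t, HasDerivAt (fun t => ω * (Ξ t - x)) (ω * Ξ' t) t := fun t =>
    ((h2 t).sub_const x).const_mul ω
  have f3 : Continuous fun t => ω * Ξ' t := continuous_const.mul h3
  have hfar : ∀ v : ℝ, 0 < v → ‖(∫ t in (0 : ℝ)..1, e (f t)) -
      ∫ t in (max 0 (σ x - v))..(min 1 (σ x + v)), e (f t)‖ ≤ 2 / (ω * c₀ * v) := fun v hv =>
    far_le (σ := 1) (hσ x) (mul_pos hω hc₀) hv (Or.inl rfl) f1 f2 f3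
      (fun t ht => by
        rw [abs_mul, abs_of_pos hω, mul_assoc]
        exact mul_le_mul_of_nonneg_left (hσc x t ht) hω.le)
      (fun t ht => by have := hlow t ht; rw [one_mul]; nlinarith)
  constructor
  · intro hx
    set τ := σ x with hτ
    set r : ℝ := ρ / s with hr
    have hr0 : 0 < r := by positivity
    have hrw : r ≤ w := by
      rw [hr, div_le_iff₀ hs0]
      rw [div_le_iff₀ hw] at hω1
      linarith
    have hΞ' : c₀ ≤ Ξ' τ := hlow τ (hσ x)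
    have hΞ0 : 0 < Ξ' τ := by linarith
    have a1 := hfar r hr0
    rw [max_eq_right (by linarith [hx.1]), min_eq_right (by linarith [hx.2])] at a1
    have a2 : ∫ t in (τ - r)..(τ + r), e (f t) = ∫ t in (-r)..r, e (f (τ + t)) := by
      rw [intervalIntegral.integral_comp_add_left (fun t => e (f t)) τ, ← sub_eq_add_neg]
    have hf : Continuous f := continuous_iff_continuousAt.mpr fun t => (f1 t).continuousAt
    have a3 : ‖(∫ t in (-r)..r, e (f (τ + t))) -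
        e (f τ) * ∫ t in (-r)..r, e (ω * Ξ' τ * t ^ 2 / 2)‖ ≤
        2 * Real.pi * (ω * (K₀ * r ^ 3)) * (2 * r) := by
      rw [← intervalIntegral.integral_const_mul, ← intervalIntegral.integral_sub
        (Continuous.intervalIntegrable (by fun_prop) _ _)
        (Continuous.intervalIntegrable (by fun_prop) _ _)]
      refine (intervalIntegral.norm_integral_le_of_norm_le_const
        (C := 2 * Real.pi * (ω * (K₀ * r ^ 3))) fun t ht => ?_).trans (le_of_eq ?_)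
      · rw [uIoc_of_le (by linarith)] at ht
        have ht' := Ioc_subset_Icc_self ht
        rw [← e_add]
        refine (norm_e_sub_e_le _ _).trans (mul_le_mul_of_nonneg_left ?_ (by positivity))
        have h4 := core_taylor (τ := τ) hK₀ hr0.le h1 h2 (fun u hu => by
          have := hlip (τ + u) ⟨by linarith [hx.1, hu.1], by linarith [hx.2, hu.2]⟩ τ (hσ x)
          simpa using this) t ht'
        have h5 : f (τ + t) - (f τ + ω * Ξ' τ * t ^ 2 / 2) =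
            ω * (Θ (τ + t) - Θ τ - Ξ τ * t - Ξ' τ * t ^ 2 / 2) := by
          rw [hΞ x hx]; simp only [f]; ring
        rw [h5, abs_mul, abs_of_pos hω]
        exact mul_le_mul_of_nonneg_left h4 hω.le
      · rw [abs_of_pos (by linarith)]; ring
    have a4 := hfr (ω * Ξ' τ) r (mul_pos hω hΞ0) hr0
    have a5 : ((√(ω * Ξ' τ) : ℝ) : ℂ) = s * (√(Ξ' τ) : ℝ) := by
      rw [Real.sqrt_mul hω.le]; push_cast; rfl
    have hsc : (s : ℂ) ≠ 0 := by exact_mod_cast hs0.ne'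
    have hq : ((√(Ξ' τ) : ℝ) : ℂ) ≠ 0 := by exact_mod_cast (Real.sqrt_pos.mpr hΞ0).ne'
    have a6 : (s : ℂ) * (∫ t in (0 : ℝ)..1, e (f t)) - ω₀ * e (f τ) / (√(Ξ' τ) : ℝ) =
        s * ((((∫ t in (0 : ℝ)..1, e (f t)) - ∫ t in (τ - r)..(τ + r), e (f t)) +
          ((∫ t in (-r)..r, e (f (τ + t))) -
            e (f τ) * ∫ t in (-r)..r, e (ω * Ξ' τ * t ^ 2 / 2))) +
          e (f τ) * ((∫ t in (-r)..r, e (ω * Ξ' τ * t ^ 2 / 2)) - ω₀ / (√(ω * Ξ' τ) : ℝ))) := by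
      rw [a2, a5]
      field_simp
      ring
    change ‖(s : ℂ) * (∫ t in (0 : ℝ)..1, e (f t)) - ω₀ * e (f τ) / (√(Ξ' τ) : ℝ)‖ ≤ η
    rw [a6, norm_mul, hns]
    have a7 : 1 / (ω * Ξ' τ * r) ≤ 1 / (ω * c₀ * r) :=
      one_div_le_one_div_of_le (by positivity) (by gcongr)
    have a8 : s * (2 / (ω * c₀ * r) + 2 * Real.pi * (ω * (K₀ * r ^ 3)) * (2 * r) +
        1 / (ω * c₀ * r)) = η / 2 + 4 * Real.pi * K₀ * ρ ^ 4 / s := by
      rw [hr, hss, hρ]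
      field_simp
      ring
    have a9 : 4 * Real.pi * K₀ * ρ ^ 4 / s ≤ η / 2 := by
      rw [div_le_iff₀ hs0]
      rw [div_le_iff₀ hη] at hω3
      linarith
    refine le_trans (mul_le_mul_of_nonneg_left ((norm_add_le _ _).trans (add_le_add
      ((norm_add_le _ _).trans (add_le_add a1 a3)) ?_)) hs0.le) (a8.le.trans (by linarith))
    rw [norm_mul, norm_e, one_mul]
    exact a4.trans a7
  · intro hx
    have a1 := hfar w hw
    have hτ := hσ x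
    have hab : max 0 (σ x - w) ≤ min 1 (σ x + w) :=
      (max_le hτ.1 (by linarith)).trans (le_min hτ.2 (by linarith))
    have a2 := sdt (σ := 1) (lam := ω * H₀) hab (mul_pos hω hH₀) (Or.inl rfl) f1 f2 f3
      (fun t ht => by
        have h4 := max_le_iff.mp ht.1
        have h5 := le_min_iff.mp ht.2
        rw [one_mul]
        refine mul_le_mul_of_nonneg_left (hH t ⟨h4.1, h5.1⟩ ?_) hω.le
        by_contra hcon
        push Not at hcon
        exact hx ⟨by linarith [h4.2, h5.2, hcon.1], by linarith [h4.2, h5.2, hcon.2]⟩)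
    have a3 := norm_le_norm_add_norm_sub' (∫ t in (0 : ℝ)..1, e (f t))
      (∫ t in (max 0 (σ x - w))..(min 1 (σ x + w)), e (f t))
    change ‖(s : ℂ) * (∫ t in (0 : ℝ)..1, e (f t))‖ ≤ _
    rw [norm_mul, hns]
    rw [Real.sqrt_mul hω.le, ← hs] at a2
    have hH' : 0 < √H₀ := Real.sqrt_pos.mpr hH₀
    have a4 : s * (4 / (s * √H₀) + 2 / (ω * c₀ * w)) = 4 / √H₀ + 2 / (c₀ * w * s) := by
      rw [hss]; field_simp
    have a5 : 2 / (c₀ * w * s) ≤ η := by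
      rw [div_le_iff₀ (by positivity)] at hω2 ⊢
      linarith
    refine (mul_le_mul_of_nonneg_left (a3.trans (add_le_add a2 a1)) hs0.le).trans ?_
    linarith

end Vale.Agent.P110
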