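import Vale.Agent.P110.Basic

/-! The three finite data structures used in the construction. -/

namespace Vale.Agent.P110

open Finset

/-- A real trigonometric polynomial `t ↦ ∑ a, 2 Re (c a * e (n a · t))` on a torus that is bounded
by one, has almost full mean square, and whose frequencies are pairwise non-parallel. -/
structure Resonant (ε : ℝ) where
  α : Type
  δ : Type
  [fα : Fintype α]
  [dα : DecidableEq α]
  [fδ : Fintype δ]
  [dδ : DecidableEq δ]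
  n : α → δ → ℤ
  c : α → ℂ
  v : δ → ℤ
  s : α → ℕ
  z : α → δ → ℤ
  y : α → δ → ℤ
  hc : ∀ a, c a ≠ 0
  hs : ∀ a, 0 < s a
  hv : ∀ a, ∑ i, n a i * v i = s a
  hz : ∀ a, ∑ i, n a i * z a i = 1
  hy0 : ∀ a, ∑ i, n a i * y a i = 0
  hy1 : ∀ a b, a ≠ b → ∑ i, n b i * y a i ≠ 0
  mass : 1 - ε ≤ 2 * ∑ a, ‖c a‖ ^ 2
  bound : ∀ t : δ → ℝ, |∑ a, 2 * (c a * e (∑ i, n a i * t i)).re| ≤ 1

attribute [instance] Resonant.fα Resonant.dα Resonant.fδ Resonant.dδ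

/-- Branches `i` occupy the cells `C i, …, C i + s i - 1` of the grid `ℤ / G`; together with their
mirror images they are disjoint and cover most of the grid.  They are grouped in bundles. -/
structure PreSystem (ε : ℝ) where
  ι : Type
  β : Type
  [fι : Fintype ι]
  [dι : DecidableEq ι]
  [fβ : Fintype β]
  [dβ : DecidableEq β]
  [neβ : Nonempty β]
  bun : ι → β
  G : ℕ
  C : ι → ℤ
  s : ι → ℕ
  u : ι → ℂ
  hG : 0 < G
  hGe : Even G
  hs : ∀ i, 0 < s i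
  hu : ∀ i, ‖u i‖ = 1
  inj1 : ∀ i j (r r' : ℕ), r < s i → r' < s j → (G : ℤ) ∣ (C i + r) - (C j + r') → i = j ∧ r = r'
  inj2 : ∀ i j (r r' : ℕ), r < s i → r' < s j → ¬ (G : ℤ) ∣ (C i + r) + (C j + r') + 1
  cover : (1 - ε) * G ≤ 2 * ∑ i, (s i : ℝ)
  bound : ∀ (b : β) (k : ℤ) (lam : ℝ),
    |∑ i with bun i = b, 2 * ((√(s i * Fintype.card β / G) : ℝ) * u i *
      e (-(k * C i / G) + s i * lam)).re| ≤ 1 + ε

attribute [instance] PreSystem.fι PreSystem.dι PreSystem.fβ PreSystem.dβ PreSystem.neβ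

/-- Branches tile the grid exactly; each bundle `b` lives over the interval `(a b, a b + l b)`. -/
structure BranchSystem (B : ℝ) where
  ι : Type
  β : Type
  [fι : Fintype ι]
  [dι : DecidableEq ι]
  [fβ : Fintype β]
  [dβ : DecidableEq β]
  bun : ι → β
  G : ℕ
  C : ι → ℤ
  s : ι → ℕ
  u : ι → ℂ
  a : β → ℝ
  l : β → ℝ
  Bd : β → ℝ
  hG : 0 < G
  hs : ∀ i, 0 < s i
  hu : ∀ i, ‖u i‖ = 1
  ha : ∀ b, 0 ≤ a b
  hl : ∀ b, 0 < l b
  hal : ∀ b, a b + l b ≤ 1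
  inj1 : ∀ i j (r r' : ℕ), r < s i → r' < s j → (G : ℤ) ∣ (C i + r) - (C j + r') → i = j ∧ r = r'
  inj2 : ∀ i j (r r' : ℕ), r < s i → r' < s j → ¬ (G : ℤ) ∣ (C i + r) + (C j + r') + 1
  surj : ∀ c : ℤ, ∃ i, ∃ r : ℕ, r < s i ∧
    ((G : ℤ) ∣ c - (C i + r) ∨ (G : ℤ) ∣ c + (C i + r) + 1)
  bound : ∀ (b : β) (k : ℤ) (lam : ℝ),
    |∑ i with bun i = b, 2 * ((√(s i / (G * l b)) : ℝ) * u i *
      e (-(k * C i / G) + s i * lam)).re| ≤ Bd b
  overlap : ∀ x : ℝ, ∑ b with a b < x ∧ x < a b + l b, Bd b ≤ B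

attribute [instance] BranchSystem.fι BranchSystem.dι BranchSystem.fβ BranchSystem.dβ

end Vale.Agent.P110
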