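import Vale.Agent.P110.Main

/-! A single sequence of sign patterns that works for every tolerance. -/

namespace Vale.Agent.P110

open Finset Filter

theorem main_z (c : ℝ) (hc : 0 < c) : ∀ᶠ N : ℕ in atTop,
    ∃ a : Fin N → ℝ, (∀ k, a k = 1 ∨ a k = -1) ∧
      ∀ z : ℂ, ‖z‖ = 1 → |‖∑ k : Fin N, (a k : ℂ) * z ^ (k : ℕ)‖ - √N| ≤ c * √N := by
  filter_upwards [main_theta c hc] with N hN
  obtain ⟨a, ha, h⟩ := hN
  refine ⟨fun k => a k, fun k => ha k, fun z hz => ?_⟩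
  obtain ⟨θ, rfl⟩ := exists_e_eq hz
  have := h θ
  rw [← Fin.sum_univ_eq_sum_range (fun k => (a k : ℂ) * e (k * θ))] at this
  simpa only [e_nat_mul] using this

theorem exists_seq : ∃ ε : (N : ℕ) → Fin N → ℝ, (∀ N k, ε N k = 1 ∨ ε N k = -1) ∧
    ∀ c : ℝ, 0 < c → ∀ᶠ N : ℕ in atTop, ∀ z : ℂ, ‖z‖ = 1 →
      |‖∑ k : Fin N, (ε N k : ℂ) * z ^ (k : ℕ)‖ - √N| ≤ c * √N := by
  classical
  let P : (N : ℕ) → ℕ → Prop := fun N m => ∃ a : Fin N → ℝ, (∀ k, a k = 1 ∨ a k = -1) ∧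
      ∀ z : ℂ, ‖z‖ = 1 → |‖∑ k : Fin N, (a k : ℂ) * z ^ (k : ℕ)‖ - √N| ≤ 1 / (m + 1) * √N
  refine ⟨fun N => if h : P N (Nat.findGreatest (P N) N) then h.choose else fun _ => 1, ?_, ?_⟩
  · intro N k
    dsimp only
    split_ifs with h
    · exact h.choose_spec.1 k
    · exact Or.inl rfl
  · intro c hc
    obtain ⟨m, hm⟩ := exists_nat_one_div_lt hc
    filter_upwards [main_z (1 / (m + 1)) (by positivity), eventually_ge_atTop m] with N h1 h2 z hz
    have h3 : P N (Nat.findGreatest (P N) N) := Nat.findGreatest_spec h2 h1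
    have h4 : m ≤ Nat.findGreatest (P N) N := Nat.le_findGreatest h2 h1
    rw [dif_pos h3]
    refine (h3.choose_spec.2 z hz).trans (mul_le_mul_of_nonneg_right ?_ (Real.sqrt_nonneg _))
    refine le_trans ?_ hm.le
    have : (m : ℝ) ≤ Nat.findGreatest (P N) N := by exact_mod_cast h4
    gcongr

end Vale.Agent.P110
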