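import Vale.Agent.P110.Basic

/-! Discrete Parseval identity and control of the supremum by `3 N` sample points. -/

namespace Vale.Agent.P110

open Finset

lemma sampling_dvd_iff {M : ℕ} {x : ℤ} (h1 : -(M : ℤ) < x) (h2 : x < M) : (M : ℤ) ∣ x ↔ x = 0 :=
  ⟨fun h => Int.eq_zero_of_abs_lt_dvd h (abs_lt.mpr ⟨h1, h2⟩), fun h => h ▸ dvd_zero _⟩

theorem parseval_range (M N : ℕ) (hM : 0 < M) (hNM : N ≤ M) (d : ℕ → ℂ) (θ : ℝ) :
    ∑ j ∈ range M, ‖∑ k ∈ range N, d k * e (k * (θ - j / M))‖ ^ 2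
      = M * ∑ k ∈ range N, ‖d k‖ ^ 2 := by
  have h1 : ∀ j : ℕ, ((‖∑ k ∈ range N, d k * e (k * (θ - j / M))‖ ^ 2 : ℝ) : ℂ) =
      ∑ k ∈ range N, ∑ l ∈ range N, d k * (starRingEnd ℂ) (d l) * e ((k - l) * θ) *
        e (j * ((l - k : ℤ) : ℝ) / M) := by
    intro j
    rw [← Complex.normSq_eq_norm_sq, ← Complex.mul_conj, map_sum, sum_mul_sum]
    refine sum_congr rfl fun k _ => sum_congr rfl fun l _ => ?_
    rw [map_mul, conj_e, mul_mul_mul_comm, ← e_add, mul_assoc _ (e _), ← e_add]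
    congr 2
    push_cast
    ring
  apply Complex.ofReal_injective
  rw [Complex.ofReal_sum]
  simp_rw [h1]
  rw [sum_comm]
  push_cast
  rw [mul_sum]
  refine sum_congr rfl fun k hk => ?_
  rw [sum_comm]
  have h2 : ∀ l ∈ range N, ∑ j ∈ range M, d k * (starRingEnd ℂ) (d l) * e ((k - l) * θ) *
      e (j * ((l : ℝ) - k) / M) = d k * (starRingEnd ℂ) (d l) * e ((k - l) * θ) *
        (if l = k then (M : ℂ) else 0) := by
    intro l hl
    have h3 := sum_range_e M hM (l - k)
    have hk' := mem_range.mp hk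
    have hl' := mem_range.mp hl
    simp only [sampling_dvd_iff (by omega : -(M : ℤ) < l - k) (by omega), sub_eq_zero,
      Nat.cast_inj] at h3
    push_cast at h3
    rw [← mul_sum, h3]
  rw [sum_congr rfl h2, sum_eq_single k]
  · rw [if_pos rfl, sub_self, zero_mul, e_zero, mul_one, Complex.mul_conj,
      Complex.normSq_eq_norm_sq]
    push_cast; ring
  · intro l _ hl; rw [if_neg hl, mul_zero]
  · intro h; exact absurd hk h

theorem sampling (N : ℕ) (hN : 0 < N) (d : ℕ → ℂ) (Δ : ℝ)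
    (h : ∀ j < 3 * N, ‖∑ k ∈ range N, d k * e (k * (j / (3 * N : ℕ)))‖ ≤ Δ) (θ : ℝ) :
    ‖∑ k ∈ range N, d k * e (k * θ)‖ ≤ 2 * Δ := by
  set M : ℕ := 3 * N with hM
  have hM0 : 0 < M := by omega
  have hΔ : 0 ≤ Δ := (norm_nonneg _).trans (h 0 hM0)
  let P : ℕ → ℂ := fun j => ∑ a ∈ range N, (1 : ℂ) * e (a * (θ - j / M))
  let Q : ℕ → ℂ := fun j => ∑ b ∈ range (2 * N), (1 : ℂ) * e (b * (θ - j / M))
  have hP : ∑ j ∈ range M, ‖P j‖ ^ 2 = M * N := by
    simpa [P] using parseval_range M N hM0 (by omega) (fun _ => 1) θ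
  have hQ : ∑ j ∈ range M, ‖Q j‖ ^ 2 = M * (2 * N) := by
    simpa [Q] using parseval_range M (2 * N) hM0 (by omega) (fun _ => 1) θ
  have hk : ∀ k ∈ range N, ∑ j ∈ range M, e (k * (j / M)) * (P j * Q j * e (-N * (θ - j / M))) =
      M * N * e (k * θ) := by
    intro k hk
    have hk' := mem_range.mp hk
    have h1 : ∀ j : ℕ, e (k * (j / M)) * (P j * Q j * e (-N * (θ - j / M))) =
        ∑ a ∈ range N, ∑ b ∈ range (2 * N), e ((a + b - N) * θ) *
          e (j * ((k + N - a - b : ℤ) : ℝ) / M) := by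
      intro j
      simp only [P, Q]
      rw [sum_mul_sum, sum_mul, mul_sum]
      refine sum_congr rfl fun a _ => ?_
      rw [sum_mul, mul_sum]
      refine sum_congr rfl fun b _ => ?_
      simp only [one_mul, ← e_add]
      congr 1
      push_cast
      ring
    simp_rw [h1]
    rw [sum_comm]
    have h2 : ∀ a ∈ range N, ∑ j ∈ range M, ∑ b ∈ range (2 * N), e ((a + b - N) * θ) *
        e (j * ((k + N - a - b : ℤ) : ℝ) / M) = M * e (k * θ) := by
      intro a ha
      have ha' := mem_range.mp ha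
      rw [sum_comm]
      simp_rw [← mul_sum, sum_range_e M hM0]
      rw [sum_eq_single (k + N - a)]
      · rw [if_pos ⟨0, by omega⟩, mul_comm]
        congr 3
        rw [Nat.cast_sub (by omega)]
        push_cast; ring
      · intro b hb hne
        have hb' := mem_range.mp hb
        rw [if_neg, mul_zero]
        rw [sampling_dvd_iff (by omega) (by omega)]
        omega
      · intro hh; exact absurd (mem_range.mpr (by omega)) hh
    rw [sum_congr rfl h2, sum_const, card_range, nsmul_eq_mul]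
    ring
  have hid : (M * N : ℂ) * ∑ k ∈ range N, d k * e (k * θ) =
      ∑ j ∈ range M, (∑ k ∈ range N, d k * e (k * (j / M))) *
        (P j * Q j * e (-N * (θ - j / M))) := by
    simp_rw [sum_mul]
    rw [sum_comm, mul_sum]
    refine sum_congr rfl fun k hk' => ?_
    simp_rw [mul_assoc (d k)]
    rw [← mul_sum, hk k hk']
    ring
  have hMN : (0 : ℝ) < M * N := by positivity
  have h3 : (M * N : ℝ) * ‖∑ k ∈ range N, d k * e (k * θ)‖ ≤
      ∑ j ∈ range M, Δ * (‖P j‖ ^ 2 + ‖Q j‖ ^ 2 / 4) := by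
    have h4 := congrArg norm hid
    rw [norm_mul, norm_mul, Complex.norm_natCast, Complex.norm_natCast] at h4
    rw [h4]
    refine (norm_sum_le _ _).trans (sum_le_sum fun j hj => ?_)
    rw [norm_mul, norm_mul, norm_mul, norm_e, mul_one]
    refine mul_le_mul (h j (mem_range.mp hj)) ?_ (by positivity) hΔ
    nlinarith [sq_nonneg (‖P j‖ - ‖Q j‖ / 2)]
  rw [← mul_sum, sum_add_distrib, ← sum_div, hP, hQ] at h3
  apply le_of_mul_le_mul_left _ hMN
  nlinarith [mul_nonneg hΔ hMN.le]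

end Vale.Agent.P110
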