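import Vale.Agent.P110.Rounding
import Vale.Agent.P110.Sampling

/-! From a nearly flat polynomial with real coefficients nearly bounded by one to signs. -/

namespace Vale.Agent.P110

open Finset Filter

theorem finish (c : ℝ) (hc : 0 < c) : ∃ ε : ℝ, 0 < ε ∧ ∀ᶠ N : ℕ in atTop, ∀ b : ℕ → ℝ,
    (∀ k < N, |b k| ≤ 1 + ε) →
    (∀ θ : ℝ, |‖∑ k ∈ range N, (b k : ℂ) * e (k * θ)‖ - √N| ≤ ε * √N) →
    ∃ a : ℕ → ℝ, (∀ k, a k = 1 ∨ a k = -1) ∧
      ∀ θ : ℝ, |‖∑ k ∈ range N, (a k : ℂ) * e (k * θ)‖ - √N| ≤ c * √N := by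
  obtain ⟨C, hC, hr⟩ := round_signs
  set η : ℝ := c / (12 * C) with hη
  have hη0 : 0 < η := by positivity
  have hηC : C * η = c / 12 := by rw [hη]; field_simp
  set ε : ℝ := min (min (1 / 2) (c / 6)) (η ^ 4 / 24) with hε
  have hε0 : 0 < ε := by positivity
  have hε1 : ε ≤ 1 / 2 := (min_le_left _ _).trans (min_le_left _ _)
  have hε2 : ε ≤ c / 6 := (min_le_left _ _).trans (min_le_right _ _)
  have hε3 : ε ≤ η ^ 4 / 24 := min_le_right _ _
  refine ⟨ε, hε0, ?_⟩
  filter_upwards [eventually_ge_atTop ⌈(12 / c) ^ 2⌉₊, eventually_gt_atTop 0] with N hN1 hN b hb hflat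
  have hNr : (0 : ℝ) < N := by exact_mod_cast hN
  have hs2 : √(N : ℝ) ^ 2 = N := Real.sq_sqrt hNr.le
  have hs0 : 0 < √(N : ℝ) := Real.sqrt_pos.mpr hNr
  have hsc : 12 ≤ c * √N := by
    have h1 : (12 / c) ^ 2 ≤ (N : ℝ) := (Nat.le_ceil _).trans (by exact_mod_cast hN1)
    have h2 := Real.le_sqrt_of_sq_le h1
    rw [div_le_iff₀ hc] at h2
    linarith
  have hpar : (1 - ε) ^ 2 * N ≤ ∑ k ∈ range N, b k ^ 2 := by
    have h1 := parseval_range N N hN le_rfl (fun k => (b k : ℂ)) 0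
    have h2 : ∑ j ∈ range N, (1 - ε) ^ 2 * (N : ℝ) ≤
        ∑ j ∈ range N, ‖∑ k ∈ range N, (b k : ℂ) * e (k * (0 - j / N))‖ ^ 2 := by
      refine sum_le_sum fun j _ => ?_
      have h3 := (abs_le.mp (hflat (0 - j / N))).1
      calc (1 - ε) ^ 2 * (N : ℝ) = ((1 - ε) * √N) ^ 2 := by rw [mul_pow, hs2]
        _ ≤ _ := pow_le_pow_left₀ (mul_nonneg (by linarith) hs0.le) (by linarith) 2
    rw [h1, sum_const, card_range, nsmul_eq_mul] at h2
    simp only [Complex.norm_real, Real.norm_eq_abs, sq_abs] at h2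
    exact le_of_mul_le_mul_left h2 hNr
  have h1ε : 0 < 1 + ε := by linarith
  let b' : ℕ → ℝ := fun k => b k / (1 + ε)
  have hb' : ∀ k < N, |b' k| ≤ 1 := fun k hk => by
    simp only [b']
    rw [abs_div, abs_of_pos h1ε, div_le_one h1ε]; exact hb k hk
  have hS : ∑ i : Fin N, (1 - |b' i|) ≤ 4 * ε * N := by
    rw [← sum_range (fun k => 1 - |b' k|)]
    have h1 : ∑ k ∈ range N, (1 - |b' k|) ≤ ∑ k ∈ range N, (1 - b k ^ 2 / (1 + ε) ^ 2) := by
      refine sum_le_sum fun k hk => ?_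
      have h2 := hb' k (mem_range.mp hk)
      have h3 : b k ^ 2 / (1 + ε) ^ 2 = |b' k| ^ 2 := by rw [sq_abs, div_pow]
      rw [h3]
      nlinarith [abs_nonneg (b' k)]
    refine h1.trans ?_
    rw [sum_sub_distrib, sum_const, card_range, nsmul_eq_mul, mul_one, ← sum_div]
    have h4 : (1 - 4 * ε) * N ≤ (∑ k ∈ range N, b k ^ 2) / (1 + ε) ^ 2 := by
      rw [le_div_iff₀ (by positivity)]
      refine le_trans ?_ hpar
      have : (1 - 4 * ε) * (1 + ε) ^ 2 ≤ (1 - ε) ^ 2 := by nlinarith [mul_pos hε0 hε0]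
      nlinarith
    linarith
  let v : Fin (3 * N) × Bool → Fin N → ℝ := fun j i =>
    if j.2 then (e (i * ((j.1 : ℕ) / (3 * N : ℕ)))).re else (e (i * ((j.1 : ℕ) / (3 * N : ℕ)))).im
  have hv : ∀ j i, |v j i| ≤ 1 := fun j i => by
    simp only [v]
    split_ifs
    · exact (Complex.abs_re_le_norm _).trans (norm_e _).le
    · exact (Complex.abs_im_le_norm _).trans (norm_e _).le
  obtain ⟨a, ha, hab⟩ := hr (Fin (3 * N) × Bool) (Fin N) v hv (by simp; omega) (fun i => b' i)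
    (fun i => hb' i i.2) _ hS
  have hroot : √(√((Fintype.card (Fin (3 * N) × Bool) : ℝ) * (4 * ε * N))) ≤ η * √N := by
    refine Real.sqrt_le_iff.mpr ⟨by positivity, Real.sqrt_le_iff.mpr ⟨by positivity, ?_⟩⟩
    rw [mul_pow, hs2]
    simp only [Fintype.card_prod, Fintype.card_fin, Fintype.card_bool]
    push_cast
    nlinarith [mul_le_mul_of_nonneg_right hε3 (mul_pos hNr hNr).le]
  let a' : ℕ → ℝ := fun k => if h : k < N then a ⟨k, h⟩ else 1
  refine ⟨a', fun k => ?_, fun θ => ?_⟩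
  · simp only [a']
    split_ifs
    · exact ha _
    · exact Or.inl rfl
  have hsamp := sampling N hN (fun k => ((a' k - b' k : ℝ) : ℂ)) (2 * (c / 12 * √N + 1))
    (fun j hj => by
      have hbd : ∀ t : Bool, |∑ i : Fin N, v (⟨j, hj⟩, t) i * (a i - b' i)| ≤ c / 12 * √N + 1 := by
        intro t
        refine (hab _).trans ?_
        have := mul_le_mul_of_nonneg_left hroot hC.le
        rw [← mul_assoc C η, hηC] at this
        linarith
      refine (Complex.norm_le_abs_re_add_abs_im _).trans ?_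
      have h1 := hbd true
      have h2 := hbd false
      rw [sum_range, Complex.re_sum, Complex.im_sum]
      simp only [v, if_true, Bool.false_eq_true, if_false] at h1 h2
      simp only [Complex.re_ofReal_mul, Complex.im_ofReal_mul, a', Fin.is_lt, dif_pos, Fin.eta]
      simp only [mul_comm (a _ - b' _)]
      linarith) θ
  have hsplit : ∑ k ∈ range N, (a' k : ℂ) * e (k * θ) =
      ∑ k ∈ range N, ((a' k - b' k : ℝ) : ℂ) * e (k * θ) +
        (∑ k ∈ range N, (b k : ℂ) * e (k * θ)) / ((1 + ε : ℝ) : ℂ) := by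
    rw [sum_div, ← sum_add_distrib]
    refine sum_congr rfl fun k _ => ?_
    simp only [b']
    push_cast
    ring
  have hnorm : |‖(∑ k ∈ range N, (b k : ℂ) * e (k * θ)) / ((1 + ε : ℝ) : ℂ)‖ - √N| ≤
      2 * ε * √N := by
    rw [norm_div, Complex.norm_real, Real.norm_eq_abs, abs_of_pos h1ε, abs_le]
    have h1 := abs_le.mp (hflat θ)
    constructor
    · rw [le_sub_iff_add_le, le_div_iff₀ h1ε]
      nlinarith [h1.1, mul_pos (mul_pos hε0 hε0) hs0]
    · rw [sub_le_iff_le_add, div_le_iff₀ h1ε]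
      nlinarith [h1.2, mul_pos (mul_pos hε0 hε0) hs0, mul_pos hε0 hs0]
  have h1 := abs_norm_sub_norm_le (∑ k ∈ range N, (a' k : ℂ) * e (k * θ))
    ((∑ k ∈ range N, (b k : ℂ) * e (k * θ)) / ((1 + ε : ℝ) : ℂ))
  rw [hsplit, add_sub_cancel_right, ← hsplit] at h1
  have h2 := mul_le_mul_of_nonneg_right hε2 hs0.le
  rw [abs_le] at h1 hnorm ⊢
  constructor <;> linarith [h1.1, h1.2, hnorm.1, hnorm.2]

end Vale.Agent.P110
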