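import Vale.Agent.P110.Basic

/-! Quadratic Gauss sums, coprime moduli, and labellings. -/

namespace Vale.Agent.P110

open Finset

lemma gauss_sum_shift (Q : ℕ) (f : ℕ → ℂ) (hf : ∀ n, f (n + Q) = f n) (l : ℕ) :
    ∑ h ∈ range Q, f (l + h) = ∑ h ∈ range Q, f h := by
  induction l with
  | zero => simp
  | succ l ih =>
    have h1 := sum_range_succ (fun h => f (l + h)) Q
    have h2 := sum_range_succ' (fun h => f (l + h)) Q
    rw [hf] at h1
    rw [← ih]
    have h3 : ∑ h ∈ range Q, f (l + 1 + h) = ∑ h ∈ range Q, f (l + (h + 1)) :=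
      sum_congr rfl fun h _ => by congr 1; ring
    rw [h3]
    simp only [add_zero] at h2
    linear_combination h1 - h2

theorem gauss (Q : ℕ) (hQ : Odd Q) (A : ℤ) (hA : IsCoprime A (Q : ℤ)) :
    ∃ u : ℕ → ℂ, (∀ m, ‖u m‖ = 1) ∧
      ∀ k : ℤ, ∑ m ∈ range Q, u m * e (-(k * m / Q)) = (√Q : ℝ) * e (A * k ^ 2 / Q) := by
  have hQ0 : 0 < Q := hQ.pos
  have hQr : (0 : ℝ) < Q := by exact_mod_cast hQ0
  have hs : (0 : ℝ) < √Q := Real.sqrt_pos.mpr hQr
  have hss : ((√Q : ℝ) : ℂ) * ((√Q : ℝ) : ℂ) = Q := by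
    rw [← Complex.ofReal_mul, Real.mul_self_sqrt hQr.le]; simp
  have hsc : ((√Q : ℝ) : ℂ) ≠ 0 := by exact_mod_cast hs.ne'
  have h2A : IsCoprime (2 * A) (Q : ℤ) := by
    refine IsCoprime.mul_left ?_ hA
    obtain ⟨k, hk⟩ := hQ
    exact ⟨-k, 1, by rw [hk]; push_cast; ring⟩
  refine ⟨fun m => (∑ l ∈ range Q, e ((A * l ^ 2 + l * m) / Q)) / ((√Q : ℝ) : ℂ), ?_, ?_⟩
  · intro m
    set f : ℕ → ℂ := fun l => e ((A * l ^ 2 + l * m) / Q) with hf
    have hper : ∀ n, f (n + Q) = f n := by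
      intro n
      apply e_eq_of_sub_eq_int (A * (2 * n + Q) + m)
      push_cast
      field_simp
      ring
    have key : (∑ l ∈ range Q, f l) * (starRingEnd ℂ) (∑ l ∈ range Q, f l) = Q := by
      rw [map_sum, mul_sum]
      have h1 : ∀ l ∈ range Q, (∑ h ∈ range Q, f h) * (starRingEnd ℂ) (f l) =
          ∑ h ∈ range Q, f h * e (l * ((2 * A * h : ℤ) : ℝ) / Q) := by
        intro l _
        rw [← gauss_sum_shift Q f hper l, sum_mul]
        refine sum_congr rfl fun h _ => ?_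
        simp only [hf, conj_e, ← e_add]
        congr 1
        push_cast
        ring
      rw [sum_congr rfl h1, sum_comm]
      simp_rw [← mul_sum, sum_range_e Q hQ0]
      rw [sum_eq_single 0]
      · simp [hf]
      · intro h hh h0
        rw [if_neg, mul_zero]
        intro hd
        have h3 : (Q : ℤ) ∣ h := h2A.symm.dvd_of_dvd_mul_left hd
        have h4 : Q ∣ h := by exact_mod_cast h3
        exact h0 (Nat.eq_zero_of_dvd_of_lt h4 (mem_range.mp hh))
      · intro h; exact absurd (mem_range.mpr hQ0) h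
    rw [Complex.mul_conj, Complex.normSq_eq_norm_sq] at key
    have key' : ‖∑ l ∈ range Q, f l‖ ^ 2 = Q := by exact_mod_cast key
    rw [norm_div, Complex.norm_real, Real.norm_eq_abs, abs_of_pos hs, div_eq_one_iff_eq hs.ne']
    exact ((Real.sqrt_eq_iff_eq_sq hQr.le (norm_nonneg _)).mpr key'.symm).symm
  · intro k
    have h1 : ∀ m ∈ range Q, (∑ l ∈ range Q, e ((A * l ^ 2 + l * m) / Q)) / ((√Q : ℝ) : ℂ) *
        e (-(k * m / Q)) = (∑ l ∈ range Q, e (A * l ^ 2 / Q) *
          e (m * ((l - k : ℤ) : ℝ) / Q)) / ((√Q : ℝ) : ℂ) := by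
      intro m _
      rw [div_mul_eq_mul_div, sum_mul]
      congr 1
      refine sum_congr rfl fun l _ => ?_
      rw [← e_add, ← e_add]
      congr 1
      push_cast
      ring
    rw [sum_congr rfl h1, ← sum_div, sum_comm]
    simp_rw [← mul_sum, sum_range_e Q hQ0]
    have hk0 : 0 ≤ k % Q := Int.emod_nonneg _ (by exact_mod_cast hQ0.ne')
    have hk1 : k % Q < Q := Int.emod_lt_of_pos _ (by exact_mod_cast hQ0)
    obtain ⟨l0, hl0⟩ := Int.eq_ofNat_of_zero_le hk0
    have hkl : k = l0 + Q * (k / Q) := by rw [← hl0]; exact (Int.emod_add_mul_ediv k Q).symm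
    rw [sum_eq_single l0]
    · rw [if_pos ⟨-(k / Q), by linarith⟩, div_eq_iff hsc]
      have : e (A * (l0 : ℝ) ^ 2 / Q) = e (A * (k : ℝ) ^ 2 / Q) := by
        symm
        apply e_eq_of_sub_eq_int (A * (k / Q) * (2 * l0 + Q * (k / Q)))
        have h5 : (k : ℝ) = l0 + Q * ((k / Q : ℤ) : ℝ) := by exact_mod_cast hkl
        set d : ℤ := k / Q
        rw [h5]
        push_cast
        field_simp
        ring
      rw [this]
      linear_combination (-e (A * (k : ℝ) ^ 2 / Q)) * hss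
    · intro l hl hne
      rw [if_neg, mul_zero]
      rintro ⟨c, hc⟩
      have hl' := mem_range.mp hl
      have h6 : (l : ℤ) - l0 = Q * (c + k / Q) := by linarith
      have h7 : c + k / Q = 0 := by
        rcases lt_trichotomy (c + k / Q) 0 with h | h | h
        · nlinarith
        · exact h
        · nlinarith
      rw [h7] at h6
      omega
    · intro h
      exact absurd (mem_range.mpr (by omega)) h

theorem exists_num {β : Type*} [DecidableEq β] (s : Finset β) (p : β → ℕ) (x : β → ℤ)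
    (hp : ∀ b ∈ s, 0 < p b)
    (hpp : ∀ b ∈ s, ∀ b' ∈ s, b ≠ b' → Nat.Coprime (p b) (p b'))
    (hx : ∀ b ∈ s, IsCoprime (x b) (p b : ℤ)) :
    ∃ A : ℤ, IsCoprime A ((∏ b ∈ s, p b : ℕ) : ℤ) ∧
      (A : ℝ) / ((∏ b ∈ s, p b : ℕ) : ℝ) = ∑ b ∈ s, (x b : ℝ) / p b := by
  induction s using Finset.induction_on with
  | empty => exact ⟨0, by simpa using isCoprime_one_right, by simp⟩
  | insert a s ha ih =>
    obtain ⟨A, hA1, hA2⟩ := ih (fun b hb => hp b (mem_insert_of_mem hb))
      (fun b hb b' hb' => hpp b (mem_insert_of_mem hb) b' (mem_insert_of_mem hb'))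
      (fun b hb => hx b (mem_insert_of_mem hb))
    have hc : Nat.Coprime (p a) (∏ b ∈ s, p b) := Nat.Coprime.prod_right fun b hb =>
      hpp a (mem_insert_self _ _) b (mem_insert_of_mem hb) fun h => ha (h ▸ hb)
    have hc' : IsCoprime (p a : ℤ) ((∏ b ∈ s, p b : ℕ) : ℤ) := Nat.isCoprime_iff_coprime.mpr hc
    have hP : (0 : ℝ) < ((∏ b ∈ s, p b : ℕ) : ℝ) := by
      exact_mod_cast prod_pos fun b hb => hp b (mem_insert_of_mem hb)
    have hpa : (0 : ℝ) < p a := by exact_mod_cast hp a (mem_insert_self _ _)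
    refine ⟨x a * ((∏ b ∈ s, p b : ℕ) : ℤ) + A * p a, ?_, ?_⟩
    · rw [prod_insert ha, Nat.cast_mul]
      refine IsCoprime.mul_right ?_ ?_
      · exact ((hx a (mem_insert_self _ _)).mul_left hc'.symm).add_mul_right_left A
      · rw [add_comm]
        exact (hA1.mul_left hc').add_mul_right_left (x a)
    · rw [prod_insert ha, sum_insert ha, ← hA2, Nat.cast_mul, Int.cast_add, Int.cast_mul,
        Int.cast_mul, Int.cast_natCast, Int.cast_natCast]
      field_simp

theorem moduli {α : Type} [Fintype α] [DecidableEq α] (A : α → ℝ) (hA : ∀ a, 0 < A a)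
    (ε : ℝ) (hε : 0 < ε) (D : ℕ) (hD : 0 < D) :
    ∃ μ : ℕ, 0 < μ ∧ ∃ p : α → ℕ, (∀ a, 0 < p a) ∧
      (∀ a b, a ≠ b → Nat.Coprime (p a) (p b)) ∧ (∀ a, Nat.Coprime (p a) D) ∧
      ∀ a, μ * A a ≤ p a ∧ (p a : ℝ) ≤ (1 + ε) * (μ * A a) := by
  set K : ℕ := Fintype.card α + 1 with hK
  set C : ℕ := ∑ a, ⌈3 / (ε * A a)⌉₊ + 1 with hC
  let idx : α → ℕ := fun a => Fintype.equivFin α a
  have hidx : ∀ a, idx a < K := fun a => Nat.lt_succ_of_lt (Fintype.equivFin α a).2
  have hinj : ∀ a b, idx a = idx b → a = b := fun a b h =>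
    (Fintype.equivFin α).injective (Fin.ext h)
  let t : α → ℕ := fun a => K * ⌈C * A a⌉₊ + idx a
  have ht : ∀ a b, t a = t b → a = b := by
    intro a b h
    apply hinj
    have h1 := congrArg (· % K) h
    simpa only [t, Nat.mul_add_mod, Nat.mod_eq_of_lt (hidx a), Nat.mod_eq_of_lt (hidx b)] using h1
  set R : ℕ := D * (∑ a, t a).factorial with hR
  have hR0 : 0 < R := Nat.mul_pos hD (Nat.factorial_pos _)
  have hcop : ∀ a b, t a < t b → Nat.Coprime (t a * R + 1) (t b * R + 1) := by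
    intro a b h
    apply Nat.coprime_mul_succ
    refine Dvd.dvd.mul_left (Nat.dvd_factorial (by omega) ?_) _
    have := single_le_sum (f := t) (fun _ _ => Nat.zero_le _) (mem_univ b)
    omega
  refine ⟨K * C * R, by positivity, fun a => t a * R + 1, fun a => Nat.succ_pos _, ?_, ?_, ?_⟩
  · intro a b hab
    rcases lt_trichotomy (t a) (t b) with h | h | h
    · exact hcop a b h
    · exact absurd (ht a b h) hab
    · exact (hcop b a h).symm
  · intro a
    simp only
    rw [hR, ← mul_assoc, mul_comm (t a) D, mul_assoc]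
    simp
  · intro a
    have h1 : (C : ℝ) * A a ≤ ⌈C * A a⌉₊ := Nat.le_ceil _
    have h2 : (⌈C * A a⌉₊ : ℝ) < C * A a + 1 := Nat.ceil_lt_add_one (by have := hA a; positivity)
    have h3 : (idx a : ℝ) ≤ K := by exact_mod_cast (hidx a).le
    have h4 : (1 : ℝ) ≤ K := by exact_mod_cast Nat.succ_pos _
    have h5 : (1 : ℝ) ≤ R := by exact_mod_cast hR0
    have h6 : 3 ≤ ε * (C * A a) := by
      have h7 : ⌈3 / (ε * A a)⌉₊ ≤ C := by
        have := single_le_sum (f := fun a => ⌈3 / (ε * A a)⌉₊) (fun _ _ => Nat.zero_le _)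
          (mem_univ a)
        omega
      have h8 : 3 / (ε * A a) ≤ C := (Nat.le_ceil _).trans (by exact_mod_cast h7)
      rw [div_le_iff₀ (mul_pos hε (hA a))] at h8
      linarith
    have h9 : (0 : ℝ) ≤ idx a := by positivity
    have hKR : (1 : ℝ) ≤ K * R := by nlinarith
    simp only [t]
    push_cast
    constructor
    · have := mul_le_mul_of_nonneg_left h1 (by linarith : (0 : ℝ) ≤ K * R)
      nlinarith
    · have a1 := mul_le_mul_of_nonneg_left h2.le (by linarith : (0 : ℝ) ≤ K * R)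
      have a2 := mul_le_mul_of_nonneg_left h6 (by linarith : (0 : ℝ) ≤ K * R)
      have a3 := mul_le_mul_of_nonneg_right h3 (by linarith : (0 : ℝ) ≤ R)
      nlinarith

theorem exists_crt {α δ : Type} [Fintype α] [DecidableEq α] [Fintype δ] (n z : α → δ → ℤ)
    (hz : ∀ a, ∑ i, n a i * z a i = 1) (p : α → ℕ)
    (hpp : ∀ a b, a ≠ b → Nat.Coprime (p a) (p b)) (t : α → ℤ) :
    ∃ Z : δ → ℤ, ∀ a, (p a : ℤ) ∣ ∑ i, n a i * Z i - t a := by
  have hE : ∀ a, ∃ E : ℤ, (p a : ℤ) ∣ E - 1 ∧ ∀ b, b ≠ a → (p b : ℤ) ∣ E := by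
    intro a
    have hc : IsCoprime (p a : ℤ) (∏ b ∈ univ.erase a, (p b : ℤ)) :=
      IsCoprime.prod_right fun b hb =>
        Nat.isCoprime_iff_coprime.mpr (hpp a b (ne_of_mem_erase hb).symm)
    obtain ⟨u, v, huv⟩ := hc
    refine ⟨v * ∏ b ∈ univ.erase a, (p b : ℤ), ⟨-u, by linarith⟩, fun b hb => ?_⟩
    exact Dvd.dvd.mul_left (dvd_prod_of_mem _ (mem_erase.mpr ⟨hb, mem_univ b⟩)) _
  choose E hE1 hE2 using hE
  refine ⟨fun i => ∑ b, E b * t b * z b i, fun a => ?_⟩
  have h1 : ∑ i, n a i * ∑ b, E b * t b * z b i = ∑ b, E b * (t b * ∑ i, n a i * z b i) := by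
    simp_rw [mul_sum]
    rw [sum_comm]
    exact sum_congr rfl fun b _ => sum_congr rfl fun i _ => by ring
  rw [h1, ← add_sum_erase _ _ (mem_univ a), hz, mul_one]
  have h2 : E a * t a + ∑ b ∈ univ.erase a, E b * (t b * ∑ i, n a i * z b i) - t a =
      (E a - 1) * t a + ∑ b ∈ univ.erase a, E b * (t b * ∑ i, n a i * z b i) := by ring
  rw [h2]
  exact dvd_add ((hE1 a).mul_right _) (dvd_sum fun b hb =>
    (hE2 b a (ne_of_mem_erase hb).symm).mul_right _)

theorem exists_label {R K : Type} [Fintype R] [DecidableEq K] (key : R → K) (p : ℕ)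
    (h : ∀ k, (univ.filter fun r => key r = k).card ≤ p) :
    ∃ lab : R → ℕ, (∀ r, lab r < p) ∧ ∀ r r', key r = key r' → lab r = lab r' → r = r' := by
  let idx := Fintype.equivFin R
  let S : R → Finset R := fun r => univ.filter fun x => key x = key r ∧ idx x < idx r
  have hlt : ∀ r r', key r = key r' → idx r < idx r' → (S r).card < (S r').card := by
    intro r r' hk hi
    apply card_lt_card
    refine ⟨fun x hx => ?_, fun hsub => ?_⟩
    · simp only [S, mem_filter, mem_univ, true_and] at hx ⊢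
      exact ⟨hx.1.trans hk, hx.2.trans hi⟩
    · have : r ∈ S r := hsub (by simp [S, hk, hi])
      simp [S] at this
  refine ⟨fun r => (S r).card, fun r => lt_of_lt_of_le (card_lt_card ?_) (h (key r)), ?_⟩
  · refine ⟨fun x hx => ?_, fun hsub => ?_⟩
    · simp only [S, mem_filter, mem_univ, true_and] at hx ⊢
      exact hx.1
    · have : r ∈ S r := hsub (by simp)
      simp [S] at this
  · intro r r' hk hl
    rcases lt_trichotomy (idx r) (idx r') with h1 | h1 | h1
    · exact absurd hl (hlt r r' hk h1).ne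
    · exact idx.injective h1
    · exact absurd hl (hlt r' r hk.symm h1).ne'

end Vale.Agent.P110
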