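import Vale.Agent.P110.Finish
import Vale.Agent.P110.Assembly
import Vale.Agent.P110.Packing
import Vale.Agent.P110.Completion

/-! Ultraflat Littlewood polynomials exist for all large lengths. -/

namespace Vale.Agent.P110

open Finset Filter

theorem main_theta (c : ℝ) (hc : 0 < c) : ∀ᶠ N : ℕ in atTop,
    ∃ a : ℕ → ℝ, (∀ k, a k = 1 ∨ a k = -1) ∧
      ∀ θ : ℝ, |‖∑ k ∈ range N, (a k : ℂ) * e (k * θ)‖ - √N| ≤ c * √N := by
  obtain ⟨ε, hε, hfin⟩ := finish c hc
  set ε₁ : ℝ := min (ε / 4) ((ε / 8) ^ 2) with hε₁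
  have hε₁pos : 0 < ε₁ := lt_min (by positivity) (by positivity)
  have h1 : ε₁ ≤ ε / 4 := min_le_left _ _
  have h2 : √ε₁ ≤ ε / 8 := by
    rw [Real.sqrt_le_left (by positivity)]
    exact min_le_right _ _
  obtain ⟨P⟩ := exists_preSystem ε₁ hε₁pos
  obtain ⟨S⟩ := completion hε₁pos P
  filter_upwards [hfin, assembly S (ε / 2) (by positivity)] with N hN hb
  obtain ⟨b, hb1, hb2⟩ := hb
  refine hN b (fun k hk => (hb1 k hk).trans (by linarith)) (fun θ => (hb2 θ).trans ?_)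
  have : 0 ≤ √(N : ℝ) := Real.sqrt_nonneg _
  nlinarith

end Vale.Agent.P110
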