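import Vale.Agent.P110.Basic

/-! Oscillatory integrals: first and second derivative tests. -/

namespace Vale.Agent.P110

open Set

/-- First derivative test. -/
theorem fdt {f f' f'' : ℝ → ℝ} {A B lam σ : ℝ} (hAB : A ≤ B) (hlam : 0 < lam)
    (hσ : σ = 1 ∨ σ = -1)
    (h1 : ∀ x, HasDerivAt f (f' x) x) (h2 : ∀ x, HasDerivAt f' (f'' x) x) (h3 : Continuous f'')
    (hl : ∀ x ∈ Icc A B, lam ≤ |f' x|) (hs : ∀ x ∈ Icc A B, 0 ≤ σ * f'' x) :
    ‖∫ x in A..B, e (f x)‖ ≤ 1 / lam := by
  have hf : Continuous f := continuous_iff_continuousAt.mpr fun x => (h1 x).continuousAt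
  have hf' : Continuous f' := continuous_iff_continuousAt.mpr fun x => (h2 x).continuousAt
  have hne : ∀ x ∈ Icc A B, f' x ≠ 0 := fun x hx => abs_pos.mp (hlam.trans_le (hl x hx))
  have hpi := Real.pi_pos
  have hpic : (Real.pi : ℂ) ≠ 0 := by exact_mod_cast hpi.ne'
  have hI := Complex.I_ne_zero
  have hq : ContinuousOn (fun x => f'' x / f' x ^ 2) (uIcc A B) := by
    rw [uIcc_of_le hAB]
    exact h3.continuousOn.div (hf'.pow 2).continuousOn fun x hx => pow_ne_zero _ (hne x hx)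
  let h : ℝ → ℂ := fun x => e (f x) * ((f' x)⁻¹ : ℝ) / (2 * Real.pi * Complex.I)
  let g : ℝ → ℂ := fun x => e (f x) * ((f'' x / f' x ^ 2 : ℝ) : ℂ) / (2 * Real.pi * Complex.I)
  have hg : ContinuousOn g (uIcc A B) :=
    ((continuous_e.comp hf).continuousOn.mul
      (Complex.continuous_ofReal.comp_continuousOn hq)).div_const _
  have hd : ∀ x ∈ uIcc A B, HasDerivAt h (e (f x) - g x) x := by
    intro x hx
    rw [uIcc_of_le hAB] at hx
    have hx0 : (f' x : ℂ) ≠ 0 := by exact_mod_cast hne x hx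
    refine (((HasDerivAt.e_comp (h1 x)).mul ((h2 x).inv (hne x hx)).ofReal_comp).div_const
      _).congr_deriv ?_
    simp only [g, Pi.inv_apply]
    push_cast
    field_simp
    ring
  have hie : IntervalIntegrable (fun x => e (f x)) MeasureTheory.volume A B :=
    (continuous_e.comp hf).intervalIntegrable _ _
  have e1 := intervalIntegral.integral_eq_sub_of_hasDerivAt hd (hie.sub hg.intervalIntegrable)
  rw [intervalIntegral.integral_sub hie hg.intervalIntegrable] at e1
  have hinv : ∀ x ∈ Icc A B, |(f' x)⁻¹| ≤ 1 / lam := fun x hx => by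
    rw [abs_inv, ← one_div]
    exact one_div_le_one_div_of_le hlam (hl x hx)
  have hn2 : ‖(2 * Real.pi * Complex.I : ℂ)‖ = 2 * Real.pi := by
    simp [abs_of_pos hpi]
  have hh : ∀ x ∈ Icc A B, ‖h x‖ ≤ 1 / lam / (2 * Real.pi) := fun x hx => by
    simp only [h]
    rw [norm_div, norm_mul, norm_e, one_mul, hn2, Complex.norm_real, Real.norm_eq_abs]
    exact div_le_div_of_nonneg_right (hinv x hx) (by positivity)
  have hσ1 : |σ| = 1 := by rcases hσ with h | h <;> simp [h]
  have e2 : ∫ x in A..B, σ * (f'' x / f' x ^ 2) / (2 * Real.pi) =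
      -σ * (f' B)⁻¹ / (2 * Real.pi) - -σ * (f' A)⁻¹ / (2 * Real.pi) := by
    apply intervalIntegral.integral_eq_sub_of_hasDerivAt
      (f := fun x => -σ * (f' x)⁻¹ / (2 * Real.pi))
    · intro x hx
      rw [uIcc_of_le hAB] at hx
      refine ((((h2 x).inv (hne x hx)).const_mul (-σ)).div_const _).congr_deriv ?_
      ring
    · exact ((hq.const_mul σ).div_const _).intervalIntegrable
  have e3 : ‖∫ x in A..B, g x‖ ≤ ∫ x in A..B, σ * (f'' x / f' x ^ 2) / (2 * Real.pi) := by
    refine intervalIntegral.norm_integral_le_of_norm_le hAB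
      (Filter.Eventually.of_forall fun x hx => ?_)
      ((hq.const_mul σ).div_const _).intervalIntegrable
    simp only [g]
    rw [norm_div, norm_mul, norm_e, one_mul, hn2, Complex.norm_real, Real.norm_eq_abs]
    refine div_le_div_of_nonneg_right (le_of_eq ?_) (by positivity)
    have h4 : 0 ≤ σ * (f'' x / f' x ^ 2) := by
      rw [← mul_div_assoc]
      exact div_nonneg (hs x (Ioc_subset_Icc_self hx)) (sq_nonneg _)
    rw [← abs_of_nonneg h4, abs_mul, hσ1, one_mul]
  have e4 : ∀ x ∈ Icc A B, |σ * (f' x)⁻¹ / (2 * Real.pi)| ≤ 1 / lam / (2 * Real.pi) := by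
    intro x hx
    rw [abs_div, abs_mul, hσ1, one_mul, abs_of_pos (by positivity : 0 < 2 * Real.pi)]
    exact div_le_div_of_nonneg_right (hinv x hx) (by positivity)
  have e5 : ∫ x in A..B, e (f x) = h B - h A + ∫ x in A..B, g x := by rw [← e1]; ring
  have hA := left_mem_Icc.mpr hAB
  have hB := right_mem_Icc.mpr hAB
  have e6 : 4 * (1 / lam / (2 * Real.pi)) ≤ 1 / lam := by
    rw [← mul_div_assoc, div_le_iff₀ (by positivity)]
    have := Real.two_le_pi
    have h5 : 0 < 1 / lam := by positivity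
    nlinarith
  rw [e5]
  refine (norm_add_le _ _).trans ?_
  have a1 := norm_sub_le (h B) (h A)
  have a2 := abs_le.mp (e4 A hA)
  have a3 := abs_le.mp (e4 B hB)
  have a4 := hh A hA
  have a5 := hh B hB
  rw [e2, neg_mul, neg_mul, neg_div, neg_div] at e3
  linarith [a2.2, a3.1]

/-- A point from which a strongly monotone function grows linearly in absolute value. -/
theorem exists_center {g : ℝ → ℝ} {A B lam : ℝ} (hAB : A ≤ B) (hlam : 0 < lam)
    (hg : ContinuousOn g (Icc A B))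
    (hmono : ∀ x ∈ Icc A B, ∀ y ∈ Icc A B, x ≤ y → lam * (y - x) ≤ g y - g x) :
    ∃ τ ∈ Icc A B, (∀ x ∈ Icc A B, lam * |x - τ| ≤ |g x|) ∧ (g τ = 0 ∨ τ = A ∨ τ = B) := by
  have hA := left_mem_Icc.mpr hAB
  have hB := right_mem_Icc.mpr hAB
  have _ := hlam
  rcases le_total 0 (g A) with h | h
  · refine ⟨A, hA, fun x hx => ?_, Or.inr (Or.inl rfl)⟩
    rw [abs_of_nonneg (sub_nonneg.mpr hx.1)]
    linarith [hmono A hA x hx hx.1, le_abs_self (g x)]
  rcases le_total (g B) 0 with h' | h'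
  · refine ⟨B, hB, fun x hx => ?_, Or.inr (Or.inr rfl)⟩
    rw [abs_sub_comm, abs_of_nonneg (sub_nonneg.mpr hx.2)]
    linarith [hmono x hx B hB hx.2, neg_abs_le (g x)]
  obtain ⟨τ, hτ, h0⟩ := intermediate_value_Icc hAB hg ⟨h, h'⟩
  refine ⟨τ, hτ, fun x hx => ?_, Or.inl h0⟩
  rcases le_total τ x with hx' | hx'
  · rw [abs_of_nonneg (sub_nonneg.mpr hx')]
    linarith [hmono τ hτ x hx hx', le_abs_self (g x)]
  · rw [abs_sub_comm, abs_of_nonneg (sub_nonneg.mpr hx')]
    linarith [hmono x hx τ hτ hx', neg_abs_le (g x)]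

/-- Away from a window around the centre the integral is small. -/
theorem far_le {f f' f'' : ℝ → ℝ} {A B lam σ τ w : ℝ} (hτ : τ ∈ Icc A B) (hlam : 0 < lam)
    (hw : 0 < w) (hσ : σ = 1 ∨ σ = -1)
    (h1 : ∀ x, HasDerivAt f (f' x) x) (h2 : ∀ x, HasDerivAt f' (f'' x) x) (h3 : Continuous f'')
    (hl : ∀ x ∈ Icc A B, lam * |x - τ| ≤ |f' x|) (hs : ∀ x ∈ Icc A B, 0 ≤ σ * f'' x) :
    ‖(∫ x in A..B, e (f x)) - ∫ x in (max A (τ - w))..(min B (τ + w)), e (f x)‖
      ≤ 2 / (lam * w) := by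
  have hf : Continuous f := continuous_iff_continuousAt.mpr fun x => (h1 x).continuousAt
  have hie : ∀ a b, IntervalIntegrable (fun x => e (f x)) MeasureTheory.volume a b := fun a b =>
    (continuous_e.comp hf).intervalIntegrable _ _
  have hlw : 0 < lam * w := mul_pos hlam hw
  have e1 : ‖∫ x in A..(max A (τ - w)), e (f x)‖ ≤ 1 / (lam * w) := by
    rcases le_total (τ - w) A with h | h
    · rw [max_eq_left h]; simp; positivity
    · rw [max_eq_right h]
      have hsub : ∀ x ∈ Icc A (τ - w), x ∈ Icc A B := fun x hx =>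
        ⟨hx.1, by linarith [hx.2, hτ.2]⟩
      refine fdt h hlw hσ h1 h2 h3 (fun x hx => le_trans ?_ (hl x (hsub x hx)))
        fun x hx => hs x (hsub x hx)
      refine mul_le_mul_of_nonneg_left ?_ hlam.le
      linarith [hx.2, neg_abs_le (x - τ)]
  have e2 : ‖∫ x in (min B (τ + w))..B, e (f x)‖ ≤ 1 / (lam * w) := by
    rcases le_total B (τ + w) with h | h
    · rw [min_eq_left h]; simp; positivity
    · rw [min_eq_right h]
      have hsub : ∀ x ∈ Icc (τ + w) B, x ∈ Icc A B := fun x hx =>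
        ⟨by linarith [hx.1, hτ.1], hx.2⟩
      refine fdt h hlw hσ h1 h2 h3 (fun x hx => le_trans ?_ (hl x (hsub x hx)))
        fun x hx => hs x (hsub x hx)
      refine mul_le_mul_of_nonneg_left ?_ hlam.le
      linarith [hx.1, le_abs_self (x - τ)]
  rw [← intervalIntegral.integral_add_adjacent_intervals (hie A (max A (τ - w)))
    (hie _ B), ← intervalIntegral.integral_add_adjacent_intervals
    (hie (max A (τ - w)) (min B (τ + w))) (hie _ B)]
  have e3 : ∀ a b c : ℂ, a + (b + c) - b = a + c := fun a b c => by ring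
  rw [e3]
  refine (norm_add_le _ _).trans ?_
  have : 2 / (lam * w) = 1 / (lam * w) + 1 / (lam * w) := by ring
  linarith

lemma mono_of_deriv {g g' : ℝ → ℝ} {A B lam : ℝ} (h : ∀ x, HasDerivAt g (g' x) x)
    (hl : ∀ x ∈ Icc A B, lam ≤ g' x) :
    ∀ x ∈ Icc A B, ∀ y ∈ Icc A B, x ≤ y → lam * (y - x) ≤ g y - g x := by
  refine (convex_Icc A B).mul_sub_le_image_sub_of_le_deriv
    (fun x _ => (h x).continuousAt.continuousWithinAt)
    (fun x _ => (h x).differentiableAt.differentiableWithinAt) fun x hx => ?_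
  rw [(h x).deriv]
  exact hl x (interior_subset hx)

lemma norm_window_le (f : ℝ → ℝ) {A B τ w : ℝ} (hτ : τ ∈ Icc A B) (hw : 0 < w) :
    ‖∫ x in (max A (τ - w))..(min B (τ + w)), e (f x)‖ ≤ 2 * w := by
  refine (intervalIntegral.norm_integral_le_of_norm_le_const (C := 1)
    fun x _ => (norm_e _).le).trans ?_
  have h1 := le_max_right A (τ - w)
  have h2 := min_le_right B (τ + w)
  have h3 : max A (τ - w) ≤ τ := max_le hτ.1 (by linarith)
  have h4 : τ ≤ min B (τ + w) := le_min hτ.2 (by linarith)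
  rw [one_mul, abs_of_nonneg (by linarith)]
  linarith

/-- Second derivative test. -/
theorem sdt {f f' f'' : ℝ → ℝ} {A B lam σ : ℝ} (hAB : A ≤ B) (hlam : 0 < lam)
    (hσ : σ = 1 ∨ σ = -1)
    (h1 : ∀ x, HasDerivAt f (f' x) x) (h2 : ∀ x, HasDerivAt f' (f'' x) x) (h3 : Continuous f'')
    (hl : ∀ x ∈ Icc A B, lam ≤ σ * f'' x) :
    ‖∫ x in A..B, e (f x)‖ ≤ 4 / √lam := by
  have hd : ∀ x, HasDerivAt (fun x => σ * f' x) (σ * f'' x) x := fun x => (h2 x).const_mul σ
  obtain ⟨τ, hτ, hc, -⟩ := exists_center hAB hlam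
    (fun x _ => (hd x).continuousAt.continuousWithinAt) (mono_of_deriv hd hl)
  have hσ1 : |σ| = 1 := by rcases hσ with h | h <;> simp [h]
  have hs0 : 0 < √lam := Real.sqrt_pos.mpr hlam
  have hw : 0 < 1 / √lam := by positivity
  have e1 := far_le hτ hlam hw hσ h1 h2 h3
    (fun x hx => by simpa [abs_mul, hσ1] using hc x hx) fun x hx => hlam.le.trans (hl x hx)
  have e2 := norm_window_le f hτ hw
  have e3 : lam * (1 / √lam) = √lam := by
    rw [mul_one_div, div_eq_iff hs0.ne', Real.mul_self_sqrt hlam.le]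
  rw [e3] at e1
  have e4 := norm_le_norm_add_norm_sub' (∫ x in A..B, e (f x))
    (∫ x in (max A (τ - 1 / √lam))..(min B (τ + 1 / √lam)), e (f x))
  have e5 : 4 / √lam = 2 / √lam + 2 * (1 / √lam) := by ring
  linarith

end Vale.Agent.P110
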