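import Vale.Agent.P110.Defs

/-! Existence of a bounded real trigonometric polynomial with non-parallel frequencies. -/

namespace Vale.Agent.P110

open Finset MeasureTheory Filter
open scoped Topology

namespace Res

theorem sum_Icc_sym {M : Type*} [AddCommMonoid M] (f : ℤ → M) (J : ℕ) :
    ∑ m ∈ Icc (-(J : ℤ)) J, f m = f 0 + ∑ j ∈ range J, (f (j + 1) + f (-(j + 1))) := by
  induction J with
  | zero => simp
  | succ J ih =>
    have h : Icc (-((J + 1 : ℕ) : ℤ)) ((J + 1 : ℕ) : ℤ) =
        insert ((J : ℤ) + 1) (insert (-((J : ℤ) + 1)) (Icc (-(J : ℤ)) J)) := by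
      ext m; simp only [mem_Icc, mem_insert]; push_cast; omega
    rw [h, sum_insert (by simp only [mem_Icc, mem_insert]; omega),
      sum_insert (by simp only [mem_Icc]; omega), ih, sum_range_succ]
    abel

theorem pair_sum (f : ℤ → ℂ) (D : ℕ) :
    ∑ a ∈ range D, ∑ b ∈ range D, f (a - b) =
      ∑ m ∈ Icc (-(D : ℤ)) D, ((D : ℂ) - (|m| : ℤ)) * f m := by
  rw [sum_Icc_sym]
  have habs : ∀ j : ℕ, |(j : ℤ) + 1| = j + 1 := fun j => abs_of_pos (by omega)
  simp only [abs_neg, habs, abs_zero]
  induction D with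
  | zero => simp
  | succ D ih =>
    have h1 : ∑ a ∈ range D, f (a - D) = ∑ j ∈ range D, f (-(j + 1)) := by
      rw [← sum_range_reflect]
      refine sum_congr rfl fun j hj => ?_
      have := mem_range.1 hj
      congr 1
      omega
    have h2 : ∑ b ∈ range D, f (D - b) = ∑ j ∈ range D, f (j + 1) := by
      rw [← sum_range_reflect]
      refine sum_congr rfl fun j hj => ?_
      have := mem_range.1 hj
      congr 1
      omega
    simp only [sum_range_succ, sum_add_distrib, h1, h2, sub_self] at ih ⊢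
    rw [ih]
    push_cast
    have h3 : ∀ g : ℕ → ℂ, ∑ j ∈ range D, ((D : ℂ) + 1 - (j + 1)) * g j =
        ∑ j ∈ range D, ((D : ℂ) - (j + 1)) * g j + ∑ j ∈ range D, g j := by
      intro g
      rw [← sum_add_distrib]
      exact sum_congr rfl fun j _ => by ring
    rw [h3, h3]
    ring

/-- The Fejer kernel. -/
noncomputable def K (D : ℕ) (t : ℝ) : ℝ := ‖∑ a ∈ range D, e (a * t)‖ ^ 2 / D

/-- The Fejer weights. -/
noncomputable def w (D : ℕ) (m : ℤ) : ℝ := 1 - (|m| : ℤ) / D

/-- Fourier coefficients on the unit interval. -/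
noncomputable def hat (g : ℝ → ℂ) (m : ℤ) : ℂ := ∫ s in (0 : ℝ)..1, g s * e (-(m * s))

theorem K_nonneg (D : ℕ) (t : ℝ) : 0 ≤ K D t := by unfold K; positivity

theorem continuous_K (D : ℕ) : Continuous (K D) := by unfold K; fun_prop

theorem K_eq {D : ℕ} (hD : 0 < D) (t : ℝ) :
    (K D t : ℂ) = ∑ m ∈ Icc (-(D : ℤ)) D, (w D m : ℂ) * e (m * t) := by
  have hD' : (D : ℂ) ≠ 0 := by exact_mod_cast hD.ne'
  have h := pair_sum (fun m => e (m * t)) D
  have h2 : ((‖∑ a ∈ range D, e (a * t)‖ ^ 2 : ℝ) : ℂ) =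
      ∑ a ∈ range D, ∑ b ∈ range D, e (((a : ℤ) - b : ℤ) * t) := by
    rw [← Complex.normSq_eq_norm_sq, ← Complex.mul_conj, map_sum, sum_mul_sum]
    refine sum_congr rfl fun a _ => sum_congr rfl fun b _ => ?_
    rw [conj_e, ← e_add]
    congr 1
    push_cast
    ring
  rw [K, Complex.ofReal_div, h2, h, sum_div]
  refine sum_congr rfl fun m _ => ?_
  simp only [w, Complex.ofReal_sub, Complex.ofReal_div, Complex.ofReal_one,
    Complex.ofReal_intCast, Complex.ofReal_natCast]
  generalize |m| = k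
  field_simp

theorem conv_eq {D : ℕ} (hD : 0 < D) {g : ℝ → ℂ} (hg : IntervalIntegrable g volume 0 1) (t : ℝ) :
    ∫ s in (0 : ℝ)..1, g s * K D (t - s) =
      ∑ m ∈ Icc (-(D : ℤ)) D, (w D m : ℂ) * hat g m * e (m * t) := by
  simp only [K_eq hD, mul_sum]
  rw [intervalIntegral.integral_finsetSum fun m _ =>
    hg.mul_continuousOn (Continuous.continuousOn (by fun_prop))]
  refine sum_congr rfl fun m _ => ?_
  rw [hat, ← intervalIntegral.integral_const_mul, ← intervalIntegral.integral_mul_const]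
  congr 1
  funext s
  rw [mul_sub, e_sub]
  ring

theorem integral_K {D : ℕ} (hD : 0 < D) (t : ℝ) : ∫ s in (0 : ℝ)..1, K D (t - s) = 1 := by
  have h := conv_eq hD (g := fun _ => 1) intervalIntegrable_const t
  have h1 : ∀ m : ℤ, hat (fun _ => 1) m = if m = 0 then 1 else 0 := by
    intro m
    have := integral_e_int 0 (-m)
    simpa [hat] using this
  simp only [h1, one_mul, mul_ite, mul_one, mul_zero, ite_mul, zero_mul, sum_ite_eq', mem_Icc,
    intervalIntegral.integral_ofReal] at h
  rw [if_pos ⟨by omega, by omega⟩] at h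
  simp only [w, abs_zero, Int.cast_zero, zero_div, sub_zero, Complex.ofReal_one, zero_mul,
    one_mul] at h
  have h0 : e 0 = 1 := by simp [e]
  rw [h0] at h
  exact_mod_cast h

theorem abs_conv_le {D : ℕ} (hD : 0 < D) {g : ℝ → ℝ} (hb : ∀ s, |g s| ≤ 1) (t : ℝ) :
    |∫ s in (0 : ℝ)..1, g s * K D (t - s)| ≤ 1 := by
  have := intervalIntegral.norm_integral_le_of_norm_le (a := 0) (b := 1) (μ := volume)
    (f := fun s => g s * K D (t - s)) (g := fun s => K D (t - s)) zero_le_one
    (Eventually.of_forall fun s _ => by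
      rw [norm_mul, Real.norm_eq_abs, Real.norm_eq_abs, abs_of_nonneg (K_nonneg _ _)]
      exact mul_le_of_le_one_left (K_nonneg _ _) (hb s))
    (((continuous_K D).comp (by fun_prop)).intervalIntegrable _ _)
  rwa [integral_K hD] at this

theorem mass {g : ℝ → ℂ} (hg : Measurable g) (h1 : ∀ s, ‖g s‖ = 1) {η : ℝ} (hη : 0 < η) :
    ∀ᶠ D : ℕ in atTop, 1 - η ≤ ∑ m ∈ Icc (-(D : ℤ)) D, ‖(w D m : ℂ) * hat g m‖ ^ 2 := by
  have hL : MemLp g 2 (volume.restrict (Set.Ioc (0 : ℝ) 1)) :=
    MemLp.of_bound hg.aestronglyMeasurable 1 (Eventually.of_forall fun s => (h1 s).le)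
  have hP := hasSum_sq_fourierCoeffOn zero_lt_one hL
  have hc : ∀ m, fourierCoeffOn zero_lt_one g m = hat g m := by
    intro m
    rw [fourierCoeffOn_eq_integral, hat]
    simp only [sub_zero, div_one, one_smul, smul_eq_mul]
    congr 1
    funext s
    rw [mul_comm, fourier_coe_apply, e]
    congr 2
    push_cast
    ring
  simp only [hc, h1, sub_zero, inv_one, one_pow, intervalIntegral.integral_const, smul_eq_mul,
    mul_one] at hP
  obtain ⟨T, hT⟩ := (hP.eventually (lt_mem_nhds (show 1 - η < 1 by linarith))).exists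
  have hw : ∀ m : ℤ, Tendsto (fun D : ℕ => w D m) atTop (𝓝 1) := by
    intro m
    have := (tendsto_const_div_atTop_nhds_zero_nat ((|m| : ℤ) : ℝ)).const_sub 1
    simpa [w] using this
  have hlim : Tendsto (fun D : ℕ => ∑ m ∈ T, ‖(w D m : ℂ) * hat g m‖ ^ 2) atTop
      (𝓝 (∑ m ∈ T, ‖hat g m‖ ^ 2)) := by
    refine tendsto_finsetSum _ fun m _ => ?_
    have := ((((Complex.continuous_ofReal.tendsto _).comp (hw m)).mul_const (hat g m)).norm).pow 2
    simpa using this
  filter_upwards [hlim.eventually (lt_mem_nhds hT), eventually_ge_atTop (T.sup Int.natAbs)]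
    with D h2 h3
  refine h2.le.trans (sum_le_sum_of_subset_of_nonneg ?_ fun _ _ _ => by positivity)
  intro m hm
  have := (le_sup (f := Int.natAbs) hm).trans h3
  rw [mem_Icc]
  omega

/-- The square wave on the unit interval. -/
noncomputable def sq (s : ℝ) : ℝ := if s ≤ 1 / 2 then 1 else -1

theorem measurable_sq : Measurable sq :=
  Measurable.ite measurableSet_Iic measurable_const measurable_const

theorem abs_sq (s : ℝ) : |sq s| = 1 := by unfold sq; split_ifs <;> simp

theorem ii_sq (a b : ℝ) : IntervalIntegrable (fun s => (sq s : ℂ)) volume a b := by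
  refine (intervalIntegrable_const (c := (1 : ℝ))).mono_fun'
    (Complex.measurable_ofReal.comp measurable_sq).aestronglyMeasurable
    (Eventually.of_forall fun s => ?_)
  simp [abs_sq]

theorem hat_sq_zero : hat (fun s => (sq s : ℂ)) 0 = 0 := by
  simp only [hat, Int.cast_zero, zero_mul, neg_zero, e_zero, mul_one]
  rw [← intervalIntegral.integral_add_adjacent_intervals (ii_sq 0 (1 / 2)) (ii_sq (1 / 2) 1),
    intervalIntegral.integral_congr_ae (g := fun _ => (1 : ℂ)),
    intervalIntegral.integral_congr_ae (a := 1 / 2) (g := fun _ => (-1 : ℂ))]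
  · simp; norm_num
  · refine Eventually.of_forall fun s hs => ?_
    rw [Set.uIoc_of_le (by norm_num)] at hs
    simp only [sq, if_neg (not_le.2 hs.1)]
    simp
  · refine Eventually.of_forall fun s hs => ?_
    rw [Set.uIoc_of_le (by norm_num)] at hs
    simp only [sq, if_pos hs.2]
    simp

theorem hat_sq_neg (m : ℤ) :
    hat (fun s => (sq s : ℂ)) (-m) = (starRingEnd ℂ) (hat (fun s => (sq s : ℂ)) m) := by
  simp only [hat, intervalIntegral.integral_of_le zero_le_one]
  rw [← integral_conj]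
  congr 1
  funext s
  simp [conj_e]

/-- Coefficient vectors of real trigonometric polynomials bounded by one. -/
def Good {J : ℕ} (a : Fin J → ℂ) : Prop :=
  ∀ t : ℝ, |∑ j, 2 * (a j * e (((j : ℕ) + 1) * t)).re| ≤ 1

theorem exists_good {η : ℝ} (hη : 0 < η) :
    ∃ (J : ℕ) (a : Fin J → ℂ), Good a ∧ 1 - η ≤ 2 * ∑ j, ‖a j‖ ^ 2 := by
  obtain ⟨J, h1, hJ⟩ := ((mass (g := fun s => (sq s : ℂ))
    (Complex.measurable_ofReal.comp measurable_sq) (fun s => by simp [abs_sq]) hη).and
    (eventually_gt_atTop 0)).exists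
  have hw : ∀ m, w J (-m) = w J m := fun m => by simp [w]
  refine ⟨J, fun j => (w J ((j : ℕ) + 1) : ℂ) * hat (fun s => (sq s : ℂ)) ((j : ℕ) + 1), ?_, ?_⟩
  · intro t
    have h2 := conv_eq hJ (ii_sq 0 1) t
    have h3 := abs_conv_le hJ (fun s => (abs_sq s).le) t
    rw [sum_Icc_sym] at h2
    simp only [← Complex.ofReal_mul, intervalIntegral.integral_ofReal, hat_sq_zero, hw,
      hat_sq_neg, mul_zero, zero_mul, zero_add] at h2
    have h4 := congrArg Complex.re h2
    rw [Complex.ofReal_re, Complex.re_sum] at h4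
    rw [h4] at h3
    rw [Fin.sum_univ_eq_sum_range (fun j : ℕ => 2 * ((w J (j + 1) : ℂ) *
      hat (fun s => (sq s : ℂ)) (j + 1) * e ((j + 1) * t)).re) J]
    convert h3 using 3 with j
    have : (w J (j + 1) : ℂ) * (starRingEnd ℂ) (hat (fun s => (sq s : ℂ)) (j + 1)) *
        e (((-((j : ℤ) + 1) : ℤ) : ℝ) * t) = (starRingEnd ℂ) ((w J (j + 1) : ℂ) *
          hat (fun s => (sq s : ℂ)) (j + 1) * e ((j + 1) * t)) := by
      rw [map_mul, map_mul, conj_e, Complex.conj_ofReal]
      congr 2
      push_cast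
      ring
    rw [this, Complex.add_re, Complex.conj_re]
    push_cast
    ring
  · rw [sum_Icc_sym] at h1
    simp only [hat_sq_zero, hw, hat_sq_neg, norm_mul, RCLike.norm_conj, norm_zero, mul_zero,
      ← two_mul, ← mul_sum] at h1
    rw [Fin.sum_univ_eq_sum_range (fun j : ℕ => ‖(w J (j + 1) : ℂ) *
      hat (fun s => (sq s : ℂ)) (j + 1)‖ ^ 2) J]
    simp only [norm_mul]
    linarith

/-- The shifted character. -/
noncomputable def sh (i j : ℕ) (s : ℝ) : ℂ := e ((j + 1) * (s / (i + 1)))

theorem continuous_sh (i j : ℕ) : Continuous (sh i j) := by unfold sh; fun_prop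

theorem Good.conv {J D : ℕ} (hD : 0 < D) {a : Fin J → ℂ} (ha : Good a) (i : ℕ) (t : ℝ) :
    Good fun j => a j * ∫ s in (0 : ℝ)..1, sh i j s * K D (t - s) := by
  intro t₀
  have h := abs_conv_le hD (fun s => ha (t₀ + s / (i + 1))) t
  have hK := continuous_K D
  simp only [sum_mul] at h
  rw [intervalIntegral.integral_finsetSum fun j _ =>
    Continuous.intervalIntegrable (by fun_prop) _ _] at h
  convert h using 3 with j
  have hs := continuous_sh i j
  have := Complex.reCLM.intervalIntegral_comp_comm (μ := volume) (a := 0) (b := 1)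
    (f := fun s => a j * (sh i j s * K D (t - s)) * e (((j : ℕ) + 1) * t₀))
    (Continuous.intervalIntegrable (by fun_prop) _ _)
  beta_reduce
  rw [← intervalIntegral.integral_const_mul, ← intervalIntegral.integral_mul_const,
    ← Complex.reCLM_apply, ← this, ← intervalIntegral.integral_const_mul]
  congr 1
  funext s
  have e1 : a j * (sh i j s * K D (t - s)) * e (((j : ℕ) + 1) * t₀) =
      a j * e (((j : ℕ) + 1) * (t₀ + s / (i + 1))) * K D (t - s) := by
    rw [mul_add, e_add, sh]; ring
  rw [e1, Complex.reCLM_apply, Complex.re_mul_ofReal]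
  ring

theorem Good.conv_prod {J D : ℕ} (hD : 0 < D) {a : Fin J → ℂ} (ha : Good a) (t : Fin J → ℝ)
    (S : Finset (Fin J)) :
    Good fun j => a j * ∏ i ∈ S, ∫ s in (0 : ℝ)..1, sh i j s * K D (t i - s) := by
  induction S using Finset.induction_on with
  | empty => simpa using ha
  | insert i S hi ih =>
    have := ih.conv hD i (t i)
    simp only [prod_insert hi]
    convert this using 2
    ring

theorem hat_sh_self (j : ℕ) (m : ℤ) (h : hat (sh j j) m ≠ 0) : m = 1 := by
  by_contra hm
  apply h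
  have := integral_e_int 0 (1 - m)
  rw [if_neg (by omega), zero_add] at this
  rw [hat, ← this]
  congr 1
  funext s
  rw [sh, ← e_add]
  congr 1
  push_cast
  field_simp
  ring

theorem exists_y {α δ : Type} [Fintype α] [DecidableEq α] [Fintype δ] [DecidableEq δ]
    (n : α → δ → ℤ) (v : δ → ℤ) (z : α → δ → ℤ) (hn : Function.Injective n)
    (hv : ∀ a, 0 < ∑ i, n a i * v i) (hz : ∀ a, ∑ i, n a i * z a i = 1) (a : α) :
    ∃ y : δ → ℤ, ∑ i, n a i * y i = 0 ∧ ∀ b, a ≠ b → ∑ i, n b i * y i ≠ 0 := by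
  set u : α → δ → ℤ := fun b i => n b i - (∑ l, n b l * z a l) * n a i with hu
  have hu0 : ∀ b, a ≠ b → ∃ i, u b i ≠ 0 := by
    intro b hab
    by_contra hc
    push Not at hc
    set k := ∑ l, n b l * z a l
    have h1 : ∀ i, n b i = k * n a i := fun i => sub_eq_zero.1 (hc i)
    have h2 := hz b
    have h3 := hv b
    simp only [h1, mul_assoc, ← mul_sum] at h2 h3
    have h4 := hv a
    have h5 : k = 1 := by
      rcases Int.eq_one_or_neg_one_of_mul_eq_one h2 with h | h
      · exact h
      · rw [h] at h3; linarith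
    exact hab (hn (funext fun i => by rw [h1, h5, one_mul]))
  set p : MvPolynomial δ ℤ :=
    ∏ b ∈ univ.erase a, ∑ i, MvPolynomial.C (u b i) * MvPolynomial.X i with hp
  have hp0 : p ≠ 0 := by
    refine prod_ne_zero_iff.2 fun b hb h0 => ?_
    obtain ⟨i, hi⟩ := hu0 b (ne_of_mem_erase hb).symm
    have := congrArg (MvPolynomial.eval (Pi.single i 1)) h0
    simp [Pi.single_apply] at this
    exact hi this
  obtain ⟨x, hx⟩ : ∃ x, MvPolynomial.eval x p ≠ 0 := by
    by_contra hc
    push Not at hc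
    exact hp0 (MvPolynomial.funext fun x => by simp [hc x])
  simp only [hp, map_prod, map_sum, map_mul, MvPolynomial.eval_C, MvPolynomial.eval_X,
    prod_ne_zero_iff] at hx
  refine ⟨fun i => x i - (∑ l, n a l * x l) * z a i, ?_, fun b hab => ?_⟩
  · simp only [mul_sub, sum_sub_distrib, mul_left_comm (n a _), ← mul_sum, hz a]
    ring
  · have := hx b (mem_erase.2 ⟨hab.symm, mem_univ _⟩)
    simp only [hu, sub_mul, sum_sub_distrib, mul_assoc, ← mul_sum] at this
    simp only [mul_sub, sum_sub_distrib, mul_left_comm (n b _), ← mul_sum]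
    rwa [mul_comm] at this

end Res

open Res in
theorem exists_resonant (ε : ℝ) (hε : 0 < ε) : Nonempty (Resonant ε) := by
  classical
  obtain ⟨J, γ, hγ, hm⟩ := exists_good (half_pos hε)
  set η : ℝ := min (ε / (2 * (J + 1))) 1 with hη
  have hη0 : 0 < η := lt_min (by positivity) one_pos
  obtain ⟨D, hD1, hD⟩ := ((eventually_all.2 fun i : Fin J => eventually_all.2 fun j : Fin J =>
    mass (continuous_sh i j).measurable (fun s => norm_e _) hη0).and
    (eventually_gt_atTop 0)).exists
  let B := Fin J × (Fin J → Icc (-(D : ℤ)) D)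
  let c : B → ℂ := fun x => γ x.1 * ∏ i, ((w D (x.2 i) : ℂ) * hat (sh i x.1) (x.2 i))
  let n : B → Option (Fin J) → ℤ := fun x o => o.elim (((x.1 : ℕ) : ℤ) + 1) fun i => x.2 i
  let A := {x : B // c x ≠ 0}
  have hn : Function.Injective fun a : A => n a := by
    intro a b h
    apply Subtype.ext
    refine Prod.ext ?_ (funext fun i => Subtype.ext (congrFun h (some i)))
    have := congrFun h none
    simp only [n, Option.elim_none] at this
    exact Fin.ext (by omega)
  have hv : ∀ a : A, ∑ i, n a i * (Pi.single none 1 : Option (Fin J) → ℤ) i =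
      ((a.1.1 : ℕ) + 1 : ℕ) := by
    intro a
    simp [Pi.single_apply, n]
  have hz : ∀ a : A, ∑ i, n a i * (Pi.single (some a.1.1) 1 : Option (Fin J) → ℤ) i = 1 := by
    intro a
    have h1 := right_ne_zero_of_mul (prod_ne_zero_iff.1 (right_ne_zero_of_mul a.2) a.1.1 (mem_univ _))
    simp [Pi.single_apply, n, hat_sh_self _ _ h1]
  choose y hy0 hy1 using exists_y (fun a : A => n a) (Pi.single none 1)
    (fun a => Pi.single (some a.1.1) 1) hn (fun a => by rw [hv]; positivity) hz
  have hsub : ∀ f : B → ℝ, (∀ x, c x = 0 → f x = 0) → ∑ a : A, f a = ∑ x, f x := by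
    intro f hf
    rw [← sum_subtype (univ.filter fun x => c x ≠ 0) (by simp) f]
    exact sum_filter_of_ne fun x _ h h0 => h (hf x h0)
  refine ⟨{ α := A, δ := Option (Fin J), n := fun a => n a, c := fun a => c a,
            v := Pi.single none 1, s := fun a => (a.1.1 : ℕ) + 1,
            z := fun a => Pi.single (some a.1.1) 1, y := y, hc := fun a => a.2,
            hs := fun a => Nat.succ_pos _, hv := hv, hz := hz, hy0 := hy0, hy1 := hy1,
            mass := ?_, bound := ?_ }⟩
  · rw [hsub (fun x => ‖c x‖ ^ 2) (fun x h => by simp [h]), Fintype.sum_prod_type]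
    have h1 : ∀ j, ‖γ j‖ ^ 2 * (1 - ε / 2) ≤ ∑ m : Fin J → Icc (-(D : ℤ)) D, ‖c (j, m)‖ ^ 2 := by
      intro j
      simp only [c, norm_mul (γ _), norm_prod, mul_pow, ← prod_pow, ← mul_sum]
      rw [← Fintype.piFinset_univ, ← prod_univ_sum (fun _ : Fin J => univ)
        (fun i (m : Icc (-(D : ℤ)) D) => ‖(w D m : ℂ) * hat (sh i j) m‖ ^ 2)]
      refine mul_le_mul_of_nonneg_left ?_ (by positivity)
      have h2 : ∏ _i : Fin J, (1 - η) ≤ ∏ i : Fin J, ∑ m : Icc (-(D : ℤ)) D,
          ‖(w D m : ℂ) * hat (sh i j) m‖ ^ 2 := by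
        refine prod_le_prod (fun _ _ => by linarith [min_le_right (ε / (2 * (J + 1))) 1])
          fun i _ => ?_
        rw [sum_coe_sort (Icc (-(D : ℤ)) D) fun m => ‖(w D m : ℂ) * hat (sh i j) m‖ ^ 2]
        exact hD1 i j
      refine le_trans ?_ h2
      rw [prod_const, card_univ, Fintype.card_fin]
      have h3 := one_add_mul_le_pow (a := -η)
        (by linarith [min_le_right (ε / (2 * (J + 1))) 1]) J
      have h4 : η * (2 * (J + 1)) ≤ ε :=
        (le_div_iff₀ (by positivity)).1 (min_le_left _ _)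
      rw [← sub_eq_add_neg] at h3
      nlinarith
    have h5 := sum_le_sum fun j (_ : j ∈ univ) => h1 j
    rw [← sum_mul] at h5
    have h6 : 0 ≤ ∑ j, ∑ m : Fin J → Icc (-(D : ℤ)) D, ‖c (j, m)‖ ^ 2 := by positivity
    by_cases h7 : ε ≤ 1
    · nlinarith [sq_nonneg ε]
    · linarith
  · intro t
    rw [hsub (fun x => 2 * (c x * e (∑ i, n x i * t i)).re) (fun x h => by simp [h]),
      Fintype.sum_prod_type]
    have h := hγ.conv_prod hD (fun i => t (some i)) univ (t none)
    convert h using 3 with j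
    rw [← mul_sum, ← Complex.re_sum]
    congr 2
    simp only [conv_eq hD ((continuous_sh _ _).intervalIntegrable _ _)]
    simp only [← sum_coe_sort (Icc (-(D : ℤ)) D)]
    rw [prod_univ_sum (fun _ : Fin J => (univ : Finset (Icc (-(D : ℤ)) D)))
        (fun i m => (w D m : ℂ) * hat (sh i j) m * e ((m : ℤ) * t (some i))),
      Fintype.piFinset_univ, mul_sum, sum_mul]
    refine sum_congr rfl fun m _ => ?_
    simp only [c, n, Fintype.sum_option, Option.elim_none, Option.elim_some, e_add, e_sum,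
      prod_mul_distrib]
    push_cast
    ring

end Vale.Agent.P110
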