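import Vale.Agent.P110.Spencer

/-! Dyadic rounding of a vector in the cube to a sign vector. -/

namespace Vale.Agent.P110

open Finset

lemma round_dyadic : ∃ C : ℝ, 0 < C ∧ ∀ (κ ι : Type) [Fintype κ] [Fintype ι] [DecidableEq ι]
    (w : κ → ι → ℝ), (∀ j i, |w j i| ≤ 1) → Fintype.card ι ≤ Fintype.card κ → ∀ S : ℝ,
    ∀ (D : ℕ) (m : ι → ℕ), (∀ i, m i ≤ 2 ^ D) → ∑ i, (m i : ℝ) ≤ 2 ^ D * S →
    ∃ ξ : ι → ℝ, (∀ i, ξ i = 0 ∨ ξ i = 1) ∧
      ∀ j, |∑ i, w j i * (ξ i - m i / 2 ^ D)| ≤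
        C * √(√((Fintype.card κ : ℝ) * S)) * (1 - (5 / 8) ^ D) := by
  obtain ⟨C, hC, hsp⟩ := spencer
  refine ⟨5 / 3 * C, by positivity, fun κ ι _ _ _ w hw hc S D => ?_⟩
  set r : ℝ := √(√((Fintype.card κ : ℝ) * S)) with hr
  have hr0 : 0 ≤ r := Real.sqrt_nonneg _
  induction D with
  | zero =>
    intro m hm _
    refine ⟨fun i => m i, fun i => ?_, fun j => by simp⟩
    have := hm i
    rcases (by omega : m i = 0 ∨ m i = 1) with h | h <;> simp [h]
  | succ D ih =>
    intro m hm hS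
    let A : Finset ι := univ.filter fun i => m i % 2 = 1
    have hAS : (A.card : ℝ) ≤ 2 ^ (D + 1) * S := by
      refine le_trans ?_ hS
      rw [card_eq_sum_ones, Nat.cast_sum, sum_filter]
      refine sum_le_sum fun i _ => ?_
      split_ifs with h
      · have : 1 ≤ m i := by omega
        exact_mod_cast this
      · positivity
    obtain ⟨χ, hχ, hsum, hb⟩ : ∃ χ : ι → ℝ, (∀ i, χ i = 1 ∨ χ i = -1) ∧ ∑ i ∈ A, χ i ≤ 0 ∧
        ∀ j, |∑ i ∈ A, w j i * χ i| ≤ C * √(√((Fintype.card κ : ℝ) * A.card)) := by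
      obtain ⟨χ, h1, h2⟩ := hsp κ ι w hw A ((card_le_univ A).trans hc)
      rcases le_total (∑ i ∈ A, χ i) 0 with h | h
      · exact ⟨χ, h1, h, h2⟩
      · refine ⟨fun i => -χ i, fun i => ?_, by simpa using h, fun j => by simpa using h2 j⟩
        rcases h1 i with h3 | h3 <;> simp [h3]
    let m' : ι → ℕ := fun i => if χ i = 1 then (m i + 1) / 2 else m i / 2
    have hm' : ∀ i, (m' i : ℝ) * 2 = m i + if m i % 2 = 1 then χ i else 0 := by
      intro i
      simp only [m']
      rcases hχ i with h | h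
      · rw [if_pos h, h]
        split_ifs with h2
        · have : (m i + 1) / 2 * 2 = m i + 1 := by omega
          exact_mod_cast this
        · have : (m i + 1) / 2 * 2 = m i := by omega
          rw [add_zero]; exact_mod_cast this
      · rw [if_neg (by rw [h]; norm_num), h]
        split_ifs with h2
        · have : m i / 2 * 2 + 1 = m i := by omega
          have h3 : ((m i / 2 : ℕ) : ℝ) * 2 + 1 = m i := by exact_mod_cast this
          linarith
        · have : m i / 2 * 2 = m i := by omega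
          rw [add_zero]; exact_mod_cast this
    obtain ⟨ξ, hξ, hb'⟩ := ih m' (fun i => by
      have := hm i
      rw [pow_succ] at this
      simp only [m']
      split_ifs <;> omega) (by
      have h1 : (∑ i, (m' i : ℝ)) * 2 = ∑ i, (m i : ℝ) + ∑ i ∈ A, χ i := by
        rw [sum_mul, sum_filter, ← sum_add_distrib]
        exact sum_congr rfl fun i _ => hm' i
      rw [pow_succ] at hS
      linarith)
    refine ⟨ξ, hξ, fun j => ?_⟩
    have h1 : ∑ i, w j i * (ξ i - m i / 2 ^ (D + 1)) =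
        ∑ i, w j i * (ξ i - m' i / 2 ^ D) + (∑ i ∈ A, w j i * χ i) / 2 ^ (D + 1) := by
      rw [sum_filter, sum_div, ← sum_add_distrib]
      refine sum_congr rfl fun i _ => ?_
      have h2 := hm' i
      have h3 : (m' i : ℝ) = (m i + if m i % 2 = 1 then χ i else 0) / 2 := by linarith
      rw [h3]
      split_ifs <;> field_simp <;> ring
    have hS0 : 0 ≤ S := by
      have h4 : (0 : ℝ) ≤ A.card := by positivity
      have h5 : (0 : ℝ) < 2 ^ (D + 1) := by positivity
      exact nonneg_of_mul_nonneg_right (h4.trans hAS) h5 |> fun h => by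
        by_contra hneg
        nlinarith
    have hr4 : (r ^ 2) ^ 2 = Fintype.card κ * S := by
      rw [hr, Real.sq_sqrt (Real.sqrt_nonneg _)]; exact Real.sq_sqrt (by positivity)
    have h2 : √(√((Fintype.card κ : ℝ) * A.card)) ≤ (5 / 4) ^ (D + 1) * r := by
      refine Real.sqrt_le_iff.mpr ⟨by positivity, Real.sqrt_le_iff.mpr ⟨by positivity, ?_⟩⟩
      have h4 : (((5 / 4 : ℝ) ^ (D + 1) * r) ^ 2) ^ 2 =
          ((5 / 4) ^ 4) ^ (D + 1) * (Fintype.card κ * S) := by
        rw [← hr4, ← pow_mul (5 / 4 : ℝ) 4, mul_comm 4, pow_mul]; ring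
      have h5 : (2 : ℝ) ^ (D + 1) ≤ ((5 / 4) ^ 4) ^ (D + 1) :=
        pow_le_pow_left₀ (by norm_num) (by norm_num) _
      have h6 : (0 : ℝ) ≤ Fintype.card κ := by positivity
      rw [h4]
      nlinarith [mul_le_mul_of_nonneg_left hAS h6, mul_le_mul_of_nonneg_right h5 (mul_nonneg h6 hS0)]
    have h3 : |(∑ i ∈ A, w j i * χ i) / 2 ^ (D + 1)| ≤ C * r * (5 / 8) ^ (D + 1) := by
      rw [abs_div, abs_of_pos (by positivity : (0 : ℝ) < 2 ^ (D + 1)), div_le_iff₀ (by positivity)]
      refine (hb j).trans ((mul_le_mul_of_nonneg_left h2 hC.le).trans (le_of_eq ?_))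
      rw [mul_assoc (C * r), ← mul_pow]
      norm_num
      ring
    rw [h1]
    refine (abs_add_le _ _).trans ((add_le_add (hb' j) h3).trans (le_of_eq ?_))
    ring

theorem round_signs : ∃ C : ℝ, 0 < C ∧ ∀ (κ ι : Type) [Fintype κ] [Fintype ι] [DecidableEq ι]
    (v : κ → ι → ℝ), (∀ j i, |v j i| ≤ 1) → Fintype.card ι ≤ Fintype.card κ →
    ∀ (b : ι → ℝ), (∀ i, |b i| ≤ 1) → ∀ S : ℝ, ∑ i, (1 - |b i|) ≤ S →
    ∃ a : ι → ℝ, (∀ i, a i = 1 ∨ a i = -1) ∧
      ∀ j, |∑ i, v j i * (a i - b i)| ≤ C * √(√((Fintype.card κ : ℝ) * S)) + 1 := by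
  obtain ⟨C, hC, hr⟩ := round_dyadic
  refine ⟨2 * C, by positivity, fun κ ι _ _ _ v hv hc b hb S hS => ?_⟩
  let s : ι → ℝ := fun i => if 0 ≤ b i then 1 else -1
  have hs : ∀ i, s i = 1 ∨ s i = -1 := fun i => by
    simp only [s]; split_ifs <;> simp
  have hsb : ∀ i, b i = s i * |b i| := fun i => by
    simp only [s]
    split_ifs with h
    · rw [abs_of_nonneg h, one_mul]
    · rw [abs_of_neg (not_le.mp h)]; ring
  have hsa : ∀ i, |s i| = 1 := fun i => by rcases hs i with h | h <;> simp [h]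
  set D : ℕ := Fintype.card ι + 1 with hD
  have hD0 : (0 : ℝ) < 2 ^ D := by positivity
  let y : ι → ℝ := fun i => (1 - |b i|) / 2
  have hy0 : ∀ i, 0 ≤ y i := fun i => by have := hb i; simp only [y]; linarith
  let m : ι → ℕ := fun i => ⌊2 ^ D * y i⌋₊
  have hm1 : ∀ i, (m i : ℝ) ≤ 2 ^ D * y i := fun i => Nat.floor_le (mul_nonneg hD0.le (hy0 i))
  have hm2 : ∀ i, 2 ^ D * y i < m i + 1 := fun i => Nat.lt_floor_add_one _
  obtain ⟨ξ, hξ, hbd⟩ := hr κ ι (fun j i => v j i * s i)
    (fun j i => by rw [abs_mul, hsa, mul_one]; exact hv j i) hc S D m (fun i => by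
      have h1 : (m i : ℝ) ≤ 2 ^ D := by
        refine (hm1 i).trans ?_
        have : y i ≤ 1 := by have := abs_nonneg (b i); simp only [y]; linarith
        nlinarith
      exact_mod_cast h1) (by
      refine (sum_le_sum fun i _ => hm1 i).trans ?_
      rw [← mul_sum]
      refine mul_le_mul_of_nonneg_left (le_trans (sum_le_sum fun i _ => ?_) hS) hD0.le
      have := hb i
      simp only [y]; linarith)
  refine ⟨fun i => s i * (1 - 2 * ξ i), fun i => ?_, fun j => ?_⟩
  · rcases hs i with h | h <;> rcases hξ i with h' | h' <;> simp only [h, h'] <;> norm_num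
  · have h1 : ∑ i, v j i * (s i * (1 - 2 * ξ i) - b i) =
        -2 * ∑ i, v j i * s i * (ξ i - m i / 2 ^ D) +
          ∑ i, 2 * (v j i * s i * (y i - m i / 2 ^ D)) := by
      rw [mul_sum, ← sum_add_distrib]
      refine sum_congr rfl fun i _ => ?_
      have := hsb i
      simp only [y]
      linear_combination (-v j i) * this
    have h2 : |∑ i, 2 * (v j i * s i * (y i - m i / 2 ^ D))| ≤ 1 := by
      refine (abs_sum_le_sum_abs _ _).trans ?_
      have h3 : ∀ i, |2 * (v j i * s i * (y i - m i / 2 ^ D))| ≤ 2 / 2 ^ D := by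
        intro i
        have h4 : |y i - m i / 2 ^ D| ≤ 1 / 2 ^ D := by
          have e : y i - m i / 2 ^ D = (2 ^ D * y i - m i) / 2 ^ D := by field_simp
          rw [e, abs_div, abs_of_pos hD0]
          refine div_le_div_of_nonneg_right (abs_le.mpr ⟨?_, ?_⟩) hD0.le
          · linarith [hm1 i]
          · linarith [hm2 i]
        rw [abs_mul, abs_mul, abs_mul, hsa, mul_one, abs_two]
        have h5 := mul_le_mul (hv j i) h4 (abs_nonneg _) zero_le_one
        have h6 : (2 : ℝ) / 2 ^ D = 2 * (1 / 2 ^ D) := by ring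
        linarith
      refine (sum_le_sum fun i _ => h3 i).trans ?_
      rw [sum_const, card_univ, nsmul_eq_mul, ← mul_div_assoc, div_le_one hD0, hD, pow_succ]
      have : (Fintype.card ι : ℝ) ≤ 2 ^ Fintype.card ι := by
        exact_mod_cast (Nat.lt_two_pow_self).le
      linarith
    have h3 := hbd j
    have h4 : (0 : ℝ) ≤ (5 / 8) ^ D := by positivity
    have h5 : 0 ≤ C * √(√((Fintype.card κ : ℝ) * S)) := by positivity
    rw [h1]
    refine (abs_add_le _ _).trans ?_
    rw [abs_mul, abs_neg, abs_two]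
    nlinarith [mul_nonneg h5 h4]

end Vale.Agent.P110
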