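import Mathlib

/-! A Spencer-type discrepancy theorem (partial colouring by pigeonhole) and sign rounding. -/

namespace Vale.Agent.P110

open Finset

/-- The sign attached to a bit. -/
def spSgn (b : Bool) : ℝ := if b then 1 else -1

lemma sp_sum_exp_le {α : Type} [Fintype α] [DecidableEq α] (w : α → ℝ) (hw : ∀ i, |w i| ≤ 1)
    (l : ℝ) : ∑ x : α → Bool, Real.exp (l * ∑ i, w i * spSgn (x i)) ≤
      2 ^ Fintype.card α * Real.exp (l ^ 2 * Fintype.card α / 2) := by
  have h1 : ∀ x : α → Bool, Real.exp (l * ∑ i, w i * spSgn (x i)) =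
      ∏ i, Real.exp (l * (w i * spSgn (x i))) := by
    intro x; rw [mul_sum, Real.exp_sum]
  simp_rw [h1]
  rw [← Fintype.prod_sum (fun i b => Real.exp (l * (w i * spSgn b)))]
  have h2 : ∀ i, ∑ b, Real.exp (l * (w i * spSgn b)) ≤ 2 * Real.exp (l ^ 2 / 2) := by
    intro i
    have h3 := Real.cosh_le_exp_half_sq (l * w i)
    rw [Real.cosh_eq] at h3
    have h4 : Real.exp ((l * w i) ^ 2 / 2) ≤ Real.exp (l ^ 2 / 2) := by
      apply Real.exp_le_exp.mpr
      have h5 : w i ^ 2 ≤ 1 := by
        have := hw i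
        rw [← sq_abs]; nlinarith [abs_nonneg (w i)]
      rw [mul_pow]
      nlinarith [sq_nonneg l]
    simp only [Fintype.sum_bool, spSgn, if_true, mul_one, Bool.false_eq_true, if_false, mul_neg]
    linarith
  refine (prod_le_prod (fun i _ => sum_nonneg fun b _ => (Real.exp_pos _).le)
    fun i _ => h2 i).trans ?_
  rw [prod_const, card_univ, mul_pow, ← Real.exp_nat_mul]
  apply le_of_eq
  congr 2
  ring

lemma sp_abs_round_le {a u : ℝ} (ha : 1 ≤ a) :
    |(round u : ℝ)| ≤ Real.exp (-a) * (Real.exp (2 * a * u) + Real.exp (-(2 * a) * u)) := by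
  by_cases h : round u = 0
  · rw [h]; simp only [Int.cast_zero, abs_zero]; positivity
  have h1 : (1 : ℝ) ≤ |(round u : ℝ)| := by
    have := Int.one_le_abs h
    exact_mod_cast this
  have h2 := abs_sub_round u
  have h3 : |(round u : ℝ)| ≤ |u| + 1 / 2 := by
    have := abs_sub_abs_le_abs_sub (round u : ℝ) u
    rw [abs_sub_comm] at this
    linarith
  have h4 : |(round u : ℝ)| ≤ Real.exp (a * (2 * |u| - 1)) := by
    have := Real.add_one_le_exp (a * (2 * |u| - 1))
    nlinarith
  have h5 : Real.exp (a * (2 * |u| - 1)) = Real.exp (-a) * Real.exp (2 * a * |u|) := by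
    rw [← Real.exp_add]; congr 1; ring
  refine h4.trans ?_
  rw [h5]
  refine mul_le_mul_of_nonneg_left ?_ (Real.exp_pos _).le
  rcases abs_cases u with ⟨h6, -⟩ | ⟨h6, -⟩
  · rw [h6]; linarith [Real.exp_pos (-(2 * a) * u)]
  · rw [h6, show 2 * a * -u = -(2 * a) * u by ring]; linarith [Real.exp_pos (2 * a * u)]

lemma sp_sum_pow_natAbs_le {t : ℝ} (h0 : 0 ≤ t) (h1 : t ≤ 1 / 3) (s : Finset ℤ) :
    ∑ k ∈ s, t ^ k.natAbs ≤ Real.exp (3 * t) := by
  have hg := hasSum_geometric_of_lt_one h0 (by linarith)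
  have hs : HasSum (fun k : ℤ => t ^ k.natAbs) ((1 - t)⁻¹ + t * (1 - t)⁻¹) := by
    apply HasSum.of_nat_of_neg_add_one
    · simpa using hg
    · refine (hg.mul_left t).congr_fun ?_ |>.congr_fun fun _ => rfl
      intro n
      rw [show (-((n : ℤ) + 1)).natAbs = n + 1 by omega, pow_succ']
  refine (sum_le_hasSum s (fun k _ => by positivity) hs).trans ?_
  refine le_trans ?_ (Real.add_one_le_exp _)
  have : (0 : ℝ) < 1 - t := by linarith
  rw [← one_add_mul, ← div_eq_mul_inv, div_le_iff₀ this]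
  nlinarith

lemma sp_ball_le {α : Type} [Fintype α] [DecidableEq α] (x0 : α → Bool) (S : Finset (α → Bool))
    (hS : ∀ x ∈ S, ((univ.filter fun i => x i ≠ x0 i).card : ℝ) ≤ Fintype.card α / 10) :
    (S.card : ℝ) ≤ Real.exp (Fintype.card α / 10) * (1 + Real.exp (-1)) ^ Fintype.card α := by
  have h1 : ∀ x : α → Bool, ∏ i, Real.exp (if x i ≠ x0 i then -1 else 0) =
      Real.exp (-((univ.filter fun i => x i ≠ x0 i).card : ℝ)) := by
    intro x
    rw [← Real.exp_sum, ← sum_filter, sum_const]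
    simp
  have h2 : ∑ x : α → Bool, ∏ i, Real.exp (if x i ≠ x0 i then -1 else 0) =
      (1 + Real.exp (-1)) ^ Fintype.card α := by
    rw [← Fintype.prod_sum (fun i b => Real.exp (if b ≠ x0 i then -1 else 0)), ← card_univ,
      ← prod_const]
    refine prod_congr rfl fun i _ => ?_
    cases x0 i <;> simp [add_comm]
  rw [← h2, mul_sum, card_eq_sum_ones, Nat.cast_sum]
  refine (sum_le_sum fun x hx => ?_).trans (sum_le_sum_of_subset_of_nonneg (subset_univ S)
    fun x _ _ => by positivity)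
  rw [h1, ← Real.exp_add, Nat.cast_one]
  apply Real.one_le_exp
  linarith [hS x hx]

lemma sp_const : Real.exp (1 / 10) * (1 + Real.exp (-1)) * Real.exp (1 / 10) < 2 := by
  have h1 : Real.exp (-1) ≤ 1 / 2 := by
    rw [Real.exp_neg, inv_le_comm₀ (Real.exp_pos _) (by norm_num)]
    have := Real.add_one_le_exp 1
    linarith
  have h2 : Real.exp (1 / 10) * Real.exp (1 / 10) ≤ 5 / 4 := by
    rw [← Real.exp_add]
    have h3 := Real.add_one_le_exp (-(1 / 10 + 1 / 10))
    rw [Real.exp_neg] at h3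
    have h4 := Real.exp_pos (1 / 10 + 1 / 10)
    rw [le_inv_comm₀ (by norm_num) h4] at h3
    linarith
  have h3 := Real.exp_pos (1 / 10)
  nlinarith [mul_pos h3 h3]

/-- Partial colouring. -/
lemma sp_partial {κ α : Type} [Fintype κ] [Fintype α] [DecidableEq α] (v : κ → α → ℝ)
    (hv : ∀ j i, |v j i| ≤ 1) (hn : 0 < Fintype.card α) (hM : Fintype.card α ≤ Fintype.card κ) :
    ∃ x x' : α → Bool, (Fintype.card α : ℝ) / 10 < (univ.filter fun i => x i ≠ x' i).card ∧
      ∀ j, |∑ i, v j i * spSgn (x i) - ∑ i, v j i * spSgn (x' i)| ≤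
        12 * √(√((Fintype.card κ : ℝ) * Fintype.card α)) := by
  classical
  set n : ℕ := Fintype.card α with hndef
  set M : ℕ := Fintype.card κ with hMdef
  have hn' : (0 : ℝ) < n := by exact_mod_cast hn
  have hM' : (n : ℝ) ≤ M := by exact_mod_cast hM
  set r : ℝ := √(√((M : ℝ) * n)) with hr
  have hr2 : r ^ 2 = √((M : ℝ) * n) := Real.sq_sqrt (Real.sqrt_nonneg _)
  have hr4 : (r ^ 2) ^ 2 = M * n := by rw [hr2]; exact Real.sq_sqrt (by positivity)
  have hrn : (n : ℝ) ≤ r ^ 2 := by
    rw [hr2]; apply Real.le_sqrt_of_sq_le; nlinarith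
  have hr0 : 0 < r := by
    have : 0 ≤ r := Real.sqrt_nonneg _
    rcases this.lt_or_eq with h | h
    · exact h
    · rw [← h] at hrn; linarith
  set a : ℝ := 36 * r ^ 2 / n with ha
  have han : a * n = 36 * r ^ 2 := by rw [ha]; field_simp
  have ha36 : 36 ≤ a := by rw [ha, le_div_iff₀ hn']; linarith
  set t : ℝ := Real.exp (-(a / 2)) with ht
  have ht0 : 0 < t := Real.exp_pos _
  have ht1 : t * Real.exp (a / 2) = 1 := by rw [ht, ← Real.exp_add]; simp
  have ht3 : t ≤ 1 / 3 := by
    have := Real.add_one_le_exp (a / 2)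
    nlinarith
  have hta : t * a ^ 3 ≤ 48 := by
    have h1 := Real.pow_div_factorial_le_exp (a / 2) (by linarith) 3
    have h2 : (a / 2) ^ 3 / ((3 : ℕ).factorial : ℝ) = a ^ 3 / 48 := by
      simp [Nat.factorial]; ring
    rw [h2] at h1
    nlinarith
  have hMt : M * t * (a + 3) ≤ n / 10 := by
    have h1 : (M : ℝ) * 1296 = a ^ 2 * n := by
      apply mul_right_cancel₀ hn'.ne'
      have : (a * n) ^ 2 = 1296 * (r ^ 2) ^ 2 := by rw [han]; ring
      nlinarith
    have h2 : t * a ^ 2 * (a + 3) ≤ 96 := by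
      have : t * a ^ 2 * (a + 3) ≤ t * a ^ 2 * (2 * a) :=
        mul_le_mul_of_nonneg_left (by linarith) (by positivity)
      nlinarith
    have h3 : M * t * (a + 3) * 1296 = t * a ^ 2 * (a + 3) * n := by
      linear_combination (t * (a + 3)) * h1
    nlinarith
  let l : (α → Bool) → κ → ℝ := fun x j => ∑ i, v j i * spSgn (x i)
  let b : (α → Bool) → κ → ℤ := fun x j => round (l x j / (12 * r))
  have hb : ∀ j, ∑ x, |(b x j : ℝ)| ≤ 2 ^ n * (2 * t) := by
    intro j
    refine (sum_le_sum fun x _ => sp_abs_round_le (a := a) (by linarith)).trans ?_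
    rw [← mul_sum, sum_add_distrib]
    have e1 : ∀ x, 2 * a * (l x j / (12 * r)) = a / (6 * r) * l x j := fun x => by
      field_simp; ring
    have e2 : ∀ x, -(2 * a) * (l x j / (12 * r)) = -(a / (6 * r)) * l x j := fun x => by
      field_simp; ring
    simp_rw [e1, e2]
    have h1 := sp_sum_exp_le (v j) (hv j) (a / (6 * r))
    have h2 := sp_sum_exp_le (v j) (hv j) (-(a / (6 * r)))
    have e3 : (a / (6 * r)) ^ 2 * n / 2 = a / 2 := by
      field_simp
      nlinarith
    rw [neg_sq] at h2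
    rw [← hndef, e3] at h1 h2
    have e4 : Real.exp (-a) * Real.exp (a / 2) = t := by
      rw [ht, ← Real.exp_add]; congr 1; ring
    calc _ ≤ Real.exp (-a) * (2 ^ n * Real.exp (a / 2) + 2 ^ n * Real.exp (a / 2)) :=
          mul_le_mul_of_nonneg_left (add_le_add h1 h2) (Real.exp_pos _).le
      _ = 2 ^ n * (2 * t) := by rw [← e4]; ring
  let W : (κ → ℤ) → ℝ := fun c => ∏ j, t ^ (c j).natAbs
  have hW0 : ∀ c, 0 ≤ W c := fun c => prod_nonneg fun j _ => by positivity
  have hlow : 2 ^ n * Real.exp (-(a * M * t)) ≤ ∑ x, W (b x) := by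
    have h1 : ∀ x, W (b x) = Real.exp (-(a / 2) * ∑ j, |(b x j : ℝ)|) := by
      intro x
      rw [mul_sum, Real.exp_sum]
      refine prod_congr rfl fun j _ => ?_
      rw [ht, ← Real.exp_nat_mul, Nat.cast_natAbs, Int.cast_abs, mul_comm]
    have h2 : ∀ x, Real.exp (-(a * M * t)) * (1 + a * M * t - a / 2 * ∑ j, |(b x j : ℝ)|) ≤
        W (b x) := by
      intro x
      rw [h1]
      have := Real.add_one_le_exp (a * M * t - a / 2 * ∑ j, |(b x j : ℝ)|)
      calc _ ≤ Real.exp (-(a * M * t)) * Real.exp (a * M * t - a / 2 * ∑ j, |(b x j : ℝ)|) :=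
            mul_le_mul_of_nonneg_left (by linarith) (Real.exp_pos _).le
        _ = _ := by rw [← Real.exp_add]; congr 1; ring
    refine le_trans ?_ (sum_le_sum fun x _ => h2 x)
    rw [← mul_sum, mul_comm]
    refine mul_le_mul_of_nonneg_left ?_ (Real.exp_pos _).le
    rw [sum_sub_distrib, ← mul_sum, sum_comm, sum_const, card_univ, Fintype.card_fun,
      Fintype.card_bool, ← hndef, nsmul_eq_mul]
    have h3 : ∑ j, ∑ x, |(b x j : ℝ)| ≤ M * (2 ^ n * (2 * t)) := by
      refine (sum_le_sum fun j _ => hb j).trans ?_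
      rw [sum_const, card_univ, nsmul_eq_mul]
    have h4 := mul_le_mul_of_nonneg_left h3 (by linarith : 0 ≤ a / 2)
    push_cast
    nlinarith
  by_contra hcon
  push Not at hcon
  set B : ℝ := Real.exp (n / 10) * (1 + Real.exp (-1)) ^ n with hB
  have hfib : ∀ c ∈ univ.image b, ((univ.filter fun x => b x = c).card : ℝ) ≤ B := by
    intro c hc
    obtain ⟨x0, -, rfl⟩ := mem_image.mp hc
    refine sp_ball_le x0 _ fun x hx => ?_
    by_contra hlt
    obtain ⟨j, hj⟩ := hcon x x0 (not_le.mp hlt)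
    have h1 : b x j = b x0 j := congrFun (mem_filter.mp hx).2 j
    have h2 := abs_sub_round (l x j / (12 * r))
    have h3 := abs_sub_round (l x0 j / (12 * r))
    have h4 : (round (l x j / (12 * r)) : ℝ) = round (l x0 j / (12 * r)) := by exact_mod_cast h1
    rw [h4] at h2
    have h5 : |l x j / (12 * r) - l x0 j / (12 * r)| ≤ 1 := by
      rw [abs_le] at h2 h3 ⊢
      constructor <;> linarith [h2.1, h2.2, h3.1, h3.2]
    rw [← sub_div, abs_div, abs_of_pos (by positivity : 0 < 12 * r),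
      div_le_one (by positivity)] at h5
    exact absurd h5 (not_le.mpr hj)
  have hup : ∑ x, W (b x) ≤ B * Real.exp (3 * t * M) := by
    rw [← sum_fiberwise_of_maps_to (g := b) (t := univ.image b)
      (fun x _ => mem_image_of_mem _ (mem_univ x))]
    have h1 : ∀ c ∈ univ.image b, ∑ x ∈ univ.filter fun x => b x = c, W (b x) ≤ B * W c := by
      intro c hc
      rw [sum_congr rfl (g := fun _ => W c) fun x hx => by rw [(mem_filter.mp hx).2], sum_const,
        nsmul_eq_mul]
      exact mul_le_mul_of_nonneg_right (hfib c hc) (hW0 c)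
    refine (sum_le_sum h1).trans ?_
    rw [← mul_sum]
    refine mul_le_mul_of_nonneg_left ?_ (by positivity)
    have h2 : univ.image b ⊆ Fintype.piFinset fun j => univ.image fun x => b x j := by
      intro c hc
      obtain ⟨x, -, rfl⟩ := mem_image.mp hc
      exact Fintype.mem_piFinset.mpr fun j => mem_image_of_mem _ (mem_univ x)
    refine (sum_le_sum_of_subset_of_nonneg h2 fun c _ _ => hW0 c).trans ?_
    rw [← prod_univ_sum (fun j => univ.image fun x => b x j) fun _ k => t ^ k.natAbs]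
    refine (prod_le_prod (fun j _ => sum_nonneg fun k _ => by positivity)
      fun j _ => sp_sum_pow_natAbs_le ht0.le ht3 _).trans ?_
    rw [prod_const, card_univ, ← Real.exp_nat_mul, mul_comm]
  have hfin : (2 : ℝ) ^ n ≤ B * Real.exp (n / 10) := by
    have h1 := mul_le_mul_of_nonneg_right (hlow.trans hup) (Real.exp_pos (a * M * t)).le
    rw [mul_assoc, ← Real.exp_add, neg_add_cancel, Real.exp_zero, mul_one, mul_assoc,
      ← Real.exp_add] at h1
    refine h1.trans (mul_le_mul_of_nonneg_left (Real.exp_le_exp.mpr ?_) (by positivity))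
    linarith
  have h1 : B * Real.exp (n / 10) =
      (Real.exp (1 / 10) * (1 + Real.exp (-1)) * Real.exp (1 / 10)) ^ n := by
    rw [hB, mul_pow, mul_pow, ← Real.exp_nat_mul]
    congr 3 <;> ring
  rw [h1] at hfin
  exact absurd hfin (not_le.mpr (pow_lt_pow_left₀ sp_const (by positivity) hn.ne'))

/-- Discrepancy bound `C (M n)^(1/4)` for `M` linear forms in `n ≤ M` variables. -/
theorem spencer : ∃ C : ℝ, 0 < C ∧ ∀ (κ ι : Type) [Fintype κ] [Fintype ι] [DecidableEq ι]
    (v : κ → ι → ℝ), (∀ j i, |v j i| ≤ 1) → ∀ A : Finset ι, A.card ≤ Fintype.card κ →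
    ∃ χ : ι → ℝ, (∀ i, χ i = 1 ∨ χ i = -1) ∧
      ∀ j, |∑ i ∈ A, v j i * χ i| ≤ C * √(√((Fintype.card κ : ℝ) * A.card)) := by
  refine ⟨240, by norm_num, fun κ ι _ _ _ v hv A => ?_⟩
  induction A using Finset.strongInduction with
  | H A ih =>
  intro hA
  rcases A.eq_empty_or_nonempty with rfl | hne
  · exact ⟨fun _ => 1, fun _ => Or.inl rfl, fun j => by simp⟩
  obtain ⟨x, x', hd, hl⟩ := sp_partial (α := A) (fun j i => v j i) (fun j i => hv j i)
    (by simpa using hne.card_pos) (by simpa using hA)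
  rw [Fintype.card_coe] at hd hl
  let D : Finset ι := (univ.filter fun i : A => x i ≠ x' i).map (Function.Embedding.subtype _)
  have hDA : D ⊆ A := by
    intro i hi
    obtain ⟨k, -, rfl⟩ := mem_map.mp hi
    exact k.2
  have hDc : (A.card : ℝ) / 10 < D.card := by rwa [card_map]
  have hcard : ((A \ D).card : ℝ) = A.card - D.card := by
    rw [card_sdiff_of_subset hDA, Nat.cast_sub (card_le_card hDA)]
  have hApos : (0 : ℝ) < A.card := by exact_mod_cast hne.card_pos
  have hss : A \ D ⊂ A := by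
    refine ⟨sdiff_subset, fun h => ?_⟩
    have : (A.card : ℝ) ≤ (A \ D).card := by exact_mod_cast card_le_card h
    linarith
  obtain ⟨χ', hχ', hb⟩ := ih _ hss ((card_le_card sdiff_subset).trans hA)
  let χ : ι → ℝ := fun i => if h : i ∈ D then spSgn (x ⟨i, hDA h⟩) else χ' i
  refine ⟨χ, fun i => ?_, fun j => ?_⟩
  · simp only [χ]
    split_ifs with h
    · cases x ⟨i, hDA h⟩ <;> simp [spSgn]
    · exact hχ' i
  · have e1 : ∑ i ∈ A \ D, v j i * χ i = ∑ i ∈ A \ D, v j i * χ' i :=
      sum_congr rfl fun i hi => by simp only [χ, dif_neg (mem_sdiff.mp hi).2]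
    have e2 : ∑ i : A, v j i * spSgn (x i) - ∑ i : A, v j i * spSgn (x' i) =
        2 * ∑ i ∈ D, v j i * χ i := by
      rw [← sum_sub_distrib, sum_map, mul_sum, sum_filter]
      refine sum_congr rfl fun i _ => ?_
      split_ifs with h
      · have hi : (i : ι) ∈ D := mem_map.mpr ⟨i, mem_filter.mpr ⟨mem_univ _, h⟩, rfl⟩
        simp only [Function.Embedding.coe_subtype, χ, dif_pos hi, Subtype.coe_eta]
        revert h
        cases x i <;> cases x' i <;> simp [spSgn] <;> ring
      · rw [not_not.mp h, sub_self]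
    have h1 := hl j
    rw [e2, abs_mul, abs_two] at h1
    have h2 := hb j
    set r : ℝ := √(√((Fintype.card κ : ℝ) * A.card)) with hr
    have hr0 : 0 ≤ r := Real.sqrt_nonneg _
    have hr4 : (r ^ 2) ^ 2 = Fintype.card κ * A.card := by
      rw [hr, Real.sq_sqrt (Real.sqrt_nonneg _)]; exact Real.sq_sqrt (by positivity)
    have h3 : √(√((Fintype.card κ : ℝ) * (A \ D).card)) ≤ 39 / 40 * r := by
      refine Real.sqrt_le_iff.mpr ⟨by positivity, Real.sqrt_le_iff.mpr ⟨by positivity, ?_⟩⟩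
      have h4 : ((39 / 40 * r) ^ 2) ^ 2 = (39 / 40) ^ 4 * (Fintype.card κ * A.card) := by
        rw [← hr4]; ring
      rw [h4, hcard]
      have h5 : (0 : ℝ) ≤ Fintype.card κ := by positivity
      nlinarith [mul_nonneg h5 hApos.le, mul_le_mul_of_nonneg_left hDc.le h5]
    rw [← sum_sdiff hDA, e1]
    refine (abs_add_le _ _).trans ?_
    linarith

end Vale.Agent.P110
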